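import Vale.Agent.P054.T3.H955.Step2
import Vale.Agent.P054.T3.H373.Main2U

set_option autoImplicit false

/-!
# P054 / T3: the lossless bound in dimension `3` from the start `Sel2Stmt`
-/

namespace Vale.Agent.P054.T3.H955

open Vale.Agent.P054I Vale.Agent.P054K
open Vale.Agent.P054.T3.H854 (StepL LBd lbd_of_step)

/-- all sections for `n = 2` -/
theorem main2Stmt : Main2Stmt := Vale.Agent.P054.T3.H373.main2U

/-- `StepL 2` from the start -/
theorem stepL_two_of_sel (h : Sel2Stmt) : StepL 2 := stepL_two h main2Stmt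

/-- the lossless bound in dimension `3` from the start -/
theorem lbd_three_of_sel (hS : ∀ m : ℕ, 2 ≤ m → Sex m (DC m) ((m : ℝ) / 2)) (h : Sel2Stmt) :
    LBd 3 :=
  lbd_of_step (n := 2) (by norm_num) hS (fun σ h2 h3 => by omega) (stepL_two_of_sel h)

end Vale.Agent.P054.T3.H955
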