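import Vale.Agent.P054.T2.H455.SAD4

/-!
# P054 / T3 (lossless), Lemma V: the data of one hat over an undropped leaf family, and [STAB]

`HData` is the first half of 930's `ZData` with `σ₁ = n` (the leaf family of `s` has not dropped),
without `tight` and without the second hat.
-/

set_option autoImplicit false
set_option linter.unusedSectionVars false

open MvPolynomial Module

namespace Vale.Agent.P054.T3.H955

open Vale.Agent.P054.T2 Vale.Agent.P054.T2.H686 Vale.Agent.P054.T2.H580 Vale.Agent.P054.T2.SecC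
open Vale.Agent.P054.T2.H930
open Vale.Agent.P054.T2.H455 (xh elim_stable GZ GZ_mem eval_GZ dM_chg)
open Vale.Agent.P054.T2.H441 (cD dM zB rot yP chg chg_X dM_C dM_X der_eq_mul der_skew der_zB
  dM_algHom dirV dirV_eq_span zB_mat)
open Vale.Agent.P054.T2.H588 (mat mat_orth KK pv)
open Vale.Agent.P054.T2.H431 (constF mem_constF)

/-- **the data of Lemma V**: `E0` all edges (systems vanish there, leaves are full), `E1 ⊆ E0` the
edges with exact leaf ranks, `E2 ⊆ E1` the edges at which GOOD holds relatively to the points of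
`E1`.  Base family dropped `c₀` times (equations `f`), leaf family of `s` undropped, hat family with
`c₁` vertical equations `h`. -/
structure HData (n : ℕ) (E0 E1 E2 : Finset (ZZ n × ZZ n)) (wt : Crd n ⊕ Pt n → ℕ)
    (N c₀ c₁ : ℕ) where
  adj : ∀ e ∈ E0, e.1.1 0 ≠ e.2.1 0 ∧ Qf (e.1 - e.2) = 0
  sub : E1 ⊆ E0
  sub' : E2 ⊆ E1
  wt_pos : ∀ x, 1 ≤ wt (Sum.inl x)
  wt_le : ∀ x, wt x ≤ N
  leaf : ∀ e ∈ E1, ∀ G : MvPolynomial (Fin n) ℝ, G.totalDegree ≤ N →
        (∀ e' ∈ E0, e'.1 = e.1 → eval (mu e'.1 e'.2) G = 0) →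
        ∀ i, eval (mu e.1 e.2) (pderiv i G) = 0
  f : Fin c₀ → MvPolynomial (Crd n) ℝ
  h : Fin c₁ → MvPolynomial (Crd n ⊕ Pt n) ℝ
  f_mem : ∀ i, rename Sum.inl (f i) ∈ Vw ℝ wt N
  h_mem : ∀ i, h i ∈ Vw ℝ wt N
  f_zero : ∀ i, ∀ e ∈ E0, eval (meet e.1 e.2) (f i) = 0
  h_zero : ∀ i, ∀ e ∈ E0, eval (hatPt e.1 (mu e.1 e.2)) (h i) = 0
  f_ind : ∀ e ∈ E2, LinearIndependent ℝ (fun i => grad (meet e.1 e.2) (f i))
  h_ind : ∀ e ∈ E2, LinearIndependent ℝ (fun i => fun b =>
      eval (hatPt e.1 (mu e.1 e.2)) (pderiv (Sum.inr b) (h i)))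
  good : ∀ e ∈ E2, ∀ P ∈ Vw ℝ wt ((2 * n + 2) * N + 2 * N),
      (∀ e' ∈ E1, eval (hatPt e'.1 (mu e'.1 e'.2)) P = 0) →
        P ∈ germ (hatPt e.1 (mu e.1 e.2)) (Fin.append (fun i => rename Sum.inl (f i)) h)

variable {n : ℕ} {E0 E1 E2 : Finset (ZZ n × ZZ n)} {wt : Crd n ⊕ Pt n → ℕ} {N c₀ c₁ : ℕ}

namespace HData

variable (H : HData n E0 E1 E2 wt N c₀ c₁)

include H in
theorem mem0 {e} (he : e ∈ E2) : e ∈ E0 := H.sub (H.sub' he)

/-- the system of the hat -/
noncomputable def phi : Fin (c₀ + c₁) → MvPolynomial (Crd n ⊕ Pt n) ℝ :=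
  Fin.append (fun i => rename Sum.inl (H.f i)) H.h

/-- the germ prime of the hat at an edge -/
noncomputable def P (e : ZZ n × ZZ n) : Ideal (MvPolynomial (Crd n ⊕ Pt n) ℝ) :=
  germ (xh e) H.phi

/-- the prime of `s` -/
noncomputable def Ps (e : ZZ n × ZZ n) : Ideal (MvPolynomial (Pt n) ℝ) :=
  (H.P e).comap (rename (R := ℝ) (Sum.inr : Pt n → Crd n ⊕ Pt n))

theorem mem_Ps (e : ZZ n × ZZ n) (G : MvPolynomial (Pt n) ℝ) :
    G ∈ H.Ps e ↔ rename (Sum.inr : Pt n → Crd n ⊕ Pt n) G ∈ germ (xh e) H.phi := Iff.rfl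

theorem phi_left (i : Fin c₀) : H.phi (Fin.castAdd c₁ i) = rename Sum.inl (H.f i) := by
  unfold phi
  rw [Fin.append_left]

theorem phi_right (i : Fin c₁) : H.phi (Fin.natAdd c₀ i) = H.h i := by
  unfold phi
  rw [Fin.append_right]

theorem phi_mem (i : Fin (c₀ + c₁)) : H.phi i ∈ Vw ℝ wt N := by
  refine Fin.addCases (fun i => ?_) (fun i => ?_) i
  · rw [phi_left]; exact H.f_mem i
  · rw [phi_right]; exact H.h_mem i

theorem phi_zero {e : ZZ n × ZZ n} (he : e ∈ E0) (i : Fin (c₀ + c₁)) :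
    eval (xh e) (H.phi i) = 0 := by
  refine Fin.addCases (fun i => ?_) (fun i => ?_) i
  · rw [phi_left, eval_rename]
    exact H.f_zero i e he
  · rw [phi_right]; exact H.h_zero i e he

theorem phi_ind {e : ZZ n × ZZ n} (he : e ∈ E2) :
    LinearIndependent ℝ (fun i => grad (xh e) (H.phi i)) := by
  refine grad_block_linInd (xh e) H.phi H.f H.phi_left ?_ ?_
  · exact H.f_ind e he
  · have h1 := H.h_ind e he
    have h2 : (fun i : Fin c₁ => fun b => eval (xh e) (pderiv (Sum.inr b)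
        (H.phi (Fin.natAdd c₀ i)))) = fun i => fun b =>
        eval (hatPt e.1 (mu e.1 e.2)) (pderiv (Sum.inr b) (H.h i)) := by
      funext i b
      rw [phi_right]
      rfl
    rw [h2]
    exact h1

/-- the germ ideal is prime -/
theorem P_prime {e : ZZ n × ZZ n} (he : e ∈ E2) : (H.P e).IsPrime :=
  germ_isPrime (fun i => H.phi_zero (H.mem0 he) i) (H.phi_ind he)

theorem Ps_prime {e : ZZ n × ZZ n} (he : e ∈ E2) : (H.Ps e).IsPrime := by
  have := H.P_prime he
  exact Ideal.IsPrime.comap _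

/-- the incidence polynomials lie in the germ ideal -/
theorem inc_mem {e : ZZ n × ZZ n} (he : e ∈ E2) (i) : incP ℝ n i ∈ H.P e := by
  refine H.good e he _ ?_ (fun _ _ => eval_incP _ _ i)
  exact Vw_mono wt (by omega)
    (incP_mem_Vw wt (g := N) (t := N) (fun x => H.wt_le _) (fun y => H.wt_le _) i)

/-- kernel of the `g`-gradients -/
noncomputable def K1 (e : ZZ n × ZZ n) : Submodule ℝ (Crd n → ℝ) :=
  Ksub (fun (i : Fin (c₀ + c₁)) (j : Crd n) => eval (xh e) (pderiv (Sum.inl j) (H.phi i)))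

/-- the leaf directions lie in the kernel -/
theorem leaf_le_K1 {e : ZZ n × ZZ n} (he : e ∈ E1) : LinearMap.range (leafDir e.1) ≤ H.K1 e := by
  rintro _ ⟨w, rfl⟩ i
  have h1 := leaf_killed E0 e.1 (mu e.1 e.2) wt H.wt_pos (⊤ : Submodule ℝ (Fin n → ℝ))
    (N := N) (fun G hG hG0 w _ => by
      have h2 := H.leaf e he G hG hG0
      exact Finset.sum_eq_zero fun i _ => by rw [h2 i, mul_zero])
    (H.phi_mem i) (fun e' he' => H.phi_zero he' i) w trivial
  rw [← h1]
  exact Finset.sum_congr rfl fun j _ => mul_comm _ _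

theorem finrank_K1_ge {e : ZZ n × ZZ n} (he : e ∈ E1) : n ≤ finrank ℝ (H.K1 e) := by
  have h1 := Submodule.finrank_mono (H.leaf_le_K1 he)
  rw [LinearMap.finrank_range_of_inj (leafDir_injective e.1), Module.finrank_fin_fun] at h1
  exact h1

/-- the kernel consists of leaf directions -/
theorem K1_le_leafDir {e : ZZ n × ZZ n} (he : e ∈ E2) {g : Crd n → ℝ} (hg : g ∈ H.K1 e) :
    g = leafDir e.1 (fun i => g (Sum.inl i)) := by
  classical
  have key : ∀ i, ∑ j, eval (xh e) (pderiv (Sum.inl j) (incP ℝ n i)) * g j = 0 := by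
    intro i
    have h1 : incP ℝ n i ∈ germ (xh e) H.phi := H.inc_mem he i
    have h2 := grad_mem_of_mem_germ (fun i => H.phi_zero (H.mem0 he) i) h1
    let L : (Crd n ⊕ Pt n → ℝ) →ₗ[ℝ] ℝ := ∑ j : Crd n, g j • LinearMap.proj (Sum.inl j)
    have hL : ∀ v : Crd n ⊕ Pt n → ℝ, L v = ∑ j, g j * v (Sum.inl j) := by
      intro v
      simp [L, LinearMap.sum_apply]
    have h4 : Submodule.span ℝ (Set.range fun i => grad (xh e) (H.phi i)) ≤ LinearMap.ker L := by
      rw [Submodule.span_le]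
      rintro _ ⟨i, rfl⟩
      show L _ = 0
      rw [hL, ← hg i]
      exact Finset.sum_congr rfl fun j _ => mul_comm _ _
    have h5 : L (grad (xh e) (incP ℝ n i)) = 0 := h4 h2
    rw [hL] at h5
    rw [← h5]
    exact Finset.sum_congr rfl fun j _ => mul_comm _ _
  funext x
  rcases x with i | i | i
  · rfl
  · have h1 := key (Sum.inl i)
    have h2 : ∀ j, eval (xh e) (pderiv (Sum.inl j) (incP ℝ n (Sum.inl i))) =
        (if j = Sum.inr (Sum.inl i) then 1 else 0) +
          (if j = Sum.inl i then e.1.1 0 else 0) := by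
      intro j
      have h3 : eval (xh e) (X (Sum.inr (Sum.inl 0))) = e.1.1 0 := by
        rw [eval_X]; rfl
      unfold incP
      simp only [map_add, map_sub, map_mul, pderiv_X, Derivation.leibniz, smul_eq_mul,
        Pi.single_apply, Sum.inl.injEq, reduceCtorEq, if_false, map_zero, mul_zero, add_zero,
        sub_zero, h3]
      by_cases h4 : j = Sum.inr (Sum.inl i)
      · subst h4
        simp
      · by_cases h5 : j = Sum.inl i
        · subst h5
          simp
        · simp [h4, h5, Ne.symm h4, Ne.symm h5]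
    simp only [h2, add_mul, Finset.sum_add_distrib, ite_mul, one_mul, zero_mul,
      Finset.sum_ite_eq', Finset.mem_univ, if_true] at h1
    show g (Sum.inr (Sum.inl i)) = - (e.1.1 0 * g (Sum.inl i))
    linarith
  · have h1 := key (Sum.inr ())
    have h2 : ∀ j, eval (xh e) (pderiv (Sum.inl j) (incP ℝ n (Sum.inr ()))) =
        (if j = Sum.inr (Sum.inr ()) then 1 else 0) +
          ∑ l : Fin n, (if j = Sum.inl l then e.1.2 l.succ else 0) := by
      intro j
      have h3 : ∀ l : Fin n, eval (xh e) (X (Sum.inr (Sum.inr l.succ))) = e.1.2 l.succ := by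
        intro l
        rw [eval_X]; rfl
      unfold incP
      simp only [map_add, map_sub, map_mul, map_sum, pderiv_X, Derivation.leibniz, smul_eq_mul,
        Pi.single_apply, Sum.inl.injEq, reduceCtorEq, if_false, map_zero, mul_zero, add_zero,
        sub_zero, h3]
      congr 1
      · by_cases h4 : j = Sum.inr (Sum.inr ())
        · subst h4
          simp
        · simp [h4, Ne.symm h4]
      · refine Finset.sum_congr rfl fun l _ => ?_
        by_cases h5 : j = Sum.inl l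
        · subst h5
          simp
        · simp [h5, Ne.symm h5]
    simp only [h2, add_mul, Finset.sum_add_distrib, ite_mul, one_mul, zero_mul,
      Finset.sum_ite_eq', Finset.mem_univ, if_true] at h1
    have h6 : ∑ j : Crd n, (∑ l : Fin n, (if j = Sum.inl l then e.1.2 l.succ else 0)) * g j =
        ∑ l : Fin n, e.1.2 l.succ * g (Sum.inl l) := by
      simp only [Finset.sum_mul, ite_mul, zero_mul]
      rw [Finset.sum_comm]
      refine Finset.sum_congr rfl fun l _ => ?_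
      rw [Finset.sum_ite_eq']
      simp
    rw [h6] at h1
    show g (Sum.inr (Sum.inr i)) = - ∑ l : Fin n, e.1.2 l.succ * g (Sum.inl l)
    have h7 : g (Sum.inr (Sum.inr i)) = g (Sum.inr (Sum.inr ())) := rfl
    rw [h7]
    linarith

theorem finrank_K1_le {e : ZZ n × ZZ n} (he : e ∈ E2) : finrank ℝ (H.K1 e) ≤ n := by
  have h0 : H.K1 e ≤ LinearMap.range (leafDir e.1) := fun g hg =>
    ⟨fun i => g (Sum.inl i), (H.K1_le_leafDir he hg).symm⟩
  have h1 := Submodule.finrank_mono h0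
  rw [LinearMap.finrank_range_of_inj (leafDir_injective e.1), Module.finrank_fin_fun] at h1
  exact h1

/-- the matrix of the `g`-gradients -/
noncomputable def MZ (e : ZZ n × ZZ n) : Matrix (Fin (c₀ + c₁)) (Crd n) ℝ :=
  Matrix.of fun i j => eval (xh e) (pderiv (Sum.inl j) (H.phi i))

theorem finrank_K1_add (e : ZZ n × ZZ n) : finrank ℝ (H.K1 e) + (H.MZ e).rank = 2 * n + 1 := by
  have h1 := finrank_Ksub (fun (i : Fin (c₀ + c₁)) (j : Crd n) =>
    eval (xh e) (pderiv (Sum.inl j) (H.phi i)))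
  refine Eq.trans h1 ?_
  simp only [Fintype.card_sum, Fintype.card_fin, Fintype.card_unit]
  omega

theorem rank_MZ_le {e : ZZ n × ZZ n} (he : e ∈ E1) : (H.MZ e).rank ≤ n + 1 := by
  have h1 := H.finrank_K1_add e
  have h2 := H.finrank_K1_ge he
  omega

theorem rank_MZ_ge {e : ZZ n × ZZ n} (he : e ∈ E2) : n + 1 ≤ (H.MZ e).rank := by
  have h1 := H.finrank_K1_add e
  have h2 := H.finrank_K1_le he
  omega

variable {k : Type*} [CommRing k] [Algebra k ℝ]

/-- **[STAB]**: the prime of `s` is stable under the coefficientwise derivations, in the coordinates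
`(y, y')` in which the points are constants -/
theorem hat_stab {W : ℕ} (hW : ∀ y, wt (Sum.inr y) = W) {e : ZZ n × ZZ n} (he : e ∈ E2)
    (δ : Derivation k ℝ ℝ) {B : Matrix (Fin (n + 1)) (Fin (n + 1)) ℝ} (hB : B * B.transpose = 1)
    (hpt : ∀ e' ∈ E1, ∃ x : ZZ n, e'.1 = zB B x ∧ (∀ j, δ (x.1 j) = 0) ∧ ∀ j, δ (x.2 j) = 0)
    {G : MvPolynomial (Pt n) ℝ} (hh : chg B G ∈ H.Ps e) : chg B (cD δ G) ∈ H.Ps e := by
  set O : Matrix (Fin (n + 1)) (Fin (n + 1)) ℝ := B.map δ * B.transpose with hO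
  have hDB : B.map δ = O * B := der_eq_mul δ hB
  have hOs : O.transpose = -O := der_skew δ hB
  have hWN : W ≤ N := by
    have := H.wt_le (Sum.inr (Sum.inl 0))
    rwa [hW] at this
  have key := elim_stable (L := ℝ) (ρ := n + 1) wt hW hWN H.phi H.phi_mem
    {e' : ZZ n × ZZ n | e' ∈ E1} xh (fun e' he' i => H.phi_zero (H.sub he') i)
    (p := xh e) (fun i => H.phi_zero (H.mem0 he) i) (H.phi_ind he) δ (GZ O)
    (GZ_mem O wt hW)
    (by
      intro e' he' y
      obtain ⟨x, hx, hx1, hx2⟩ := hpt e' he'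
      rw [eval_rename]
      have h1 : xh e' ∘ Sum.inr = pt e'.1 := rfl
      have h2 : xh e' (Sum.inr y) = pt e'.1 y := rfl
      rw [h1, h2, hx]
      exact eval_GZ δ B O hDB x hx1 hx2 y)
    (fun e' he' => H.rank_MZ_le he') (H.rank_MZ_ge he)
    (by
      intro F hF hF0
      refine H.good e he F (Vw_mono wt ?_ hF) (fun e' he' => hF0 e' he')
      have h1 : (n + 1 + 1) * N ≤ (2 * n + 2) * N + 2 * N := by
        have : (n + 1 + 1) * N ≤ (2 * n + 4) * N := Nat.mul_le_mul_right _ (by omega)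
        calc (n + 1 + 1) * N ≤ (2 * n + 4) * N := this
          _ = _ := by ring
      exact h1)
    hh
  rw [dM_chg δ B O hDB hOs] at key
  exact key

/-- **[STAB]** for the isometry `B` -/
theorem stab {W : ℕ} (hW : ∀ y, wt (Sum.inr y) = W) {e : ZZ n × ZZ n} (he : e ∈ E2)
    (B : E n ≃ₗᵢ[ℝ] E n)
    (hpt : ∀ e' ∈ E1, ∃ s : E n × E n, e'.1 = zt B s ∧ KK (constF k ℝ) s)
    (D : Derivation k ℝ ℝ) (G : MvPolynomial (Pt n) ℝ) (hh : chg (mat B) G ∈ H.Ps e) :
    chg (mat B) (cD D G) ∈ H.Ps e := by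
  refine H.hat_stab hW he D (mat_orth B) (fun e' he' => ?_) hh
  obtain ⟨s, hs, ks⟩ := hpt e' he'
  exact ⟨pv s, by rw [zB_mat, hs], fun j => ks.1 j D, fun j => ks.2 j D⟩

end HData

end Vale.Agent.P054.T3.H955
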