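import Vale.Agent.P054.T3.H955.Integ

/-!
# P054 / T3, Lemma V: the lower bound [LOW]

If `c₁ = 2n+2` (no vertical dimension) and `c₀ ≥ 1`, there is a constant `A` with
`binom(M+n,n) * hF (P^s) m ≤ hilbF (P_e) (M + m + W A)` for all `M, m`.
-/

set_option autoImplicit false
set_option linter.unusedSectionVars false

open MvPolynomial Module

namespace Vale.Agent.P054.T3.H955

open Vale.Agent.P054.T2 Vale.Agent.P054.T2.H686 Vale.Agent.P054.T2.H580 Vale.Agent.P054.T2.SecC
open Vale.Agent.P054.T2.H930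
open Vale.Agent.P054.T2.H441 (cD hF chg)
open Vale.Agent.P054.T2.H588 (mat mat_orth KK pv)
open Vale.Agent.P054.T2.H431 (constF)

variable {n : ℕ}

/-- lift of the coordinates at `u = 0` -/
noncomputable def subsX (n : ℕ) : ZI n → MvPolynomial (Crd n ⊕ Pt n) ℝ
  | Sum.inl i => Fin.cases (X (Sum.inr (Sum.inl 0))) (fun j => X (Sum.inl (Sum.inr (Sum.inl j)))) i
  | Sum.inr i => Fin.cases (- X (Sum.inl (Sum.inr (Sum.inr ()))))
      (fun j => X (Sum.inr (Sum.inr j.succ))) i

/-- the weights of the lifts -/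
def subsW (n W : ℕ) : ZI n → ℕ
  | Sum.inl i => Fin.cases W (fun _ => 1) i
  | Sum.inr i => Fin.cases 1 (fun _ => W) i

theorem coeff_psi_subs (G : MvPolynomial (ZI n) ℝ) :
    coeff 0 (psi n (aeval (subsX n) G)) = G := by
  let cc : US n →ₐ[ℝ] MvPolynomial (Pt n) ℝ :=
    { (constantCoeff : US n →+* MvPolynomial (Pt n) ℝ) with
      commutes' := by
        intro r
        show coeff 0 (C (C r) : US n) = C r
        rw [coeff_zero_C] }
  have h : ((cc.comp (psi n)).comp (aeval (subsX n))) =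
      AlgHom.id ℝ (MvPolynomial (ZI n) ℝ) := by
    apply MvPolynomial.algHom_ext
    intro y
    rw [AlgHom.comp_apply, AlgHom.comp_apply, aeval_X]
    show constantCoeff (psi n (subsX n y)) = X y
    rcases y with i | i
    · refine Fin.cases ?_ (fun j => ?_) i
      · show constantCoeff (psi n (X (Sum.inr (Sum.inl 0)))) = _
        unfold psi
        rw [aeval_X]
        show constantCoeff (C (X (Sum.inl 0)) : US n) = _
        rw [constantCoeff_C]
      · show constantCoeff (psi n (X (Sum.inl (Sum.inr (Sum.inl j))))) = _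
        unfold psi
        rw [aeval_X]
        show constantCoeff (C (X (Sum.inl j.succ)) - C (X (Sum.inl 0)) * X j : US n) = _
        rw [map_sub, map_mul, constantCoeff_C, constantCoeff_X, mul_zero, sub_zero]
    · refine Fin.cases ?_ (fun j => ?_) i
      · show constantCoeff (psi n (- X (Sum.inl (Sum.inr (Sum.inr ()))))) = _
        unfold psi
        rw [map_neg, aeval_X]
        show constantCoeff (- (- C (X (Sum.inr 0)) -
          ∑ l : Fin n, C (X (Sum.inr l.succ)) * X l) : US n) = _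
        rw [map_neg, map_sub, map_neg, constantCoeff_C, map_sum]
        have : ∑ l : Fin n, constantCoeff (C (X (Sum.inr l.succ)) * X l : US n) = 0 :=
          Finset.sum_eq_zero fun l _ => by rw [map_mul, constantCoeff_X, mul_zero]
        rw [this, sub_zero, neg_neg]
      · show constantCoeff (psi n (X (Sum.inr (Sum.inr j.succ)))) = _
        unfold psi
        rw [aeval_X]
        show constantCoeff (C (X (Sum.inr j.succ)) : US n) = _
        rw [constantCoeff_C]
  exact DFunLike.congr_fun h G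

theorem subsX_mem {wt : Crd n ⊕ Pt n → ℕ} {W : ℕ} (hg : ∀ x, wt (Sum.inl x) = 1)
    (hs : ∀ y, wt (Sum.inr y) = W) (y : ZI n) : subsX n y ∈ Vw ℝ wt (subsW n W y) := by
  have hX1 : ∀ x, (X (Sum.inl x) : MvPolynomial (Crd n ⊕ Pt n) ℝ) ∈ Vw ℝ wt 1 := by
    intro x
    have := X_mem_Vw (k := ℝ) wt (Sum.inl x)
    rwa [hg] at this
  have hX2 : ∀ x, (X (Sum.inr x) : MvPolynomial (Crd n ⊕ Pt n) ℝ) ∈ Vw ℝ wt W := by
    intro x
    have := X_mem_Vw (k := ℝ) wt (Sum.inr x)
    rwa [hs] at this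
  rcases y with i | i
  · refine Fin.cases ?_ (fun j => ?_) i
    · exact hX2 _
    · exact hX1 _
  · refine Fin.cases ?_ (fun j => ?_) i
    · exact Submodule.neg_mem _ (hX1 _)
    · exact hX2 _

theorem sum_subsW (W : ℕ) (s : ZI n →₀ ℕ) :
    ∑ y, s y * subsW n W y ≤ s.degree + W * eDeg s := by
  have h1 : ∑ y, s y * subsW n W y = (s (Sum.inl 0) * W + ∑ j : Fin n, s (Sum.inl j.succ)) +
      (s (Sum.inr 0) + ∑ j : Fin n, s (Sum.inr j.succ) * W) := by
    rw [Fintype.sum_sum_type, Fin.sum_univ_succ, Fin.sum_univ_succ]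
    simp [subsW]
  have h2 : s.degree = (s (Sum.inl 0) + ∑ j : Fin n, s (Sum.inl j.succ)) +
      (s (Sum.inr 0) + ∑ j : Fin n, s (Sum.inr j.succ)) := by
    rw [Finsupp.degree_eq_sum, Fintype.sum_sum_type, Fin.sum_univ_succ, Fin.sum_univ_succ]
  rw [h1, h2]
  unfold eDeg
  rw [mul_add, Finset.mul_sum]
  have h3 : ∑ j : Fin n, s (Sum.inr j.succ) * W = ∑ j : Fin n, W * s (Sum.inr j.succ) :=
    Finset.sum_congr rfl fun j _ => mul_comm _ _
  rw [h3, mul_comm W (s (Sum.inl 0))]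
  omega

theorem aeval_subs_mem {wt : Crd n ⊕ Pt n → ℕ} {W : ℕ} (hg : ∀ x, wt (Sum.inl x) = 1)
    (hs : ∀ y, wt (Sum.inr y) = W) (hwt : ∀ x, wt x ≠ 0) (s : ZI n →₀ ℕ) :
    aeval (subsX n) (monomial s (1 : ℝ)) ∈ Vw ℝ wt (s.degree + W * eDeg s) := by
  classical
  have h1 : aeval (subsX n) (monomial s (1 : ℝ)) = ∏ y, subsX n y ^ s y := by
    rw [aeval_monomial, map_one, one_mul, Finsupp.prod_fintype]
    intro y
    rw [pow_zero]
  have hfilt := isFilt_Vw (k := ℝ) wt hwt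
  have h2 : ∀ S : Finset (ZI n), ∏ y ∈ S, subsX n y ^ s y ∈ Vw ℝ wt (∑ y ∈ S, s y * subsW n W y) := by
    intro S
    induction S using Finset.induction_on with
    | empty => simpa using hfilt.one
    | insert a S ha ih =>
      rw [Finset.prod_insert ha, Finset.sum_insert ha]
      exact hfilt.mul (hfilt.pow_mem (subsX_mem hg hs a) (s a)) ih
  rw [h1]
  exact hfilt.mono (sum_subsW W s) (h2 Finset.univ)

namespace HData

variable {E0 E1 E2 : Finset (ZZ n × ZZ n)} {wt : Crd n ⊕ Pt n → ℕ} {N c₀ c₁ : ℕ}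
  (H : HData n E0 E1 E2 wt N c₀ c₁)

/-- **[LOW]**, from the integrality constant `A` -/
theorem low_of_integ {e : ZZ n × ZZ n} (he : e ∈ E2) {W : ℕ} (hW : 1 ≤ W)
    (hg : ∀ x, wt (Sum.inl x) = 1) (hs : ∀ y, wt (Sum.inr y) = W) {A : ℕ}
    (hA : ∀ T, restrictTotalDegree (ZI n) ℝ T ≤ (H.Ps e).restrictScalars ℝ ⊔ MM n A T) (M m : ℕ) :
    (M + n).choose n * hF (H.Ps e) m ≤ hilbF (Vw ℝ wt) (H.P e) (M + (m + W * A)) := by
  classical
  have hwt : ∀ x, wt x ≠ 0 := by
    rintro (x | x)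
    · rw [hg]; exact one_ne_zero
    · rw [hs]; omega
  let Ms : Set (ZI n →₀ ℕ) := {s | s.degree ≤ m ∧ eDeg s ≤ A}
  let v : Ms → MvPolynomial (Pt n) ℝ ⧸ H.Ps e :=
    fun s => Ideal.Quotient.mk (H.Ps e) (monomial s.1 (1 : ℝ))
  set S := (restrictTotalDegree (ZI n) ℝ m).map (Ideal.Quotient.mkₐ ℝ (H.Ps e)).toLinearMap with hS
  have hspan : S ≤ Submodule.span ℝ (Set.range v) := by
    rintro _ ⟨F, hF, rfl⟩
    obtain ⟨x, hx, y, hy, hxy⟩ := Submodule.mem_sup.1 (hA m hF)
    have h1 : (Ideal.Quotient.mkₐ ℝ (H.Ps e)).toLinearMap F =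
        (Ideal.Quotient.mkₐ ℝ (H.Ps e)).toLinearMap y := by
      rw [← hxy, map_add]
      have : (Ideal.Quotient.mkₐ ℝ (H.Ps e)).toLinearMap x = 0 :=
        Ideal.Quotient.eq_zero_iff_mem.2 hx
      rw [this, zero_add]
    rw [h1, y.as_sum, map_sum]
    refine Submodule.sum_mem _ fun s hs' => ?_
    have h2 : (monomial s (coeff s y)) = coeff s y • monomial s (1 : ℝ) := by
      rw [smul_monomial, smul_eq_mul, mul_one]
    rw [h2, map_smul]
    exact Submodule.smul_mem _ _ (Submodule.subset_span ⟨⟨s, (mem_MM.1 hy) s hs'⟩, rfl⟩)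
  obtain ⟨κ, a, ha, ha2, ha3⟩ := exists_linearIndependent' ℝ v
  have hMsf : Finite Ms := by
    have : Finite {s : ZI n →₀ ℕ | s.degree ≤ m} := (Finsupp.finite_of_degree_le m).to_subtype
    exact Finite.Set.subset {s : ZI n →₀ ℕ | s.degree ≤ m} (fun s hs => hs.1)
  have hκ : Finite κ := Finite.of_injective a ha
  have : Fintype κ := Fintype.ofFinite κ
  have hcard : hF (H.Ps e) m ≤ Fintype.card κ := by
    have h1 : finrank ℝ (Submodule.span ℝ (Set.range (v ∘ a))) ≤ Fintype.card κ :=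
      finrank_range_le_card _
    have h2 : Module.Finite ℝ (Submodule.span ℝ (Set.range (v ∘ a))) :=
      Module.Finite.span_of_finite ℝ (Set.finite_range _)
    rw [← ha2] at hspan
    exact (Submodule.finrank_mono hspan).trans h1
  have hmain := H.choose_mul_card_le he hwt (fun i => hg _)
    (fun i : κ => aeval (subsX n) (monomial (a i).1 (1 : ℝ)))
    (by
      have h1 : (fun i : κ => Ideal.Quotient.mk (H.Ps e)
          (coeff 0 (psi n (aeval (subsX n) (monomial (a i).1 (1 : ℝ)))))) = v ∘ a := by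
        funext i
        rw [coeff_psi_subs]
        rfl
      rw [h1]
      exact ha3)
    (M := M) (w := m + W * A) (fun i => by
      have h1 := aeval_subs_mem hg hs hwt (a i).1
      refine (isFilt_Vw (k := ℝ) wt hwt).mono ?_ h1
      have h2 := (a i).2
      exact Nat.add_le_add h2.1 (Nat.mul_le_mul_left _ h2.2))
  exact (Nat.mul_le_mul_left _ hcard).trans hmain

variable {k : Type*} [CommRing k] [Algebra k ℝ]

/-- **[LOW]** -/
theorem low {e : ZZ n × ZZ n} (he : e ∈ E2) {W : ℕ} (hW : 1 ≤ W)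
    (hg : ∀ x, wt (Sum.inl x) = 1) (hs : ∀ y, wt (Sum.inr y) = W) (hc₀ : 1 ≤ c₀)
    (hc₁ : c₁ = 2 * n + 2) (B : E n ≃ₗᵢ[ℝ] E n)
    (hgen : ∀ O : Matrix (Fin (n + 1)) (Fin (n + 1)) ℝ, O.transpose = -O →
      ∃ D : Derivation k ℝ ℝ, ∀ i j, D (mat B i j) = (mat B * O) i j)
    (hpt : ∀ e' ∈ E1, ∃ s : E n × E n, e'.1 = zt B s ∧ KK (constF k ℝ) s) :
    ∃ A : ℕ, ∀ M m, (M + n).choose n * hF (H.Ps e) m ≤
      hilbF (Vw ℝ wt) (H.P e) (M + (m + W * A)) := by
  have hwt : ∀ x, wt x ≠ 0 := by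
    rintro (x | x)
    · rw [hg]; exact one_ne_zero
    · rw [hs]; omega
  obtain ⟨C, hC⟩ := H.growth he hwt (fun i => hg _) hW hs
  have hC' : ∀ T, hF (H.Ps e) T ≤ C * (T + 1) ^ n := by
    intro T
    refine (hC T).trans (Nat.mul_le_mul_left _ (Nat.pow_le_pow_right (by omega) ?_))
    omega
  obtain ⟨A, hA⟩ := integ (k := k) (mat_orth B) hgen (H.Ps e)
    (fun D G hG => H.stab hs he B hpt D G hG) hC'
  exact ⟨A, fun M m => H.low_of_integ he hW hg hs hA M m⟩

end HData

end Vale.Agent.P054.T3.H955
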