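import Vale.Agent.P054.T3.H955.Conv2
import Vale.Agent.P054.T3.H533.CaseV

set_option autoImplicit false
set_option linter.all false

/-!
# P054 / T3: the final linker for `n = 2`

`Sel2Stmt` : the start (extremal product, near step); `Main2Stmt` : all sections for `n = 2`.
`stepL_two` : both together give `StepL 2`.
-/

namespace Vale.Agent.P054.T3.H955

open Finset
open Vale.Agent.P054.T2.H686 (E dists Ez Gm exists_Gm)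
open Vale.Agent.P054.T2.SecC (ZZ pt swp)
open Vale.Agent.P054.T2.H455 (Sep)
open Vale.Agent.P054.T3.H461 (SideV ThirdN CC0)
open Vale.Agent.P054.T3.H533 (MuK NoRichL)
open Vale.Agent.P054.T3.H637 (FlatQ)
open Vale.Agent.P054.T3.H854 (StepL IsoBL)

/-- all sections for `n = 2`, natural numbers -/
def Main2Stmt : Prop :=
  ∀ L : ℕ, 48 * (4 * 2 + 1) ≤ L → ∀ Λ₀ Λ₁ : ℕ, 1 ≤ Λ₁ → ∃ β₀ c₂ : ℕ, ∀ β, β₀ ≤ β →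
    ∀ τ ell T : ℕ, (β ^ L) ^ ell ≤ τ → τ ≤ (β ^ L) ^ (ell + 1) → τ ≤ Λ₁ * T → 1 ≤ T →
    ∀ (P : Finset (E 2)) (B : E 2 ≃ₗᵢ[ℝ] E 2) (k : ℕ), Gm P B →
    ∀ (Sg₁ Sg₂ : Finset (ZZ 2)) (E₀ : Finset (ZZ 2 × ZZ 2)), E₀.Nonempty → E₀ ⊆ Ez P B k →
    Sep (fun s : ZZ 2 => pt s) (4 * T) Sg₁ → Sep (fun s : ZZ 2 => pt s) (4 * T) Sg₂ →
    (∀ e ∈ E₀, e.1 ∈ Sg₁) → (∀ e ∈ E₀, e.2 ∈ Sg₂) →
    Sg₁.card * Sg₂.card ≤ Λ₀ * τ * E₀.card →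
    ∀ (Gf : ℕ) (m : ZZ 2 → ℕ), MuK E₀ 1 → MuK (swp E₀) 1 → FlatQ 2 P Gf → P.card ≤ Gf →
    (∀ e ∈ E₀, NoRichL B E₀ m (Vale.Agent.P054.T3.H637.dt B) e) →
    ∃ h ≤ ell, ∃ A X₁ X₂ X₃ : ℕ, E₀.card ≤ β ^ (CC0 2 * h + c₂) * A ∧ A ≤ X₁ + X₂ + X₃ ∧
      SideV 2 (β ^ (CC0 2 * h + c₂)) ((β ^ L) ^ (h / 6)) T τ Sg₁.card P.card Gf 1 Sg₁ m X₁ ∧
      SideV 2 (β ^ (CC0 2 * h + c₂)) ((β ^ L) ^ (h / 6)) T τ Sg₂.card P.card Gf 1 Sg₂ m X₂ ∧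
      ThirdN 2 (β ^ (CC0 2 * h + c₂)) ((β ^ L) ^ (h / 6)) T τ X₃

/-- the start for `n = 2` -/
def Sel2Stmt : Prop :=
  ∃ C : ℝ, 1 ≤ C ∧ ∀ Y₀ : ℝ, ∃ K₀ : ℝ, ∀ K : ℝ, K₀ ≤ K → 1 ≤ K → ∃ t₀ : ℕ, ∀ t : ℕ, t₀ ≤ t →
    1 ≤ t → ∀ P : Finset (E 2), (dists P).card ≤ t →
    K * (t : ℝ) ^ (((2 + 1 : ℕ) : ℝ) / 2) ≤ P.card →
    (P.card : ℝ) ≤ 2 * (K * (t : ℝ) ^ (((2 + 1 : ℕ) : ℝ) / 2)) →
    ∀ B : E 2 ≃ₗᵢ[ℝ] E 2, Gm P B →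
    ∃ (S : Finset (ZZ 2)) (E₀ : Finset (ZZ 2 × ZZ 2)) (k T τ M : ℕ) (m : ZZ 2 → ℕ) (Y : ℝ),
      E₀.Nonempty ∧ E₀ ⊆ Ez P B k ∧ (∀ e ∈ E₀, e.1 ∈ S ∧ e.2 ∈ S) ∧
      Sep (fun s : ZZ 2 => pt s) (4 * T) S ∧ S.card ^ 2 ≤ 4 * τ * E₀.card ∧ 1 ≤ τ ∧ τ ≤ T ∧
      (τ : ℝ) ≤ C * t ∧ MuK E₀ 1 ∧ MuK (swp E₀) 1 ∧
      (∀ e ∈ E₀, NoRichL B E₀ m (Vale.Agent.P054.T3.H637.dt B) e) ∧
      (∀ U ⊆ S, ((∑ s ∈ U, m s : ℕ) : ℝ) ≤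
        (U.card : ℝ) * M + C * √((U.card : ℝ) * ((S.card : ℝ) ^ 2 / τ))) ∧
      Y₀ ≤ Y ∧ Y * (τ : ℝ) ^ 3 ≤ S.card ∧ Y * ((τ : ℝ) ^ 2 * T) ≤ S.card ∧
      Y * (M * (τ : ℝ) ^ 2) ≤ S.card ∧ (τ : ℝ) * (T : ℝ) ^ 2 ≤ Y ^ 30 * S.card ∧
      (t : ℝ) ^ (1 / 16 : ℝ) * (τ * (P.card + (t : ℝ) ^ (7 / 4 : ℝ))) ≤ S.card

/-- **the step in dimension `3`** -/
theorem stepL_two (hs : Sel2Stmt) (hm : Main2Stmt) : StepL 2 := by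
  obtain ⟨C, hC, hs⟩ := hs
  obtain ⟨Cf, hCf, hflat⟩ := exists_flat2
  intro _ _
  set Cm : ℝ := max C Cf with hCm
  have hCm1 : 1 ≤ Cm := hC.trans (le_max_left _ _)
  obtain ⟨C₀, hC₀⟩ : ∃ C₀ : ℕ, C₀ = CC0 2 := ⟨_, rfl⟩
  obtain ⟨L, hL1, hL2⟩ : ∃ L : ℕ, 48 * (4 * 2 + 1) ≤ L ∧ 6 * 481 * C₀ ≤ L :=
    ⟨max (48 * (4 * 2 + 1)) (6 * 481 * C₀), le_max_left _ _, le_max_right _ _⟩
  obtain ⟨β₀, c₂, hm⟩ := hm L hL1 4 1 le_rfl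
  obtain ⟨β, hβ₀, hβ4, hβC⟩ : ∃ β : ℕ, β₀ ≤ β ∧ 4 ≤ β ∧ 2 * Cm ≤ β := by
    refine ⟨max (max β₀ ⌈2 * Cm⌉₊) 4, (le_max_left _ _).trans (le_max_left _ _),
      le_max_right _ _, ?_⟩
    refine (Nat.le_ceil _).trans ?_
    exact_mod_cast (le_max_right β₀ ⌈2 * Cm⌉₊).trans (le_max_left _ 4)
  have hβ1 : (1 : ℝ) ≤ β := by exact_mod_cast (by omega : 1 ≤ β)
  obtain ⟨C₁, hC₁⟩ : ∃ C₁ : ℕ, C₁ = c₂ + 1 := ⟨_, rfl⟩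
  obtain ⟨K₀, hs⟩ := hs (1152 ^ 2 * ((β : ℝ) ^ (481 * (5 * C₀ + C₁))) ^ 2)
  refine ⟨K₀, fun K hK hK1 => ?_⟩
  obtain ⟨t₀, hs⟩ := hs K hK hK1
  refine ⟨max t₀ ⌈8 ^ 32 * (β : ℝ) ^ (65 * C₁)⌉₊, fun t ht ht1 P hP hP1 hP2 _ => ?_⟩
  obtain ⟨B, hB⟩ := exists_Gm P
  obtain ⟨S, E₀, k, T, τ, M, m, Y, hne, hE₀, hends, hsep, hdens, hτ1, hτT, hτt, hmu1, hmu2, hnr, hms,
    hY, h1, h2, h3, h4, h5⟩ := hs t ((le_max_left _ _).trans ht) ht1 P hP hP1 hP2 B hB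
  obtain ⟨Gf, hGf1, hGf2, hGf3⟩ := hflat t ht1 P hP
  have ht1' : (1 : ℝ) ≤ t := by exact_mod_cast ht1
  have ht₀ : 8 ^ 32 * (β : ℝ) ^ (65 * C₁) ≤ t := by
    refine (Nat.le_ceil _).trans ?_
    exact_mod_cast (le_max_right _ _).trans ht
  -- the level
  have hb2 : 1 < β ^ L := by
    have hL0 : L ≠ 0 := by omega
    exact Nat.one_lt_pow hL0 (by omega)
  set ell := Nat.log (β ^ L) τ with hell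
  have hell1 : (β ^ L) ^ ell ≤ τ := Nat.pow_log_le_self _ (by omega)
  have hell2 : τ ≤ (β ^ L) ^ (ell + 1) := (Nat.lt_pow_succ_log_self hb2 τ).le
  obtain ⟨h, hh, A, X₁, X₂, X₃, hA, hcount, hX₁, hX₂, hX₃⟩ := hm β hβ₀ τ ell T hell1 hell2
    (by omega) (by omega) P B k hB S S E₀ hne hE₀ hsep hsep (fun e he => (hends e he).1)
    (fun e he => (hends e he).2) (by rw [← sq]; exact hdens) Gf m hmu1 hmu2 hGf1 hGf2 hnr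
  have hSpos : 0 < S.card := by
    obtain ⟨e, he⟩ := hne
    exact Finset.card_pos.2 ⟨_, (hends e he).1⟩
  have hΘn : 1 ≤ β ^ (CC0 2 * h + c₂) := Nat.one_le_pow _ _ (by omega)
  have hτ0 : (0 : ℝ) < τ := by exact_mod_cast hτ1
  -- the loss
  have hΘ : (β : ℝ) ^ (C₀ * h + C₁) = (β : ℝ) ^ (CC0 2 * h + c₂) * β := by
    rw [hC₁, hC₀, ← pow_succ, Nat.add_assoc]
  have hΘ2 : 2 * Cm * ((β ^ (CC0 2 * h + c₂) : ℕ) : ℝ) ≤ (β : ℝ) ^ (C₀ * h + C₁) := by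
    rw [hΘ]
    push_cast
    calc 2 * Cm * (β : ℝ) ^ (CC0 2 * h + c₂) ≤ β * (β : ℝ) ^ (CC0 2 * h + c₂) := by gcongr
      _ = _ := by ring
  have hg : (((β ^ L) ^ (h / 6) : ℕ) : ℝ) = (β : ℝ) ^ (L * (h / 6)) := by
    push_cast
    rw [← pow_mul]
  have hms' : ∀ U ⊆ S, ((∑ s ∈ U, m s : ℕ) : ℝ) ≤
      (U.card : ℝ) * M + Cm * √((U.card : ℝ) * ((S.card : ℝ) ^ 2 / τ)) := fun U hU => by
    refine (hms U hU).trans ?_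
    have := le_max_left C Cf
    gcongr
  have hGf3' : (Gf : ℝ) ≤ Cm * (P.card + (t : ℝ) ^ (7 / 4 : ℝ)) := by
    refine hGf3.trans ?_
    have := le_max_right C Cf
    gcongr
  have hs1 := side2_of_sideV (Θ := (β : ℝ) ^ (C₀ * h + C₁)) hX₁ le_rfl hCm1 hΘn hΘ2 hms' hGf3'
  have hs2 := side2_of_sideV (Θ := (β : ℝ) ^ (C₀ * h + C₁)) hX₂ le_rfl hCm1 hΘn hΘ2 hms' hGf3'
  have hΘ1 : ((β ^ (CC0 2 * h + c₂) : ℕ) : ℝ) ≤ (β : ℝ) ^ (C₀ * h + C₁) := by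
    refine le_trans ?_ hΘ2
    have h6 : (0 : ℝ) ≤ ((β ^ (CC0 2 * h + c₂) : ℕ) : ℝ) := Nat.cast_nonneg _
    nlinarith
  have hs3 := third2_of_thirdN (Θ := (β : ℝ) ^ (C₀ * h + C₁)) hX₃ hΘ1
  rw [hg] at hs1 hs2 hs3
  refine no_mainOut2 (β := β) (L := L) (C₀ := C₀) (C₁ := C₁) (N := S.card) (τ := τ) (T := T)
    (M := M) (p := P.card) (t := t) (Y := Y) (by omega) hL2 ht1' ht₀ hY
    (by exact_mod_cast hSpos) hτ0 (Nat.cast_nonneg _) (Nat.cast_nonneg _) (Nat.cast_nonneg _)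
    h1 h2 h3 h4 h5 ⟨h, A, X₁, X₂, X₃, 0, ?_, ?_, ?_, ?_, hs1, hs2, hs3⟩
  · -- `rng`
    have h6 : β ^ (L * h) ≤ τ := by
      rw [pow_mul]
      exact (Nat.pow_le_pow_right (by omega) hh).trans hell1
    have h7 : (β : ℝ) ^ (L * h) ≤ τ := by exact_mod_cast h6
    refine h7.trans (hτt.trans ?_)
    have h8 : C ≤ (β : ℝ) ^ C₁ := by
      calc C ≤ Cm := le_max_left _ _
        _ ≤ 2 * Cm := by linarith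
        _ ≤ β := hβC
        _ = (β : ℝ) ^ 1 := (pow_one _).symm
        _ ≤ (β : ℝ) ^ C₁ := pow_le_pow_right₀ hβ1 (by omega)
    gcongr
  · -- `start`
    have h6 : (S.card : ℝ) ^ 2 ≤ 4 * τ * E₀.card := by exact_mod_cast hdens
    have h7 : (E₀.card : ℝ) ≤ (β : ℝ) ^ (CC0 2 * h + c₂) * A := by exact_mod_cast hA
    have h8 : (4 : ℝ) ≤ β := by exact_mod_cast hβ4
    calc (S.card : ℝ) ^ 2 ≤ 4 * τ * E₀.card := h6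
      _ ≤ β * τ * ((β : ℝ) ^ (CC0 2 * h + c₂) * A) := by gcongr
      _ = τ * ((β : ℝ) ^ (CC0 2 * h + c₂) * β * A) := by ring
      _ = τ * ((β : ℝ) ^ (C₀ * h + C₁) * A) := by rw [hΘ]
  · have h6 : (A : ℝ) ≤ X₁ + X₂ + X₃ := by exact_mod_cast hcount
    linarith
  · simp

end Vale.Agent.P054.T3.H955
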