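import Vale.Agent.P054.T3.H854.EndZ

set_option autoImplicit false
set_option linter.all false

/-!
# P054 / T3: END for `n = 2`, the closing arithmetic of the lossless theorem in dimension `3`

Everything is expressed through the ratios of the numbers `N` (vertices), `τ` (contagion constant),
`T` (separation degree), `M` (richness threshold), with a spare factor `Y`.
-/

namespace Vale.Agent.P054.T3.H955

/-- the contribution `X` of one side of the count for `n = 2`: `σ = 2`, `σ = 0`, `σ = 1` -/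
def Side2 (Θ g N τ T M p t X : ℝ) : Prop :=
  X ≤ Θ * (N * (p + t ^ (7 / 4 : ℝ))) ∨
  (∃ S D : ℝ, 0 ≤ S ∧ S ≤ N ∧ 0 ≤ D ∧ X ≤ Θ * (D * S) ∧ D ≤ Θ * τ ^ 2 ∧
    (D * g ≤ Θ * τ ^ 2 ∨ S * g ≤ Θ * (τ * T ^ 2 + τ * p))) ∨
  ∃ S D G : ℝ, 0 ≤ S ∧ S ≤ N ∧ 0 ≤ D ∧ X ≤ Θ * (D * (S * T + G)) ∧
    G ≤ Θ * (S * M + √(S * (N ^ 2 / τ))) ∧ D ≤ Θ * τ ∧
    (D * g ≤ Θ * τ ∨ S * g ≤ Θ * (τ * T ^ 2 + τ * p))

/-- the contribution `X` of the pairs of classes for `n = 2` -/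
def Third2 (Θ g τ T X : ℝ) : Prop :=
  X ≤ 0 ∨ ∃ m : ℕ, 3 ≤ m ∧ m ≤ 5 ∧ X * g ≤ Θ * (τ ^ m * T ^ (5 - m))

/-- the numbers at the end of the count for `n = 2` -/
structure MainOut2 (β L C₀ C₁ : ℕ) (N τ T M p t : ℝ) where
  /-- the distance of the first drop -/
  h : ℕ
  /-- number of good edges -/
  A : ℝ
  X₁ : ℝ
  X₂ : ℝ
  X₃ : ℝ
  /-- absorbed edges -/
  R : ℝ
  rng : (β : ℝ) ^ (L * h) ≤ (β : ℝ) ^ C₁ * t
  start : N ^ 2 ≤ τ * ((β : ℝ) ^ (C₀ * h + C₁) * A)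
  count : A ≤ X₁ + X₂ + X₃ + R
  rest : 2 * R ≤ A
  side₁ : Side2 ((β : ℝ) ^ (C₀ * h + C₁)) ((β : ℝ) ^ (L * (h / 6))) N τ T M p t X₁
  side₂ : Side2 ((β : ℝ) ^ (C₀ * h + C₁)) ((β : ℝ) ^ (L * (h / 6))) N τ T M p t X₂
  third : Third2 ((β : ℝ) ^ (C₀ * h + C₁)) ((β : ℝ) ^ (L * (h / 6))) τ T X₃

section bounds

variable {Θ g N τ T M p t Y : ℝ}

/-- the common bound of the terms `σ = 0`, `σ = 1` -/
theorem common_le (hΘ : 1 ≤ Θ) (hN : 0 < N) (hτ : 0 < τ) (hT : 0 ≤ T) (hM : 0 ≤ M) (hY : 1 ≤ Y)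
    (h1 : Y * τ ^ 3 ≤ N) (h2 : Y * (τ ^ 2 * T) ≤ N) (h3 : Y * (M * τ ^ 2) ≤ N) {S : ℝ}
    (hS : 0 ≤ S) (hSN : S ≤ N) :
    τ ^ 2 * (S * T + (S * M + √(S * (N ^ 2 / τ)))) ≤ 3 * √(S / N / Y) * N ^ 2 ∧
    τ ^ 3 * S ≤ √(S / N / Y) * N ^ 2 := by
  have hY0 : 0 < Y := by linarith
  set w : ℝ := S / N / Y with hw
  have hw0 : 0 ≤ w := by positivity
  have hS' : S = w * (N * Y) := by rw [hw]; field_simp
  have hw1 : w ≤ 1 := by
    rw [hw, div_div, div_le_one (by positivity)]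
    nlinarith
  have hwr : w ≤ √w := by
    have h4 : √w * √w = w := Real.mul_self_sqrt hw0
    have h5 : √w ≤ 1 := Real.sqrt_le_one.2 hw1
    nlinarith [Real.sqrt_nonneg w]
  have hT' : τ ^ 2 * (S * T) ≤ w * N ^ 2 := by
    calc τ ^ 2 * (S * T) = w * N * (Y * (τ ^ 2 * T)) := by rw [hS']; ring
      _ ≤ w * N * N := by gcongr
      _ = _ := by ring
  have hM' : τ ^ 2 * (S * M) ≤ w * N ^ 2 := by
    calc τ ^ 2 * (S * M) = w * N * (Y * (M * τ ^ 2)) := by rw [hS']; ring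
      _ ≤ w * N * N := by gcongr
      _ = _ := by ring
  have h3' : τ ^ 3 * S ≤ w * N ^ 2 := by
    calc τ ^ 3 * S = w * N * (Y * τ ^ 3) := by rw [hS']; ring
      _ ≤ w * N * N := by gcongr
      _ = _ := by ring
  have hsq : τ ^ 2 * √(S * (N ^ 2 / τ)) ≤ √w * N ^ 2 := by
    have h4 : 0 ≤ τ ^ 2 * √(S * (N ^ 2 / τ)) := by positivity
    have h5 : 0 ≤ √w * N ^ 2 := by positivity
    refine le_of_sq_le_sq ?_ h5
    rw [mul_pow, mul_pow, Real.sq_sqrt (by positivity), Real.sq_sqrt hw0]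
    calc (τ ^ 2) ^ 2 * (S * (N ^ 2 / τ)) = τ ^ 3 * S * N ^ 2 := by field_simp
      _ ≤ w * N ^ 2 * N ^ 2 := by gcongr
      _ = _ := by ring
  constructor
  · calc τ ^ 2 * (S * T + (S * M + √(S * (N ^ 2 / τ))))
        = τ ^ 2 * (S * T) + τ ^ 2 * (S * M) + τ ^ 2 * √(S * (N ^ 2 / τ)) := by ring
      _ ≤ w * N ^ 2 + w * N ^ 2 + √w * N ^ 2 := by gcongr
      _ ≤ √w * N ^ 2 + √w * N ^ 2 + √w * N ^ 2 := by gcongr
      _ = _ := by ring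
  · exact h3'.trans (by gcongr)

/-- Lemma V, absorbed in the spare factor -/
theorem vert_le {Q : ℝ} (hΘ : 1 ≤ Θ) (hg : 0 < g) (hN : 0 < N) (hτ : 0 < τ) (hT : 0 ≤ T)
    (hp : 0 ≤ p) (hQ : 1 ≤ Q) (hΘg : Θ ^ 481 ≤ Q * g) (hY : 1152 ^ 2 * Q ^ 2 ≤ Y)
    (h4 : τ * T ^ 2 ≤ Y ^ 30 * N) (h5 : τ * p ≤ N) {S : ℝ} (hS : 0 ≤ S) (hSN : S ≤ N)
    (hSg : S * g ≤ Θ * (τ * T ^ 2 + τ * p)) :
    24 * Θ ^ 4 * √(S / N / Y) ≤ 1 := by
  have hQ2 : Q ≤ Q ^ 2 := by nlinarith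
  have hY1 : 1 ≤ Y := by nlinarith
  have hY0 : 0 < Y := by linarith
  have hΘ0 : 0 < Θ := by linarith
  have hY30 : 1 ≤ Y ^ 30 := one_le_pow₀ hY1
  set ξ : ℝ := S / N with hξ
  have hξ0 : 0 ≤ ξ := by positivity
  have hξ1 : ξ ≤ 1 := by rw [hξ, div_le_one hN]; exact hSN
  have hSξ : S = ξ * N := by rw [hξ]; field_simp
  -- `ξ^60 ≤ ξ ≤ 2 Θ Y^30 / g`
  have h6 : ξ * g ≤ 2 * Θ * Y ^ 30 := by
    have h7 : ξ * N * g ≤ (2 * Θ * Y ^ 30) * N := by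
      rw [← hSξ]
      calc S * g ≤ Θ * (τ * T ^ 2 + τ * p) := hSg
        _ ≤ Θ * (Y ^ 30 * N + 1 * N) :=
            mul_le_mul_of_nonneg_left (by linarith) hΘ0.le
        _ ≤ Θ * (Y ^ 30 * N + Y ^ 30 * N) := by gcongr
        _ = _ := by ring
    have h8 : ξ * N * g = (ξ * g) * N := by ring
    rw [h8] at h7
    exact le_of_mul_le_mul_right h7 hN
  have h60 : ξ ^ 60 ≤ ξ := by
    calc ξ ^ 60 ≤ ξ ^ 1 := pow_le_pow_of_le_one hξ0 hξ1 (by norm_num)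
      _ = ξ := pow_one ξ
  have h7 : (576 * Θ ^ 8 * (ξ / Y)) ^ 60 ≤ 1 := by
    have e1 : (576 * Θ ^ 8 * (ξ / Y)) ^ 60 = 576 ^ 60 * Θ ^ 480 * ξ ^ 60 / (Y ^ 30 * Y ^ 30) := by
      rw [mul_pow, mul_pow, div_pow, ← pow_mul, ← pow_add]
      ring
    rw [e1, div_le_one (by positivity)]
    have h9 : Θ ^ 480 * ξ ^ 60 * g ≤ 2 * (Q * g) * Y ^ 30 := by
      calc Θ ^ 480 * ξ ^ 60 * g ≤ Θ ^ 480 * ξ * g := by gcongr
        _ = Θ ^ 480 * (ξ * g) := by ring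
        _ ≤ Θ ^ 480 * (2 * Θ * Y ^ 30) := by gcongr
        _ = 2 * Θ ^ 481 * Y ^ 30 := by ring
        _ ≤ _ := by gcongr
    have h10 : Θ ^ 480 * ξ ^ 60 ≤ 2 * Q * Y ^ 30 := by
      have e2 : 2 * (Q * g) * Y ^ 30 = (2 * Q * Y ^ 30) * g := by ring
      rw [e2] at h9
      exact le_of_mul_le_mul_right h9 hg
    have h11 : (576 : ℝ) ^ 60 * (2 * Q) ≤ Y ^ 30 := by
      calc (576 : ℝ) ^ 60 * (2 * Q) ≤ 576 ^ 60 * (2 ^ 60 * Q ^ 60) := by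
            have : Q ≤ Q ^ 60 := by
              calc Q = Q ^ 1 := (pow_one Q).symm
                _ ≤ Q ^ 60 := pow_le_pow_right₀ hQ (by norm_num)
            have : 2 * Q ≤ 2 ^ 60 * Q ^ 60 := by
              have h12 : (0 : ℝ) < Q ^ 60 := by positivity
              nlinarith
            gcongr
        _ = (1152 ^ 2 * Q ^ 2) ^ 30 := by
            rw [mul_pow, ← pow_mul, ← pow_mul, ← mul_assoc, ← mul_pow]
            norm_num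
        _ ≤ _ := by gcongr
    calc 576 ^ 60 * Θ ^ 480 * ξ ^ 60 = 576 ^ 60 * (Θ ^ 480 * ξ ^ 60) := by ring
      _ ≤ 576 ^ 60 * (2 * Q * Y ^ 30) := by gcongr
      _ = (576 ^ 60 * (2 * Q)) * Y ^ 30 := by ring
      _ ≤ Y ^ 30 * Y ^ 30 := by gcongr
  have h8 : 576 * Θ ^ 8 * (ξ / Y) ≤ 1 := by
    by_contra hcon
    push Not at hcon
    have := one_lt_pow₀ hcon (by norm_num : 60 ≠ 0)
    linarith
  refine le_of_sq_le_sq (b := (1 : ℝ)) ?_ zero_le_one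
  rw [mul_pow, Real.sq_sqrt (by positivity)]
  calc (24 * Θ ^ 4) ^ 2 * (ξ / Y) = 576 * Θ ^ 8 * (ξ / Y) := by ring
    _ ≤ 1 := h8
    _ = 1 ^ 2 := by norm_num

/-- one side -/
theorem side2_le {Q : ℝ} (hΘ : 1 ≤ Θ) (hg : 1 ≤ g) (hN : 0 < N) (hτ : 0 < τ) (hT : 0 ≤ T)
    (hM : 0 ≤ M) (hp : 0 ≤ p) (ht : 1 ≤ t) (hQ : 1 ≤ Q) (hΘg : Θ ^ 481 ≤ Q * g)
    (hΘt : 8 * Θ ^ 2 ≤ t ^ (1 / 16 : ℝ)) (hY : 1152 ^ 2 * Q ^ 2 ≤ Y)
    (h1 : Y * τ ^ 3 ≤ N) (h2 : Y * (τ ^ 2 * T) ≤ N) (h3 : Y * (M * τ ^ 2) ≤ N)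
    (h4 : τ * T ^ 2 ≤ Y ^ 30 * N) (h5 : t ^ (1 / 16 : ℝ) * (τ * (p + t ^ (7 / 4 : ℝ))) ≤ N)
    {X : ℝ} (hX : Side2 Θ g N τ T M p t X) : X * (τ * Θ) ≤ 1 / 8 * N ^ 2 := by
  have hΘ0 : 0 < Θ := by linarith
  have hg0 : 0 < g := by linarith
  have hQ0 : 0 < Q := by linarith
  have hQ2 : 1 ≤ Q ^ 2 := one_le_pow₀ hQ
  have hY1 : 1 ≤ Y := by nlinarith
  have hY0 : 0 < Y := by linarith
  have ht0 : 0 < t := by linarith
  have hp5 : τ * p ≤ N := by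
    have h6 : 1 ≤ t ^ (1 / 16 : ℝ) := Real.one_le_rpow ht (by norm_num)
    have h7 : 0 ≤ t ^ (7 / 4 : ℝ) := by positivity
    have h8 : 0 ≤ τ * (p + t ^ (7 / 4 : ℝ)) := by positivity
    calc τ * p ≤ τ * (p + t ^ (7 / 4 : ℝ)) := by gcongr; linarith
      _ ≤ t ^ (1 / 16 : ℝ) * (τ * (p + t ^ (7 / 4 : ℝ))) := le_mul_of_one_le_left h8 h6
      _ ≤ N := h5
  -- the two gains
  have hgain : ∀ S D W : ℝ, 0 ≤ S → S ≤ N → 0 ≤ D → 0 ≤ W → D ≤ Θ * W →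
      (D * g ≤ Θ * W ∨ S * g ≤ Θ * (τ * T ^ 2 + τ * p)) →
      24 * Θ ^ 3 * D * √(S / N / Y) ≤ W := by
    intro S D W hS hSN hD hW hDW hga
    have hr0 : 0 ≤ √(S / N / Y) := Real.sqrt_nonneg _
    rcases hga with hga | hga
    · -- `D ≤ Θ W / g`, `√(S/N/Y) ≤ 1 / (1152 Q)`
      have h6 : √(S / N / Y) ≤ 1 / (1152 * Q) := by
        rw [Real.sqrt_le_left (by positivity)]
        rw [div_div, div_le_iff₀ (by positivity)]
        have h7 : (1 / (1152 * Q)) ^ 2 * (N * Y) ≥ N := by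
          have h8 : (1 / (1152 * Q)) ^ 2 * Y ≥ 1 := by
            rw [ge_iff_le, div_pow, one_pow, div_mul_eq_mul_div, one_mul, le_div_iff₀ (by positivity),
              one_mul, mul_pow]
            exact hY
          nlinarith
        linarith
      have h7 : Θ ^ 4 ≤ Q * g := (pow_le_pow_right₀ hΘ (by norm_num)).trans hΘg
      have h8 : 24 * Θ ^ 3 * D * √(S / N / Y) * g ≤ W * g := by
        calc 24 * Θ ^ 3 * D * √(S / N / Y) * g = 24 * Θ ^ 3 * (D * g) * √(S / N / Y) := by ring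
          _ ≤ 24 * Θ ^ 3 * (Θ * W) * (1 / (1152 * Q)) := by gcongr
          _ = (24 / 1152) * (Θ ^ 4 * W) / Q := by field_simp
          _ ≤ (24 / 1152) * ((Q * g) * W) / Q := by gcongr
          _ = (24 / 1152) * (W * g) := by field_simp
          _ ≤ 1 * (W * g) := by gcongr; norm_num
          _ = W * g := one_mul _
      exact le_of_mul_le_mul_right h8 hg0
    · have h6 := vert_le hΘ hg0 hN hτ hT hp hQ hΘg hY h4 hp5 hS hSN hga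
      calc 24 * Θ ^ 3 * D * √(S / N / Y) ≤ 24 * Θ ^ 3 * (Θ * W) * √(S / N / Y) := by gcongr
        _ = (24 * Θ ^ 4 * √(S / N / Y)) * W := by ring
        _ ≤ 1 * W := by gcongr
        _ = W := one_mul _
  rcases hX with hX | ⟨S, D, hS, hSN, hD, hX, hDW, hga⟩ | ⟨S, D, G, hS, hSN, hD, hX, hG, hDW, hga⟩
  · -- `σ = 2`
    have h7 : 0 ≤ t ^ (7 / 4 : ℝ) := by positivity
    calc X * (τ * Θ) ≤ (Θ * (N * (p + t ^ (7 / 4 : ℝ)))) * (τ * Θ) := by gcongr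
      _ = 1 / 8 * (8 * Θ ^ 2) * (τ * (p + t ^ (7 / 4 : ℝ))) * N := by ring
      _ ≤ 1 / 8 * t ^ (1 / 16 : ℝ) * (τ * (p + t ^ (7 / 4 : ℝ))) * N := by gcongr
      _ = 1 / 8 * (t ^ (1 / 16 : ℝ) * (τ * (p + t ^ (7 / 4 : ℝ)))) * N := by ring
      _ ≤ 1 / 8 * N * N := by gcongr
      _ = _ := by ring
  · -- `σ = 0`
    obtain ⟨-, h6⟩ := common_le hΘ hN hτ hT hM hY1 h1 h2 h3 hS hSN
    have h7 := hgain S D (τ ^ 2) hS hSN hD (by positivity) hDW hga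
    rcases hS.eq_or_lt with hS0 | hS0
    · have h8 : X ≤ 0 := by rw [← hS0] at hX; simpa using hX
      have : X * (τ * Θ) ≤ 0 := mul_nonpos_of_nonpos_of_nonneg h8 (by positivity)
      exact this.trans (by positivity)
    have hr : 0 < √(S / N / Y) := Real.sqrt_pos.2 (by positivity)
    -- multiply by `√`
    have h8 : X * (τ * Θ) * √(S / N / Y) ≤ (1 / 8 * N ^ 2) * √(S / N / Y) := by
      have h9 : Θ ^ 2 ≤ Θ ^ 3 := pow_le_pow_right₀ hΘ (by norm_num)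
      calc X * (τ * Θ) * √(S / N / Y) ≤ (Θ * (D * S)) * (τ * Θ) * √(S / N / Y) := by gcongr
        _ = (Θ ^ 2 * D * √(S / N / Y)) * (τ * S) := by ring
        _ ≤ (Θ ^ 3 * D * √(S / N / Y)) * (τ * S) := by gcongr
        _ = 1 / 24 * (24 * Θ ^ 3 * D * √(S / N / Y)) * (τ * S) := by ring
        _ ≤ 1 / 24 * τ ^ 2 * (τ * S) := by gcongr
        _ = 1 / 24 * (τ ^ 3 * S) := by ring
        _ ≤ 1 / 24 * (√(S / N / Y) * N ^ 2) := by gcongr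
        _ ≤ 1 / 8 * (√(S / N / Y) * N ^ 2) := by gcongr; norm_num
        _ = _ := by ring
    exact le_of_mul_le_mul_right h8 hr
  · -- `σ = 1`
    obtain ⟨h6, -⟩ := common_le hΘ hN hτ hT hM hY1 h1 h2 h3 hS hSN
    have h7 := hgain S D τ hS hSN hD (by positivity) hDW hga
    rcases hS.eq_or_lt with hS0 | hS0
    · have hG0 : G ≤ 0 := by rw [← hS0] at hG; simpa using hG
      have h8 : X ≤ 0 := by
        refine hX.trans ?_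
        rw [← hS0]
        have : D * (0 * T + G) ≤ 0 := by
          rw [zero_mul, zero_add]
          exact mul_nonpos_of_nonneg_of_nonpos hD hG0
        exact mul_nonpos_of_nonneg_of_nonpos hΘ0.le this
      have : X * (τ * Θ) ≤ 0 := mul_nonpos_of_nonpos_of_nonneg h8 (by positivity)
      exact this.trans (by positivity)
    have hr : 0 < √(S / N / Y) := Real.sqrt_pos.2 (by positivity)
    set W : ℝ := S * T + (S * M + √(S * (N ^ 2 / τ))) with hW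
    have hW0 : 0 ≤ W := by positivity
    have hG' : S * T + G ≤ Θ * W := by
      calc S * T + G ≤ 1 * (S * T) + Θ * (S * M + √(S * (N ^ 2 / τ))) := by linarith
        _ ≤ Θ * (S * T) + Θ * (S * M + √(S * (N ^ 2 / τ))) := by gcongr
        _ = _ := by rw [hW]; ring
    have h8 : X * (τ * Θ) * √(S / N / Y) ≤ (1 / 8 * N ^ 2) * √(S / N / Y) := by
      calc X * (τ * Θ) * √(S / N / Y) ≤ (Θ * (D * (S * T + G))) * (τ * Θ) * √(S / N / Y) := by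
            gcongr
        _ ≤ (Θ * (D * (Θ * W))) * (τ * Θ) * √(S / N / Y) := by gcongr
        _ = 1 / 24 * (24 * Θ ^ 3 * D * √(S / N / Y)) * (τ * W) := by ring
        _ ≤ 1 / 24 * τ * (τ * W) := by gcongr
        _ = 1 / 24 * (τ ^ 2 * W) := by ring
        _ ≤ 1 / 24 * (3 * √(S / N / Y) * N ^ 2) := by gcongr
        _ = _ := by ring
    exact le_of_mul_le_mul_right h8 hr

/-- the third term -/
theorem third2_le {Q : ℝ} (hΘ : 1 ≤ Θ) (hg : 1 ≤ g) (hN : 0 < N) (hτ : 0 < τ) (hT : 0 ≤ T)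
    (hQ : 1 ≤ Q) (hΘg : Θ ^ 481 ≤ Q * g) (hY : 1152 ^ 2 * Q ^ 2 ≤ Y)
    (h1 : Y * τ ^ 3 ≤ N) (h2 : Y * (τ ^ 2 * T) ≤ N) {X : ℝ} (hX : Third2 Θ g τ T X) :
    X * (τ * Θ) ≤ 1 / 8 * N ^ 2 := by
  have hΘ0 : 0 < Θ := by linarith
  have hg0 : 0 < g := by linarith
  have hQ2 : 1 ≤ Q ^ 2 := one_le_pow₀ hQ
  have hY1 : 1 ≤ Y := by nlinarith
  have hY0 : 0 < Y := by linarith
  rcases hX with hX | ⟨m, hm3, hm5, hX⟩
  · have : X * (τ * Θ) ≤ 0 := mul_nonpos_of_nonpos_of_nonneg hX (by positivity)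
    exact this.trans (by positivity)
  · have h3 : 0 ≤ Y * τ ^ 3 := by positivity
    have h4 : 0 ≤ Y * (τ ^ 2 * T) := by positivity
    have h5 : Y ^ 2 * (τ ^ (m + 1) * T ^ (5 - m)) ≤ N ^ 2 := by
      interval_cases m
      · calc Y ^ 2 * (τ ^ (3 + 1) * T ^ (5 - 3)) = (Y * (τ ^ 2 * T)) ^ 2 := by ring
          _ ≤ _ := by gcongr
      · calc Y ^ 2 * (τ ^ (4 + 1) * T ^ (5 - 4)) = (Y * τ ^ 3) * (Y * (τ ^ 2 * T)) := by ring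
          _ ≤ N * N := by gcongr
          _ = _ := by ring
      · calc Y ^ 2 * (τ ^ (5 + 1) * T ^ (5 - 5)) = (Y * τ ^ 3) ^ 2 := by ring
          _ ≤ _ := by gcongr
    have h6 : Θ ^ 2 ≤ Q * g := (pow_le_pow_right₀ hΘ (by norm_num)).trans hΘg
    have h7 : 8 * Q ≤ Y ^ 2 := by
      have h8 : Y ≤ Y ^ 2 := by nlinarith
      nlinarith
    have h8 : X * (τ * Θ) * (g * Y ^ 2) ≤ (1 / 8 * N ^ 2) * (g * Y ^ 2) := by
      calc X * (τ * Θ) * (g * Y ^ 2) = (X * g) * (τ * Θ) * Y ^ 2 := by ring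
        _ ≤ (Θ * (τ ^ m * T ^ (5 - m))) * (τ * Θ) * Y ^ 2 := by gcongr
        _ = Θ ^ 2 * (Y ^ 2 * (τ ^ (m + 1) * T ^ (5 - m))) := by rw [pow_succ τ m]; ring
        _ ≤ (Q * g) * N ^ 2 := by gcongr
        _ = 1 / 8 * (8 * Q) * g * N ^ 2 := by ring
        _ ≤ 1 / 8 * Y ^ 2 * g * N ^ 2 := by gcongr
        _ = _ := by ring
    exact le_of_mul_le_mul_right h8 (by positivity)

end bounds

open Vale.Agent.P054.T3.H854 (exp_leZ) in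
/-- **END, `n = 2`** -/
theorem no_mainOut2 {β L C₀ C₁ : ℕ} {N τ T M p t Y : ℝ} (hβ : 2 ≤ β)
    (hL : 6 * 481 * C₀ ≤ L) (ht : 1 ≤ t) (ht₀ : 8 ^ 32 * (β : ℝ) ^ (65 * C₁) ≤ t)
    (hY : 1152 ^ 2 * ((β : ℝ) ^ (481 * (5 * C₀ + C₁))) ^ 2 ≤ Y)
    (hN : 0 < N) (hτ : 0 < τ) (hT : 0 ≤ T) (hM : 0 ≤ M) (hp : 0 ≤ p)
    (h1 : Y * τ ^ 3 ≤ N) (h2 : Y * (τ ^ 2 * T) ≤ N) (h3 : Y * (M * τ ^ 2) ≤ N)
    (h4 : τ * T ^ 2 ≤ Y ^ 30 * N) (h5 : t ^ (1 / 16 : ℝ) * (τ * (p + t ^ (7 / 4 : ℝ))) ≤ N)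
    (O : MainOut2 β L C₀ C₁ N τ T M p t) : False := by
  obtain ⟨h, A, X₁, X₂, X₃, R, rng, start, count, rest, side₁, side₂, third⟩ := O
  have hβ1 : (1 : ℝ) ≤ β := by exact_mod_cast (by omega : 1 ≤ β)
  have ht0 : 0 < t := by linarith
  set Θ : ℝ := (β : ℝ) ^ (C₀ * h + C₁) with hΘdef
  set g : ℝ := (β : ℝ) ^ (L * (h / 6)) with hgdef
  set Q : ℝ := (β : ℝ) ^ (481 * (5 * C₀ + C₁)) with hQdef
  have hΘ1 : 1 ≤ Θ := one_le_pow₀ hβ1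
  have hΘ0 : 0 < Θ := by linarith
  have hg1 : 1 ≤ g := one_le_pow₀ hβ1
  have hQ1 : 1 ≤ Q := one_le_pow₀ hβ1
  have hΘg : Θ ^ 481 ≤ Q * g := by
    rw [hΘdef, hQdef, hgdef, ← pow_mul, ← pow_add]
    apply pow_le_pow_right₀ hβ1
    have := exp_leZ (C₁ := C₁) (h := h) hL
    calc (C₀ * h + C₁) * 481 = 481 * (C₀ * h + C₁) := by ring
      _ ≤ L * (h / 6) + 481 * (5 * C₀ + C₁) := this
      _ = _ := by ring
  have hΘt : 8 * Θ ^ 2 ≤ t ^ (1 / 16 : ℝ) := by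
    have h6 : Θ ^ 64 ≤ (β : ℝ) ^ (65 * C₁) * t := by
      calc Θ ^ 64 ≤ (β : ℝ) ^ (L * h) * (β : ℝ) ^ (64 * C₁) := by
            rw [hΘdef, ← pow_mul, ← pow_add]
            apply pow_le_pow_right₀ hβ1
            have h7 : 64 * C₀ ≤ L := by omega
            have h8 : 64 * C₀ * h ≤ L * h := Nat.mul_le_mul_right _ h7
            calc (C₀ * h + C₁) * 64 = 64 * C₀ * h + 64 * C₁ := by ring
              _ ≤ _ := by omega
        _ ≤ ((β : ℝ) ^ C₁ * t) * (β : ℝ) ^ (64 * C₁) := by gcongr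
        _ = ((β : ℝ) ^ C₁ * (β : ℝ) ^ (64 * C₁)) * t := by ring
        _ = _ := by rw [← pow_add]; congr 2; ring
    have h7 : (8 * Θ ^ 2) ^ 32 ≤ (t ^ (1 / 16 : ℝ)) ^ 32 := by
      have h8 : (t ^ (1 / 16 : ℝ)) ^ 32 = t * t := by
        rw [← Real.rpow_natCast, ← Real.rpow_mul ht0.le]
        have : (1 / 16 : ℝ) * ((32 : ℕ) : ℝ) = 2 := by norm_num
        rw [this]
        norm_num
        ring
      rw [h8]
      calc (8 * Θ ^ 2) ^ 32 = 8 ^ 32 * Θ ^ 64 := by rw [mul_pow, ← pow_mul]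
        _ ≤ 8 ^ 32 * ((β : ℝ) ^ (65 * C₁) * t) := by gcongr
        _ = (8 ^ 32 * (β : ℝ) ^ (65 * C₁)) * t := by ring
        _ ≤ t * t := by gcongr
    exact le_of_pow_le_pow_left₀ (by norm_num) (by positivity) h7
  have s1 := side2_le hΘ1 hg1 hN hτ hT hM hp ht hQ1 hΘg hΘt hY h1 h2 h3 h4 h5 side₁
  have s2 := side2_le hΘ1 hg1 hN hτ hT hM hp ht hQ1 hΘg hΘt hY h1 h2 h3 h4 h5 side₂
  have s3 := third2_le hΘ1 hg1 hN hτ hT hQ1 hΘg hY h1 h2 third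
  have hA : A ≤ 2 * (X₁ + X₂ + X₃) := by linarith
  have hAτ : A * (τ * Θ) ≤ 2 * (X₁ + X₂ + X₃) * (τ * Θ) := by gcongr
  have hst : N ^ 2 ≤ A * (τ * Θ) := by
    calc N ^ 2 ≤ τ * (Θ * A) := start
      _ = A * (τ * Θ) := by ring
  have : N ^ 2 ≤ 3 / 4 * N ^ 2 := by
    calc N ^ 2 ≤ 2 * (X₁ + X₂ + X₃) * (τ * Θ) := hst.trans hAτ
      _ = 2 * (X₁ * (τ * Θ) + X₂ * (τ * Θ) + X₃ * (τ * Θ)) := by ring
      _ ≤ 2 * (1 / 8 * N ^ 2 + 1 / 8 * N ^ 2 + 1 / 8 * N ^ 2) := by gcongr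
      _ = _ := by ring
  have : 0 < N ^ 2 := by positivity
  linarith

end Vale.Agent.P054.T3.H955
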