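import Vale.Agent.P054.T3.H461.MC2
import Vale.Agent.P054.T3.H955.End2

set_option autoImplicit false
set_option linter.all false

/-!
# P054 / T3: from natural numbers to `Side2`, `Third2` (`n = 2`)
-/

namespace Vale.Agent.P054.T3.H955

open Finset
open Vale.Agent.P054.T2.H686 (E dists)
open Vale.Agent.P054.T2.SecC (ZZ)
open Vale.Agent.P054.T3.H461 (SideV ThirdN)
open Vale.Agent.P054.T3.H637 (FlatQ)

/-- **one side** in natural numbers, `n = 2`. `m` class bounds, `M`, `C` from the near step, `T` the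
separation parameter, `Gf` bound for flats and `|P|`. -/
theorem side2_of_sideV {Θn gn T τ N p Gf X M t : ℕ} {Sg : Finset (ZZ 2)} {m : ZZ 2 → ℕ}
    {Θ C : ℝ} (h : SideV 2 Θn gn T τ N p Gf 1 Sg m X) (hN : Sg.card ≤ N) (hC : 1 ≤ C)
    (hΘn : 1 ≤ Θn) (hΘ : 2 * C * Θn ≤ Θ)
    (hm : ∀ U ⊆ Sg, ((∑ s ∈ U, m s : ℕ) : ℝ) ≤
      (U.card : ℝ) * M + C * √((U.card : ℝ) * ((N : ℝ) ^ 2 / τ)))
    (hGf : (Gf : ℝ) ≤ C * (p + (t : ℝ) ^ (7 / 4 : ℝ))) :
    Side2 Θ gn N τ T M p t X := by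
  have hΘ0 : (0 : ℝ) ≤ Θn := Nat.cast_nonneg _
  have hΘ1 : (Θn : ℝ) ≤ Θ := by nlinarith
  have hC0 : 0 < C := by linarith
  have ht : (0 : ℝ) ≤ (t : ℝ) ^ (7 / 4 : ℝ) := by positivity
  rcases h with h | ⟨σ, hσ, V, D, hV, hX, hD, hga⟩
  · left
    have h1 : (X : ℝ) ≤ Θn * (N * Gf) := by exact_mod_cast h
    calc (X : ℝ) ≤ Θn * (N * Gf) := h1
      _ ≤ Θn * (N * (C * (p + (t : ℝ) ^ (7 / 4 : ℝ)))) := by gcongr
      _ = (C * Θn) * (N * (p + (t : ℝ) ^ (7 / 4 : ℝ))) := by ring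
      _ ≤ Θ * (N * (p + (t : ℝ) ^ (7 / 4 : ℝ))) := by
          have h2 : C * Θn ≤ Θ := by nlinarith [mul_nonneg hC0.le hΘ0]
          gcongr
  · have hS : (V.card : ℝ) ≤ N := by exact_mod_cast (Finset.card_le_card hV).trans hN
    have hgS : (V.card : ℕ) * gn ≤ Θn * (τ * T ^ 2 + τ * p) →
        (V.card : ℝ) * gn ≤ Θ * ((τ : ℝ) * (T : ℝ) ^ 2 + τ * p) := by
      intro h0
      have h1 : (V.card : ℝ) * gn ≤ Θn * ((τ : ℝ) * (T : ℝ) ^ 2 + τ * p) := by exact_mod_cast h0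
      exact h1.trans (by gcongr)
    interval_cases σ
    · -- `σ = 0`
      right; left
      refine ⟨V.card, D, Nat.cast_nonneg _, hS, Nat.cast_nonneg _, ?_, ?_, ?_⟩
      · have h1 : X ≤ Θn * (D * (V.card * 2)) := by
          refine hX.trans (Nat.mul_le_mul_left _ (Nat.mul_le_mul_left _ ?_))
          simp
        have h2 : (X : ℝ) ≤ Θn * (D * (V.card * 2)) := by exact_mod_cast h1
        calc (X : ℝ) ≤ Θn * (D * (V.card * 2)) := h2
          _ = (2 * Θn) * (D * V.card) := by ring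
          _ ≤ Θ * (D * V.card) := by
              have h3 : 2 * (Θn : ℝ) ≤ Θ := by nlinarith
              gcongr
      · have h1 : (D : ℝ) ≤ Θn * (τ : ℝ) ^ 2 := by exact_mod_cast hD
        exact h1.trans (by gcongr)
      · rcases hga with h0 | h0
        · left
          have h1 : (D : ℝ) * gn ≤ Θn * (τ : ℝ) ^ 2 := by exact_mod_cast h0
          exact h1.trans (by gcongr)
        · exact Or.inr (hgS h0)
    · -- `σ = 1`
      right; right
      refine ⟨V.card, D, ((∑ s ∈ V, m s : ℕ) : ℝ), Nat.cast_nonneg _, hS, Nat.cast_nonneg _,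
        ?_, ?_, ?_, ?_⟩
      · have h1 : X ≤ Θn * (D * (V.card * T + ∑ s ∈ V, m s)) := by
          refine hX.trans (Nat.mul_le_mul_left _ (Nat.mul_le_mul_left _ (le_of_eq ?_)))
          simp [Finset.sum_add_distrib]
        have h2 : (X : ℝ) ≤ Θn * (D * (V.card * T + ((∑ s ∈ V, m s : ℕ) : ℝ))) := by
          exact_mod_cast h1
        exact h2.trans (by gcongr)
      · refine (hm V hV).trans ?_
        have h3 : 0 ≤ √((V.card : ℝ) * ((N : ℝ) ^ 2 / τ)) := Real.sqrt_nonneg _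
        have h4 : 0 ≤ (V.card : ℝ) * M := by positivity
        have h5 : C ≤ Θ := by
          have h6 : (1 : ℝ) ≤ Θn := by exact_mod_cast hΘn
          nlinarith [mul_nonneg hC0.le (sub_nonneg.2 h6)]
        have h6 : 1 ≤ Θ := hC.trans h5
        calc (V.card : ℝ) * M + C * √((V.card : ℝ) * ((N : ℝ) ^ 2 / τ))
            ≤ Θ * ((V.card : ℝ) * M) + Θ * √((V.card : ℝ) * ((N : ℝ) ^ 2 / τ)) :=
              add_le_add (le_mul_of_one_le_left h4 h6) (mul_le_mul_of_nonneg_right h5 h3)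
          _ = _ := by ring
      · have h1 : (D : ℝ) ≤ Θn * (τ : ℝ) := by
          have h2 : D ≤ Θn * τ := by simpa using hD
          exact_mod_cast h2
        exact h1.trans (by gcongr)
      · rcases hga with h0 | h0
        · left
          have h1 : (D : ℝ) * gn ≤ Θn * (τ : ℝ) := by
            have h2 : D * gn ≤ Θn * τ := by simpa using h0
            exact_mod_cast h2
          exact h1.trans (by gcongr)
        · exact Or.inr (hgS h0)

/-- **the third term** in natural numbers, `n = 2` -/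
theorem third2_of_thirdN {Θn gn T τ X : ℕ} {Θ : ℝ} (h : ThirdN 2 Θn gn T τ X)
    (hΘ : (Θn : ℝ) ≤ Θ) : Third2 Θ gn τ T X := by
  rcases h with h | ⟨m, h3, h5, hX⟩
  · left
    rw [h]
    simp
  · refine Or.inr ⟨m, h3, by omega, ?_⟩
    have h1 : (X : ℝ) * gn ≤ Θn * ((τ : ℝ) ^ m * (T : ℝ) ^ (2 * 2 + 1 - m)) := by
      exact_mod_cast hX
    exact h1.trans (by gcongr)

/-- the bound `Gf` for `n = 2` -/
theorem exists_flat2 : ∃ C : ℝ, 1 ≤ C ∧ ∀ t : ℕ, 1 ≤ t → ∀ P : Finset (E 2),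
    (dists P).card ≤ t → ∃ Gf : ℕ, FlatQ 2 P Gf ∧ P.card ≤ Gf ∧
      (Gf : ℝ) ≤ C * (P.card + (t : ℝ) ^ (7 / 4 : ℝ)) := by
  obtain ⟨C, hC, h⟩ := Vale.Agent.P054.T3.H637.flatQ (n := 2) le_rfl (1 / 4) (by norm_num)
  refine ⟨C, hC, fun t ht P hP => ?_⟩
  have h1 := h t ht P hP
  have e1 : ((((2 : ℕ) : ℝ) + 1) / 2 + 1 / 4 : ℝ) = 7 / 4 := by norm_num
  rw [e1] at h1
  have ht0 : (0 : ℝ) ≤ (t : ℝ) ^ (7 / 4 : ℝ) := by positivity
  refine ⟨P.card + ⌊C * (t : ℝ) ^ (7 / 4 : ℝ)⌋₊, ?_, Nat.le_add_right _ _, ?_⟩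
  · intro B V z₀ s hV cl hcl h2 h3
    exact (h1 B V z₀ s hV cl hcl h2 h3).trans (Nat.le_add_left _ _)
  · push_cast
    have h2 : ((⌊C * (t : ℝ) ^ (7 / 4 : ℝ)⌋₊ : ℕ) : ℝ) ≤ C * (t : ℝ) ^ (7 / 4 : ℝ) :=
      Nat.floor_le (by positivity)
    have h3 : (P.card : ℝ) ≤ C * P.card := le_mul_of_one_le_left (Nat.cast_nonneg _) hC
    calc (P.card : ℝ) + ⌊C * (t : ℝ) ^ (7 / 4 : ℝ)⌋₊
        ≤ C * P.card + C * (t : ℝ) ^ (7 / 4 : ℝ) := add_le_add h3 h2
      _ = _ := by ring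

end Vale.Agent.P054.T3.H955
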