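import Mathlib

/-!
# P054 / T3, Lemma V: finite generation of a filtered quotient from its leading forms

`p` an ideal, `h k ∈ p` with leading forms `g k` (homogeneous of degree `d k`), `ℓ i` linear forms.
If the ideal `(g k, ℓ i)` contains powers of all variables, then modulo `p` every polynomial of
degree `≤ T` is a combination of products of the `ℓ i` with polynomials of bounded degree.
-/

set_option autoImplicit false

open MvPolynomial

namespace Vale.Agent.P054.T3.H955

variable {K : Type*} [Field K] {τ : Type*}

theorem hc_mul {g : MvPolynomial τ K} {d : ℕ} (hg : g.IsHomogeneous d) (b : MvPolynomial τ K)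
    (T : ℕ) : homogeneousComponent T (b * g) =
      if d ≤ T then homogeneousComponent (T - d) b * g else 0 := by
  classical
  conv_lhs => rw [← sum_homogeneousComponent b, Finset.sum_mul, map_sum]
  have h1 : ∀ j, homogeneousComponent T (homogeneousComponent j b * g) =
      if T = j + d then homogeneousComponent j b * g else 0 := by
    intro j
    have h2 : (homogeneousComponent j b * g).IsHomogeneous (j + d) :=
      (homogeneousComponent_isHomogeneous j b).mul hg
    exact homogeneousComponent_of_mem h2
  simp only [h1]
  split_ifs with hd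
  · by_cases hT : T - d ∈ Finset.range (b.totalDegree + 1)
    · rw [Finset.sum_eq_single (T - d)]
      · rw [if_pos (by omega)]
      · intro j _ hj
        rw [if_neg (by omega)]
      · intro h; exact absurd hT h
    · rw [Finset.sum_eq_zero]
      · rw [Finset.mem_range, not_lt] at hT
        rw [homogeneousComponent_eq_zero _ _ (by omega), zero_mul]
      · intro j hj
        rw [Finset.mem_range] at hj hT
        rw [if_neg (by omega)]
  · refine Finset.sum_eq_zero fun j _ => ?_
    rw [if_neg (by omega)]

/-- representation of a homogeneous element of an ideal generated by homogeneous elements, with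
control of the degrees -/
theorem exists_repr {κ : Type*} [Fintype κ] (g : κ → MvPolynomial τ K) (d : κ → ℕ)
    (hg : ∀ k, (g k).IsHomogeneous (d k)) {f : MvPolynomial τ K} {T : ℕ} (hf : f.IsHomogeneous T)
    (hfI : f ∈ Ideal.span (Set.range g)) :
    ∃ a : κ → MvPolynomial τ K, (∀ k, (d k ≤ T ∧ (a k).totalDegree ≤ T - d k) ∨ a k = 0) ∧
      f = ∑ k, a k * g k := by
  obtain ⟨b, hb⟩ := (Ideal.mem_span_range_iff_exists_fun).1 hfI
  refine ⟨fun k => if d k ≤ T then homogeneousComponent (T - d k) (b k) else 0, ?_, ?_⟩
  · intro k
    by_cases h : d k ≤ T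
    · left
      refine ⟨h, ?_⟩
      simp only [if_pos h]
      exact (homogeneousComponent_isHomogeneous _ _).totalDegree_le
    · right
      simp only [if_neg h]
  · have h1 : homogeneousComponent T f = f := by
      have := homogeneousComponent_of_mem (n := T) (m := T) hf
      rw [this, if_pos rfl]
    rw [← h1, ← hb, map_sum]
    refine Finset.sum_congr rfl fun k _ => ?_
    rw [hc_mul (hg k)]
    by_cases h : d k ≤ T
    · simp only [if_pos h]
    · simp only [if_neg h, zero_mul]

variable [Fintype τ]

/-- **finite generation** -/
theorem finite_gen {κ ι : Type*} [Fintype κ] [Fintype ι] (p : Ideal (MvPolynomial τ K))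
    (h g : κ → MvPolynomial τ K) (d : κ → ℕ) (hg : ∀ k, (g k).IsHomogeneous (d k))
    (hh : ∀ k, h k ∈ p) (hlow : ∀ k, g k - h k = 0 ∨ (g k - h k).totalDegree < d k)
    (l : ι → MvPolynomial τ K) (hl : ∀ i, (l i).IsHomogeneous 1)
    (hpow : ∀ j, ∃ m : ℕ, (X j : MvPolynomial τ K) ^ m ∈
      Ideal.span (Set.range (Sum.elim g l))) :
    ∃ A : ℕ, ∀ M : ℕ → Submodule K (MvPolynomial τ K), Monotone M →
      (∀ T ≤ A, restrictTotalDegree τ K T ≤ M T) →
      (∀ i T f, f ∈ M T → l i * f ∈ M (T + 1)) →
      ∀ T, restrictTotalDegree τ K T ≤ p.restrictScalars K ⊔ M T := by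
  classical
  choose m hm using hpow
  refine ⟨∑ j, m j, fun M hmono hA hmul T => ?_⟩
  induction T using Nat.strong_induction_on with
  | _ T ih =>
    by_cases hT : T ≤ ∑ j, m j
    · exact (hA T hT).trans le_sup_right
    push Not at hT
    -- monomials
    have hmon : ∀ ν : τ →₀ ℕ, ν.degree = T →
        (monomial ν (1 : K)) ∈ p.restrictScalars K ⊔ M T := by
      intro ν hν
      obtain ⟨j, hj⟩ : ∃ j, m j ≤ ν j := by
        by_contra hcon
        push Not at hcon
        have h1 : ν.degree ≤ ∑ j, m j := by
          rw [Finsupp.degree_eq_sum]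
          exact Finset.sum_le_sum fun j _ => (hcon j).le
        omega
      have hmem : (monomial ν (1 : K)) ∈ Ideal.span (Set.range (Sum.elim g l)) := by
        have h1 : (monomial ν (1 : K)) = monomial (ν - Finsupp.single j (m j)) 1 * X j ^ m j := by
          have h2 : ν - Finsupp.single j (m j) + Finsupp.single j (m j) = ν :=
            tsub_add_cancel_of_le (Finsupp.single_le_iff.2 hj)
          rw [X_pow_eq_monomial, monomial_mul, one_mul, h2]
        rw [h1]
        exact Ideal.mul_mem_left _ _ (hm j)
      have hhom : (monomial ν (1 : K)).IsHomogeneous T := by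
        rw [← hν]
        exact isHomogeneous_monomial _ rfl
      obtain ⟨a, ha1, ha2⟩ := exists_repr (Sum.elim g l) (Sum.elim d (fun _ => 1))
        (by rintro (k | i) <;> [exact hg k; exact hl i]) hhom hmem
      rw [ha2, Fintype.sum_sum_type]
      refine Submodule.add_mem _ ?_ ?_
      · refine Submodule.sum_mem _ fun k _ => ?_
        show a (Sum.inl k) * g k ∈ _
        have h1 : a (Sum.inl k) * g k = a (Sum.inl k) * h k + a (Sum.inl k) * (g k - h k) := by
          ring
        rw [h1]
        refine Submodule.add_mem _ (Submodule.mem_sup_left (Ideal.mul_mem_left _ _ (hh k))) ?_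
        rcases hlow k with h0 | h0
        · rw [h0, mul_zero]; exact Submodule.zero_mem _
        rcases ha1 (Sum.inl k) with h2 | h2
        · have h3 : (a (Sum.inl k) * (g k - h k)).totalDegree ≤ T - 1 := by
            refine (totalDegree_mul _ _).trans ?_
            have h4 : d k ≤ T := h2.1
            have h5 : (a (Sum.inl k)).totalDegree ≤ T - d k := h2.2
            omega
          have h4 := ih (T - 1) (by omega) ((mem_restrictTotalDegree _ _ _).2 h3)
          exact (sup_le_sup_left (hmono (by omega)) _) h4
        · rw [h2, zero_mul]; exact Submodule.zero_mem _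
      · refine Submodule.sum_mem _ fun i _ => ?_
        show a (Sum.inr i) * l i ∈ _
        rcases ha1 (Sum.inr i) with h2 | h2
        · have h3 : (a (Sum.inr i)).totalDegree ≤ T - 1 := h2.2
          have h4 := ih (T - 1) (by omega) ((mem_restrictTotalDegree _ _ _).2 h3)
          obtain ⟨x, hx, y, hy, hxy⟩ := Submodule.mem_sup.1 h4
          rw [← hxy, add_mul]
          refine Submodule.add_mem _ (Submodule.mem_sup_left ?_) (Submodule.mem_sup_right ?_)
          · exact Ideal.mul_mem_right _ _ hx
          · have h5 := hmul i (T - 1) y hy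
            rw [mul_comm]
            have h6 : T - 1 + 1 = T := by omega
            rwa [h6] at h5
        · rw [h2, zero_mul]; exact Submodule.zero_mem _
    intro f hf
    rw [mem_restrictTotalDegree] at hf
    rw [f.as_sum]
    refine Submodule.sum_mem _ fun ν hν => ?_
    have h1 : (monomial ν (coeff ν f)) = coeff ν f • monomial ν (1 : K) := by
      rw [smul_monomial, smul_eq_mul, mul_one]
    rw [h1]
    refine Submodule.smul_mem _ _ ?_
    have h2 : ν.degree ≤ T := (le_totalDegree hν).trans hf
    rcases h2.lt_or_eq with h3 | h3
    · have h4 := ih ν.degree h3 (show monomial ν (1 : K) ∈ restrictTotalDegree τ K ν.degree by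
        rw [mem_restrictTotalDegree]
        exact (totalDegree_monomial_le _ _))
      exact (sup_le_sup_left (hmono h3.le) _) h4
    · exact hmon ν h3

end Vale.Agent.P054.T3.H955
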