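import Mathlib
import Vale.Agent.P054.T2.H441.ADeriv

set_option autoImplicit false
set_option linter.all false

/-!
# P054 / T3, block V (1): generic isotropic projections are finite on small varieties

`U` orthogonal and generic (every skew matrix `O` is `U⁻¹ D U` for some derivation `D`).
`G b` : for every choice `b` of `d` coordinates a nonzero homogeneous polynomial in these
coordinates, with constant coefficients.  Then the `G b` and the linear forms `p_i - ∑ U_il q_l`
have no common zero except `0`, hence generate an ideal which contains powers of all variables.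
-/

namespace Vale.Agent.P054.T3.H955

open MvPolynomial
open Vale.Agent.P054.T2.H441 (cD cD_C cD_X coeff_cD)

section cx

variable {k : Type*} [CommRing k] [Algebra k ℝ]

/-- the derivation `D` on complex numbers -/
noncomputable def cxD (D : Derivation k ℝ ℝ) (z : ℂ) : ℂ := ⟨D z.re, D z.im⟩

theorem cxD_add (D : Derivation k ℝ ℝ) (z w : ℂ) : cxD D (z + w) = cxD D z + cxD D w := by
  apply Complex.ext <;> simp [cxD]

theorem cxD_mul (D : Derivation k ℝ ℝ) (z w : ℂ) :
    cxD D (z * w) = z * cxD D w + w * cxD D z := by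
  apply Complex.ext
  · simp only [cxD, Complex.mul_re, Complex.add_re, map_sub, D.leibniz, smul_eq_mul]
    ring
  · simp only [cxD, Complex.mul_im, Complex.mul_re, Complex.add_im, map_add, D.leibniz,
      smul_eq_mul]
    ring

theorem cxD_ofReal (D : Derivation k ℝ ℝ) (a : ℝ) : cxD D (a : ℂ) = (D a : ℝ) := by
  apply Complex.ext <;> simp [cxD]

theorem cxD_zero (D : Derivation k ℝ ℝ) : cxD D 0 = 0 := by
  apply Complex.ext <;> simp [cxD]

theorem cxD_sum (D : Derivation k ℝ ℝ) {ι : Type*} (s : Finset ι) (f : ι → ℂ) :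
    cxD D (∑ i ∈ s, f i) = ∑ i ∈ s, cxD D (f i) := by
  classical
  induction s using Finset.induction_on with
  | empty => simp [cxD_zero]
  | insert a s ha ih => rw [Finset.sum_insert ha, Finset.sum_insert ha, cxD_add, ih]

variable {σ : Type*} [Fintype σ]

/-- chain rule -/
theorem cxD_aeval (D : Derivation k ℝ ℝ) (w : σ → ℂ) (p : MvPolynomial σ ℝ) :
    cxD D (aeval w p) = aeval w (cD D p) + ∑ i, aeval w (pderiv i p) * cxD D (w i) := by
  classical
  induction p using MvPolynomial.induction_on with
  | C a =>
    rw [cD_C]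
    simp only [pderiv_C, map_zero, zero_mul, Finset.sum_const_zero, add_zero]
    rw [aeval_C, aeval_C]
    exact cxD_ofReal D a
  | add a b ha hb =>
    simp only [map_add, cxD_add, ha, hb, add_mul, Finset.sum_add_distrib]
    ring
  | mul_X a j ha =>
    rw [map_mul, cxD_mul, aeval_X, ha, Derivation.leibniz, cD_X, smul_zero, zero_add, smul_eq_mul,
      map_mul, aeval_X]
    have h1 : ∀ i, aeval w (pderiv i (a * X j)) * cxD D (w i) =
        w j * (aeval w (pderiv i a) * cxD D (w i)) +
          (if i = j then aeval w a * cxD D (w i) else 0) := by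
      intro i
      rw [Derivation.leibniz, pderiv_X, smul_eq_mul, smul_eq_mul, map_add, map_mul, map_mul,
        aeval_X]
      by_cases h : i = j
      · subst h
        simp
        ring
      · rw [if_neg h, Pi.single_apply, if_neg (Ne.symm h)]
        simp
        ring
    simp only [h1, Finset.sum_add_distrib, Finset.sum_ite_eq', Finset.mem_univ, if_true,
      ← Finset.mul_sum]
    ring

end cx

section rel

variable {k : Type*} [CommRing k] [Algebra k ℝ] {σ : Type*} [Fintype σ] [DecidableEq σ]

theorem cD_pderiv (D : Derivation k ℝ ℝ) (j : σ) (p : MvPolynomial σ ℝ) :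
    cD D (pderiv j p) = pderiv j (cD D p) := by
  ext m
  rw [coeff_cD, coeff_pderiv, coeff_pderiv, coeff_cD, D.leibniz]
  have h1 : D ((m j : ℝ) + 1) = 0 := by
    have : ((m j : ℝ) + 1) = ((m j + 1 : ℕ) : ℝ) := by push_cast; ring
    rw [this]
    exact D.map_natCast _
  rw [h1, smul_zero, zero_add, smul_eq_mul, mul_comm]

/-- admissible relations: homogeneous, constant coefficients, variables in `S` -/
def Adm (k : Type*) [CommRing k] [Algebra k ℝ] (S : Finset σ) (p : MvPolynomial σ ℝ) : Prop :=
  p ≠ 0 ∧ (∃ m, p.IsHomogeneous m) ∧ (∀ D : Derivation k ℝ ℝ, cD D p = 0) ∧ p.vars ⊆ S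

/-- `w` has no relation in the coordinates of `S` -/
def Indep (k : Type*) [CommRing k] [Algebra k ℝ] (w : σ → ℂ) (S : Finset σ) : Prop :=
  ∀ p, Adm k S p → aeval w p ≠ 0

theorem vars_pderiv_subset (j : σ) (p : MvPolynomial σ ℝ) : (pderiv j p).vars ⊆ p.vars := by
  intro i hi
  rw [mem_vars] at hi ⊢
  obtain ⟨m, hm, hi⟩ := hi
  rw [mem_support_iff, coeff_pderiv] at hm
  refine ⟨m + Finsupp.single j 1, mem_support_iff.2 (left_ne_zero_of_mul hm), ?_⟩
  rw [Finsupp.mem_support_iff] at hi ⊢
  rw [Finsupp.add_apply]
  omega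

/-- a relation whose derivative does not vanish -/
theorem exists_rel (w : σ → ℂ) (S : Finset σ) (j : σ) (hS : Indep k w S)
    (hj : ¬ Indep k w (insert j S)) :
    ∃ p, Adm k (insert j S) p ∧ aeval w p = 0 ∧ aeval w (pderiv j p) ≠ 0 := by
  classical
  have hex : ∃ n, ∃ p, Adm k (insert j S) p ∧ aeval w p = 0 ∧ degreeOf j p = n := by
    unfold Indep at hj
    push Not at hj
    obtain ⟨p, h1, h2⟩ := hj
    exact ⟨_, p, h1, h2, rfl⟩
  obtain ⟨p, h1, h2, h3⟩ := Nat.find_spec hex
  refine ⟨p, h1, h2, fun h4 => ?_⟩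
  have hjv : j ∈ p.vars := by
    by_contra hcon
    refine hS p ⟨h1.1, h1.2.1, h1.2.2.1, ?_⟩ h2
    intro i hi
    rcases Finset.mem_insert.1 (h1.2.2.2 hi) with rfl | h
    · exact absurd hi hcon
    · exact h
  obtain ⟨m, hm, hmj⟩ := (mem_vars _).1 hjv
  have hpos : 0 < degreeOf j p := by
    rw [Nat.pos_iff_ne_zero]
    intro h0
    have := monomial_le_degreeOf j hm
    rw [Finsupp.mem_support_iff] at hmj
    omega
  have hlt : degreeOf j (pderiv j p) < degreeOf j p := by
    rw [degreeOf_lt_iff hpos]
    intro m' hm'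
    rw [mem_support_iff, coeff_pderiv] at hm'
    have := monomial_le_degreeOf j (mem_support_iff.2 (left_ne_zero_of_mul hm'))
    rw [Finsupp.add_apply, Finsupp.single_eq_same] at this
    omega
  have hne : pderiv j p ≠ 0 := by
    intro h0
    have h5 : coeff (m - Finsupp.single j 1) (pderiv j p) = 0 := by rw [h0, coeff_zero]
    rw [Finsupp.mem_support_iff] at hmj
    have h6 : m - Finsupp.single j 1 + Finsupp.single j 1 = m := by
      ext i
      rw [Finsupp.add_apply, Finsupp.tsub_apply]
      by_cases h : j = i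
      · subst h
        rw [Finsupp.single_eq_same]
        omega
      · rw [Finsupp.single_eq_of_ne' h]
        omega
    rw [coeff_pderiv, h6] at h5
    rcases mul_eq_zero.1 h5 with h7 | h7
    · exact mem_support_iff.1 hm h7
    · have : (0 : ℝ) < (((m - Finsupp.single j 1 : σ →₀ ℕ) j : ℕ) : ℝ) + 1 := by positivity
      linarith
  obtain ⟨d, hd⟩ := h1.2.1
  have hmin := Nat.find_min' hex ⟨pderiv j p, ⟨hne, ⟨d - 1, hd.pderiv⟩, fun D => by
    rw [cD_pderiv, h1.2.2.1 D, map_zero], (vars_pderiv_subset j p).trans h1.2.2.2⟩, h4, rfl⟩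
  omega

/-- the space of vectors killed by the relations is determined by the coordinates of `S` -/
theorem card_le_of_indep (w : σ → ℂ) (S : Finset σ) (hS : Indep k w S)
    (hmax : ∀ j, j ∉ S → ¬ Indep k w (insert j S)) {m : ℕ} (v : Fin m → σ → ℂ)
    (hv : LinearIndependent ℂ v)
    (hT : ∀ l, ∀ p, Adm k Finset.univ p → aeval w p = 0 → ∑ i, aeval w (pderiv i p) * v l i = 0) :
    m ≤ S.card := by
  classical
  let r : (σ → ℂ) →ₗ[ℂ] (S → ℂ) := LinearMap.funLeft ℂ ℂ (fun i : S => (i : σ))
  have hlin : LinearIndependent ℂ (fun l => r (v l)) := by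
    rw [Fintype.linearIndependent_iff] at hv ⊢
    intro c hc
    apply hv c
    set x : σ → ℂ := ∑ l, c l • v l with hx
    have hxT : ∀ p, Adm k Finset.univ p → aeval w p = 0 →
        ∑ i, aeval w (pderiv i p) * x i = 0 := by
      intro p hp hp0
      have h1 : ∀ i, aeval w (pderiv i p) * x i =
          ∑ l, c l * (aeval w (pderiv i p) * v l i) := by
        intro i
        rw [hx, Finset.sum_apply, Finset.mul_sum]
        refine Finset.sum_congr rfl fun l _ => ?_
        rw [Pi.smul_apply, smul_eq_mul]; ring
      simp only [h1]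
      rw [Finset.sum_comm]
      refine Finset.sum_eq_zero fun l _ => ?_
      rw [← Finset.mul_sum, hT l p hp hp0, mul_zero]
    have hxS : ∀ i ∈ S, x i = 0 := by
      intro i hi
      have h1 : r x = 0 := by
        rw [hx, map_sum, ← hc]
        exact Finset.sum_congr rfl fun l _ => by rw [map_smul]
      exact congrFun h1 ⟨i, hi⟩
    funext j
    by_cases hj : j ∈ S
    · exact hxS j hj
    obtain ⟨p, h1, h2, h3⟩ := exists_rel w S j hS (hmax j hj)
    have h4 := hxT p ⟨h1.1, h1.2.1, h1.2.2.1, Finset.subset_univ _⟩ h2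
    rw [Finset.sum_eq_single j] at h4
    · exact (mul_eq_zero.1 h4).resolve_left h3
    · intro i _ hij
      by_cases hi : i ∈ S
      · rw [hxS i hi, mul_zero]
      · have h5 : i ∉ p.vars := fun h => by
          rcases Finset.mem_insert.1 (h1.2.2.2 h) with h6 | h6
          · exact hij h6
          · exact hi h6
        rw [pderiv_eq_zero_of_notMem_vars h5, map_zero, zero_mul]
    · intro h; exact absurd (Finset.mem_univ _) h
  have h1 := hlin.fintype_card_le_finrank
  rwa [Fintype.card_fin, Module.finrank_fintype_fun_eq_card, Fintype.card_coe] at h1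

end rel

section main

open Matrix

variable {k : Type*} [CommRing k] [Algebra k ℝ] {d : ℕ}

/-- **no common zeros**: `U` orthogonal and generic -/
theorem no_common_zero (U : Matrix (Fin d) (Fin d) ℝ) (hU : U * U.transpose = 1)
    (hD : ∀ O : Matrix (Fin d) (Fin d) ℝ, O.transpose = -O →
      ∃ D : Derivation k ℝ ℝ, ∀ i j, D (U i j) = (U * O) i j)
    (G : (Fin d → Fin d ⊕ Fin d) → MvPolynomial (Fin d ⊕ Fin d) ℝ)
    (hG : ∀ b, Function.Injective b → Adm k (Finset.univ.image b) (G b))
    (w : Fin d ⊕ Fin d → ℂ) (hwG : ∀ b, Function.Injective b → aeval w (G b) = 0)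
    (hwU : ∀ i, w (Sum.inl i) = ∑ l, (U i l : ℂ) * w (Sum.inr l)) : w = 0 := by
  classical
  by_contra hw
  -- a maximal set of coordinates without relation
  obtain ⟨S, hS, hmax⟩ : ∃ S : Finset (Fin d ⊕ Fin d), Indep k w S ∧
      ∀ j, j ∉ S → ¬ Indep k w (insert j S) := by
    have hne : (Finset.univ.filter fun S : Finset (Fin d ⊕ Fin d) => Indep k w S).Nonempty := by
      refine ⟨∅, Finset.mem_filter.2 ⟨Finset.mem_univ _, ?_⟩⟩
      rintro p ⟨h1, -, -, h2⟩ h3
      rw [Finset.subset_empty] at h2
      rw [vars_eq_empty_iff_eq_C] at h2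
      rw [h2, aeval_C] at h3
      apply h1
      have h4 : coeff 0 p = 0 := by
        have : (algebraMap ℝ ℂ) (coeff 0 p) = (algebraMap ℝ ℂ) 0 := by rw [h3, map_zero]
        exact (algebraMap ℝ ℂ).injective this
      rw [h2, h4, C_0]
    obtain ⟨S, hS, hSm⟩ := Finset.exists_max_image _ Finset.card hne
    refine ⟨S, (Finset.mem_filter.1 hS).2, fun j hj hcon => ?_⟩
    have := hSm _ (Finset.mem_filter.2 ⟨Finset.mem_univ _, hcon⟩)
    rw [Finset.card_insert_of_notMem hj] at this
    omega
  have hScard : S.card < d := by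
    by_contra hcon
    push Not at hcon
    obtain ⟨T, hTS, hT⟩ := Finset.exists_subset_card_eq hcon
    let b : Fin d → Fin d ⊕ Fin d := fun i => (T.equivFin.symm (Fin.cast hT.symm i) : T)
    have hb : Function.Injective b := by
      intro i j hij
      have := T.equivFin.symm.injective (Subtype.ext hij)
      exact Fin.cast_injective _ this
    have hbS : Finset.univ.image b ⊆ S := by
      intro x hx
      obtain ⟨i, -, rfl⟩ := Finset.mem_image.1 hx
      exact hTS (T.equivFin.symm (Fin.cast hT.symm i)).2
    obtain ⟨h1, h2, h3, h4⟩ := hG b hb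
    exact hS _ ⟨h1, h2, h3, h4.trans hbS⟩ (hwG b hb)
  -- the second half of `w`
  set q : Fin d → ℂ := fun l => w (Sum.inr l) with hq
  have hq0 : q ≠ 0 := by
    intro h0
    apply hw
    funext i
    rcases i with i | i
    · rw [hwU]
      refine Finset.sum_eq_zero fun l _ => ?_
      have : w (Sum.inr l) = 0 := congrFun h0 l
      rw [this, mul_zero]
    · exact congrFun h0 i
  obtain ⟨c, hc⟩ : ∃ c, q c ≠ 0 := by
    by_contra hcon
    push Not at hcon
    exact hq0 (funext hcon)
  -- elementary skew matrices
  let O : Fin d → Matrix (Fin d) (Fin d) ℝ := fun a => Matrix.single a c 1 - Matrix.single c a 1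
  have hO : ∀ a, (O a).transpose = - O a := by
    intro a
    show (Matrix.single a c (1 : ℝ) - Matrix.single c a 1).transpose = _
    rw [Matrix.transpose_sub, Matrix.transpose_single, Matrix.transpose_single]
    simp only [O, neg_sub]
  choose D hDO using fun a => hD (O a) (hO a)
  let e : Fin d ≃ Fin d := Equiv.refl _
  -- the family: `w` at the index `c`, `D_a w` otherwise
  let v : Fin d → (Fin d ⊕ Fin d) → ℂ := fun a => if a = c then w else fun i => cxD (D a) (w i)
  let τ : ((Fin d ⊕ Fin d) → ℂ) →ₗ[ℂ] (Fin d → ℂ) :=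
    { toFun := fun x i => x (Sum.inl i) - ∑ l, (U i l : ℂ) * x (Sum.inr l)
      map_add' := by
        intro x y
        funext i
        simp only [Pi.add_apply, mul_add, Finset.sum_add_distrib]
        ring
      map_smul' := by
        intro a x
        funext i
        simp only [Pi.smul_apply, smul_eq_mul, RingHom.id_apply, mul_sub, Finset.mul_sum]
        congr 1
        exact Finset.sum_congr rfl fun l _ => by ring }
  have hτw : τ w = 0 := by
    funext i
    show w (Sum.inl i) - _ = 0
    rw [hwU, sub_self]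
  have hτD : ∀ a i, τ (fun i => cxD (D a) (w i)) i = ∑ l, ((U * O a) i l : ℂ) * q l := by
    intro a i
    show cxD (D a) (w (Sum.inl i)) - ∑ l, (U i l : ℂ) * cxD (D a) (w (Sum.inr l)) = _
    rw [hwU, cxD_sum]
    simp only [cxD_mul, cxD_ofReal, hDO, Finset.sum_add_distrib]
    rw [add_sub_cancel_left]
    exact Finset.sum_congr rfl fun l _ => mul_comm _ _
  -- independence
  have hlin : LinearIndependent ℂ v := by
    rw [Fintype.linearIndependent_iff]
    intro α hα
    -- apply `Uᵀ τ`
    have h1 : ∀ i, ∑ a, (if a = c then 0 else α a * ∑ l, ((U * O a) i l : ℂ) * q l) = 0 := by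
      intro i
      have h2 : (∑ a, τ (α a • v a)) i = 0 := by
        rw [← map_sum, hα, map_zero]
        rfl
      rw [Finset.sum_apply] at h2
      refine Eq.trans ?_ h2
      refine Finset.sum_congr rfl fun a _ => ?_
      rw [map_smul, Pi.smul_apply, smul_eq_mul]
      by_cases h : a = c
      · simp only [v, if_pos h]
        rw [hτw, Pi.zero_apply, mul_zero]
      · simp only [v, if_neg h]
        rw [hτD]
    have hUT : U.transpose * U = 1 := mul_eq_one_comm.1 hU
    have h3 : ∀ m, ∑ a, (if a = c then 0 else α a * ∑ l, (O a m l : ℂ) * q l) = 0 := by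
      intro m
      have h4 : ∑ a, ∑ i, (U i m : ℂ) *
          (if a = c then 0 else α a * ∑ l, ((U * O a) i l : ℂ) * q l) = 0 := by
        rw [Finset.sum_comm]
        exact Finset.sum_eq_zero fun i _ => by rw [← Finset.mul_sum, h1 i, mul_zero]
      refine Eq.trans ?_ h4
      refine Finset.sum_congr rfl fun a _ => ?_
      by_cases h : a = c
      · rw [if_pos h]
        refine (Finset.sum_eq_zero fun i _ => ?_).symm
        rw [if_pos h, mul_zero]
      · simp only [if_neg h]
        have h5 : ∀ l, (O a m l : ℂ) = ∑ i, (U i m : ℂ) * ((U * O a) i l : ℂ) := by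
          intro l
          have h6 : U.transpose * (U * O a) = O a := by
            rw [← Matrix.mul_assoc, hUT, Matrix.one_mul]
          have h7 := congrFun (congrFun h6 m) l
          rw [Matrix.mul_apply] at h7
          rw [← h7]
          push_cast
          rfl
        simp only [h5, Finset.mul_sum, Finset.sum_mul]
        rw [Finset.sum_comm]
        refine Finset.sum_congr rfl fun i _ => Finset.sum_congr rfl fun l _ => ?_
        ring
    have h4 : ∀ a, a ≠ c → α a = 0 := by
      intro a hac
      have h5 := h3 a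
      rw [Finset.sum_eq_single a] at h5
      · rw [if_neg hac] at h5
        have h6 : ∑ l, (O a a l : ℂ) * q l = q c := by
          rw [Finset.sum_eq_single c]
          · simp [O, Matrix.single_apply, Ne.symm hac, hac]
          · intro l _ hl
            simp [O, Matrix.single_apply, hac, Ne.symm hac, hl, Ne.symm hl]
          · intro h; exact absurd (Finset.mem_univ _) h
        rw [h6] at h5
        exact (mul_eq_zero.1 h5).resolve_right hc
      · intro a' _ haa'
        by_cases h : a' = c
        · simp [h]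
        · rw [if_neg h]
          have h6 : ∑ l, (O a' a l : ℂ) * q l = 0 := by
            refine Finset.sum_eq_zero fun l _ => ?_
            simp [O, Matrix.single_apply, haa', Ne.symm haa', hac, Ne.symm hac]
          rw [h6, mul_zero]
      · intro h; exact absurd (Finset.mem_univ _) h
    have h5 : α c = 0 := by
      rw [Finset.sum_eq_single c] at hα
      · simp only [v, if_pos] at hα
        have h6 := congrFun hα (Sum.inr c)
        rw [Pi.smul_apply, smul_eq_mul, Pi.zero_apply] at h6
        exact (mul_eq_zero.1 h6).resolve_right hc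
      · intro a _ hac
        rw [h4 a hac, zero_smul]
      · intro h; exact absurd (Finset.mem_univ _) h
    intro a
    by_cases h : a = c
    · rw [h, h5]
    · exact h4 a h
  have := card_le_of_indep w S hS hmax v hlin ?_
  · omega
  intro l p hp hp0
  by_cases h : l = c
  · simp only [v, if_pos h]
    obtain ⟨m, hm⟩ := hp.2.1
    have h1 := congrArg (aeval w) hm.sum_X_mul_pderiv
    rw [map_sum, map_nsmul, hp0, smul_zero] at h1
    rw [← h1]
    refine Finset.sum_congr rfl fun i _ => ?_
    rw [map_mul, aeval_X, mul_comm]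
  · simp only [v, if_neg h]
    have h1 := cxD_aeval (D l) w p
    rw [hp0, cxD_zero, hp.2.2.1 (D l), map_zero, zero_add] at h1
    exact h1.symm

/-- **finiteness of the generic isotropic projection** -/
theorem pow_mem_of_generic (U : Matrix (Fin d) (Fin d) ℝ) (hU : U * U.transpose = 1)
    (hD : ∀ O : Matrix (Fin d) (Fin d) ℝ, O.transpose = -O →
      ∃ D : Derivation k ℝ ℝ, ∀ i j, D (U i j) = (U * O) i j)
    (G : (Fin d → Fin d ⊕ Fin d) → MvPolynomial (Fin d ⊕ Fin d) ℝ)
    (hG : ∀ b, Function.Injective b → Adm k (Finset.univ.image b) (G b))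
    (I : Ideal (MvPolynomial (Fin d ⊕ Fin d) ℝ))
    (hI : ∀ b, Function.Injective b → G b ∈ I)
    (hIU : ∀ i, X (Sum.inl i) - ∑ l, C (U i l) * X (Sum.inr l) ∈ I) (j : Fin d ⊕ Fin d) :
    ∃ m : ℕ, (X j : MvPolynomial (Fin d ⊕ Fin d) ℝ) ^ m ∈ I := by
  have h1 : (X j : MvPolynomial (Fin d ⊕ Fin d) ℝ) ∈ I.radical := by
    rw [← vanishingIdeal_zeroLocus_eq_radical (K := ℂ) I]
    intro w hw
    rw [mem_zeroLocus_iff] at hw
    have h2 := no_common_zero U hU hD G hG w (fun b hb => hw _ (hI b hb)) (fun i => by
      have h3 := hw _ (hIU i)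
      rw [map_sub, map_sum, aeval_X, sub_eq_zero] at h3
      rw [h3]
      refine Finset.sum_congr rfl fun l _ => ?_
      rw [map_mul, aeval_C, aeval_X]
      rfl)
    rw [aeval_X, h2]
    rfl
  exact h1

end main

end Vale.Agent.P054.T3.H955
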