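import Vale.Agent.P054.T3.H955.Ker
import Vale.Agent.P054.T2.H441.Dense
import Vale.Agent.P054.T2.H930.Jets
import Vale.Agent.P054.T2.H580.Sys

/-!
# P054 / T3, Lemma V: lower bounds for the Hilbert function of the germ prime

`linIndep_mul`: if the values at `u = 0` of `psi F_μ` are independent modulo the prime of `s`, then
the products `u^α F_μ` are independent modulo the germ prime.
-/

set_option autoImplicit false
set_option linter.unusedSectionVars false

open MvPolynomial Module

namespace Vale.Agent.P054.T3.H955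

open Vale.Agent.P054.T2 Vale.Agent.P054.T2.H686 Vale.Agent.P054.T2.H580 Vale.Agent.P054.T2.SecC
open Vale.Agent.P054.T2.H930
open Vale.Agent.P054.T2.H455 (xh der_mem_germ)
open Vale.Agent.P054.T2.H441 (hF)

variable {n : ℕ}

/-- the monomial `u^α` in the variables `(g, s)` -/
noncomputable def umon (α : Fin n →₀ ℕ) : MvPolynomial (Crd n ⊕ Pt n) ℝ :=
  rename (fun i => Sum.inl (Sum.inl i)) (monomial α (1 : ℝ))

theorem psi_umon (α : Fin n →₀ ℕ) : psi n (umon α) = monomial α 1 := by
  unfold umon psi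
  rw [rename_monomial, aeval_monomial, map_one, one_mul,
    Finsupp.prod_mapDomain_index (by simp) (by intros; rw [pow_add])]
  rw [monomial_eq (s := α) (a := (1 : MvPolynomial (Pt n) ℝ)), C_1, one_mul]
  rfl

theorem umon_mem_Vw (wt : Crd n ⊕ Pt n → ℕ) (hu : ∀ i, wt (Sum.inl (Sum.inl i)) = 1) {M : ℕ}
    {α : Fin n →₀ ℕ} (hα : α.degree ≤ M) : umon α ∈ Vw ℝ wt M := by
  classical
  unfold umon
  rw [rename_monomial, mem_Vw]
  intro s hs
  have h1 : s = Finsupp.mapDomain (fun i => Sum.inl (Sum.inl i)) α := by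
    have := support_monomial_subset hs
    simpa using this
  rw [h1]
  refine le_trans (le_of_eq ?_) hα
  rw [Finsupp.weight_apply, Finsupp.sum_mapDomain_index (by simp) (by intros; simp [add_mul])]
  simp only [hu, smul_eq_mul, mul_one]
  rfl

namespace HData

variable {E0 E1 E2 : Finset (ZZ n × ZZ n)} {wt : Crd n ⊕ Pt n → ℕ} {N c₀ c₁ : ℕ}
  (H : HData n E0 E1 E2 wt N c₀ c₁)

/-- **independence of the products `u^α F_μ`** -/
theorem linIndep_mul {e : ZZ n × ZZ n} (he : e ∈ E2) {I : Type*}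
    (F : I → MvPolynomial (Crd n ⊕ Pt n) ℝ)
    (h : LinearIndependent ℝ (fun μ => Ideal.Quotient.mk (H.Ps e) (coeff 0 (psi n (F μ))))) :
    LinearIndependent ℝ (fun p : (Fin n →₀ ℕ) × I =>
      Ideal.Quotient.mk (H.P e) (umon p.1 * F p.2)) := by
  classical
  rw [linearIndependent_iff']
  intro s g hs
  -- all coefficients of `psi` of the sum lie in the prime of `s`
  have h1 : (∑ p ∈ s, g p • (umon p.1 * F p.2)) ∈ H.P e := by
    rw [← Ideal.Quotient.eq_zero_iff_mem, map_sum, ← hs]
    refine Finset.sum_congr rfl fun p _ => ?_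
    exact (Ideal.Quotient.mkₐ ℝ (H.P e)).toLinearMap.map_smul (g p) _
  have h2 := (H.mem_P_iff he _).1 h1
  have h3 : ∀ α₀ : Fin n →₀ ℕ, coeff α₀ (psi n (∑ p ∈ s, g p • (umon p.1 * F p.2))) =
      ∑ p ∈ s, g p • (if p.1 ≤ α₀ then coeff (α₀ - p.1) (psi n (F p.2)) else 0) := by
    intro α₀
    rw [map_sum, coeff_sum]
    refine Finset.sum_congr rfl fun p _ => ?_
    rw [map_smul, map_mul, psi_umon, coeff_smul, coeff_monomial_mul', one_mul]
  have key : ∀ d : ℕ, ∀ p ∈ s, p.1.degree = d → g p = 0 := by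
    intro d
    induction d using Nat.strong_induction_on with
    | _ d ih =>
      rintro ⟨α₀, μ₀⟩ hp hd
      have h4 := h2 α₀
      rw [h3] at h4
      -- only `α = α₀` survives
      have h5 : (∑ p ∈ s, g p • (if p.1 ≤ α₀ then coeff (α₀ - p.1) (psi n (F p.2)) else 0)) =
          ∑ p ∈ s.filter (fun p => p.1 = α₀), g p • coeff 0 (psi n (F p.2)) := by
        rw [Finset.sum_filter]
        refine Finset.sum_congr rfl fun p hp' => ?_
        by_cases hpα : p.1 = α₀
        · rw [if_pos hpα, if_pos (le_of_eq hpα), hpα, tsub_self]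
        · rw [if_neg hpα]
          by_cases hle : p.1 ≤ α₀
          · have hlt : p.1.degree < d := by
              have hsum : p.1 + (α₀ - p.1) = α₀ := add_tsub_cancel_of_le hle
              have hdeg : p.1.degree + (α₀ - p.1).degree = α₀.degree := by
                rw [← map_add, hsum]
              have hne : (α₀ - p.1).degree ≠ 0 := by
                intro h0
                rw [Finsupp.degree_eq_zero_iff] at h0
                rw [h0, add_zero] at hsum
                exact hpα hsum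
              have hd' : α₀.degree = d := hd
              omega
            rw [ih _ hlt p hp' rfl, zero_smul]
          · rw [if_neg hle, smul_zero]
      rw [h5] at h4
      -- rewrite as a sum over the indices `μ`
      have h6 : (∑ p ∈ s.filter (fun p => p.1 = α₀), g p • coeff 0 (psi n (F p.2))) =
          ∑ μ ∈ (s.filter (fun p => p.1 = α₀)).image Prod.snd, g (α₀, μ) • coeff 0 (psi n (F μ)) := by
        rw [Finset.sum_image]
        · refine Finset.sum_congr rfl fun p hp' => ?_
          have : p = (α₀, p.2) := Prod.ext (Finset.mem_filter.1 hp').2 rfl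
          rw [← this]
        · intro p hp' q hq' hpq
          exact Prod.ext ((Finset.mem_filter.1 hp').2.trans (Finset.mem_filter.1 hq').2.symm) hpq
      rw [h6] at h4
      have h7 : ∑ μ ∈ (s.filter (fun p => p.1 = α₀)).image Prod.snd,
          g (α₀, μ) • Ideal.Quotient.mk (H.Ps e) (coeff 0 (psi n (F μ))) = 0 := by
        rw [← Ideal.Quotient.eq_zero_iff_mem, map_sum] at h4
        rw [← h4]
        refine Finset.sum_congr rfl fun μ _ => ?_
        exact ((Ideal.Quotient.mkₐ ℝ (H.Ps e)).toLinearMap.map_smul (g (α₀, μ)) _).symm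
      refine linearIndependent_iff'.1 h _ (fun μ => g (α₀, μ)) h7 μ₀ ?_
      exact Finset.mem_image.2 ⟨(α₀, μ₀), Finset.mem_filter.2 ⟨hp, rfl⟩, rfl⟩
  exact fun p hp => key _ p hp rfl

/-- **the products are counted by the weighted Hilbert function** -/
theorem choose_mul_card_le {e : ZZ n × ZZ n} (he : e ∈ E2) (hwt : ∀ x, wt x ≠ 0)
    (hu : ∀ i, wt (Sum.inl (Sum.inl i)) = 1) {I : Type*} [Fintype I]
    (F : I → MvPolynomial (Crd n ⊕ Pt n) ℝ)
    (h : LinearIndependent ℝ (fun μ => Ideal.Quotient.mk (H.Ps e) (coeff 0 (psi n (F μ)))))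
    {M w : ℕ} (hFw : ∀ μ, F μ ∈ Vw ℝ wt w) :
    (M + n).choose n * Fintype.card I ≤ hilbF (Vw ℝ wt) (H.P e) (M + w) := by
  classical
  let A : Set (Fin n →₀ ℕ) := {d | (d.sum fun _ x => x) ≤ M}
  have hAf : Finite A := by
    have h1 : Nat.card A = (M + n).choose n := card_degree_le n M
    refine Nat.finite_of_card_ne_zero ?_
    rw [h1]
    exact (Nat.choose_pos (by omega)).ne'
  have : Fintype A := Fintype.ofFinite A
  have hcard : Fintype.card (A × I) = (M + n).choose n * Fintype.card I := by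
    rw [Fintype.card_prod, ← Nat.card_eq_fintype_card, card_degree_le n M]
  have hfin := (isFilt_Vw (k := ℝ) wt hwt).finite_map (H.P e) (M + w)
  have hmem : ∀ p : A × I, Ideal.Quotient.mk (H.P e) (umon p.1.1 * F p.2) ∈
      (Vw ℝ wt (M + w)).map (Ideal.Quotient.mkₐ ℝ (H.P e)).toLinearMap := by
    intro p
    refine ⟨umon p.1.1 * F p.2, ?_, rfl⟩
    exact mul_mem_Vw wt (umon_mem_Vw wt hu p.1.2) (hFw p.2)
  have hli : LinearIndependent ℝ (fun p : A × I =>
      (⟨_, hmem p⟩ : (Vw ℝ wt (M + w)).map (Ideal.Quotient.mkₐ ℝ (H.P e)).toLinearMap)) := by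
    refine LinearIndependent.of_comp
      ((Vw ℝ wt (M + w)).map (Ideal.Quotient.mkₐ ℝ (H.P e)).toLinearMap).subtype ?_
    have h1 := (H.linIndep_mul he F h).comp (fun p : A × I => ((p.1.1, p.2) : (Fin n →₀ ℕ) × I))
      (by
        rintro ⟨a, b⟩ ⟨c, d⟩ h
        simp only [Prod.mk.injEq] at h
        exact Prod.ext (Subtype.ext h.1) h.2)
    exact h1
  have h2 := hli.fintype_card_le_finrank
  rw [hcard] at h2
  exact h2

theorem psi_rename (G : MvPolynomial (Pt n) ℝ) :
    psi n (rename (Sum.inr : Pt n → Crd n ⊕ Pt n) G) = C G := by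
  induction G using MvPolynomial.induction_on with
  | C c => rw [rename_C]; exact (psi n).commutes c
  | add p q hp hq => rw [map_add, map_add, hp, hq, C_add]
  | mul_X p y hp =>
    rw [map_mul, map_mul, hp, rename_X, C_mul]
    congr 1
    unfold psi
    rw [aeval_X]
    rfl

/-- a basis of the polynomials of degree at most `m` modulo an ideal -/
theorem exists_basis_quot {κ : Type*} [Finite κ] (I : Ideal (MvPolynomial κ ℝ)) (m : ℕ) :
    ∃ G : Fin (hF I m) → MvPolynomial κ ℝ, (∀ μ, G μ ∈ restrictTotalDegree κ ℝ m) ∧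
      LinearIndependent ℝ (fun μ => Ideal.Quotient.mk I (G μ)) := by
  let S := (restrictTotalDegree κ ℝ m).map (Ideal.Quotient.mkₐ ℝ I).toLinearMap
  have hS : Module.Finite ℝ S := by
    have := H441.finiteDeg (σ := κ) (K := ℝ) m
    infer_instance
  let b := Module.finBasis ℝ S
  have hb : ∀ μ, ∃ G : MvPolynomial κ ℝ, G ∈ restrictTotalDegree κ ℝ m ∧
      Ideal.Quotient.mk I G = (b μ : MvPolynomial κ ℝ ⧸ I) := by
    intro μ
    obtain ⟨G, hG1, hG2⟩ := (b μ).2
    exact ⟨G, hG1, hG2⟩
  choose G hG1 hG2 using hb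
  have h2 : LinearIndependent ℝ (fun μ => (b μ : MvPolynomial κ ℝ ⧸ I)) :=
    b.linearIndependent.map' S.subtype (Submodule.ker_subtype S)
  have h1 : (fun μ => Ideal.Quotient.mk I (G μ)) = fun μ => (b μ : MvPolynomial κ ℝ ⧸ I) :=
    funext hG2
  rw [← h1] at h2
  exact ⟨G, hG1, h2⟩

/-- `s`-polynomials of degree `≤ m` modulo the prime of `s`, times the monomials in `u` -/
theorem choose_mul_hF_le {e : ZZ n × ZZ n} (he : e ∈ E2) (hwt : ∀ x, wt x ≠ 0)
    (hu : ∀ i, wt (Sum.inl (Sum.inl i)) = 1) {W : ℕ} (hs : ∀ y, wt (Sum.inr y) = W) (M m : ℕ) :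
    (M + n).choose n * hF (H.Ps e) m ≤ hilbF (Vw ℝ wt) (H.P e) (M + W * m) := by
  obtain ⟨G, hG1, hG2⟩ := exists_basis_quot (H.Ps e) m
  have h1 := H.choose_mul_card_le he hwt hu
    (fun μ => rename (Sum.inr : Pt n → Crd n ⊕ Pt n) (G μ))
    (by
      have : (fun μ => Ideal.Quotient.mk (H.Ps e) (coeff 0 (psi n
        (rename (Sum.inr : Pt n → Crd n ⊕ Pt n) (G μ))))) =
          fun μ => Ideal.Quotient.mk (H.Ps e) (G μ) := by
        funext μ
        rw [psi_rename, coeff_zero_C]
      rw [this]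
      exact hG2)
    (M := M) (w := W * m)
    (fun μ => by
      rw [mem_Vw]
      intro s hs'
      rw [support_rename_of_injective Sum.inr_injective, Finset.mem_image] at hs'
      obtain ⟨t, ht, rfl⟩ := hs'
      have h2 := (mem_restrictTotalDegree _ _ _).1 (hG1 μ)
      have h3 := (le_totalDegree ht).trans h2
      rw [Finsupp.weight_apply, Finsupp.sum_mapDomain_index (by simp)
        (by intros; simp [add_mul])]
      simp only [hs, smul_eq_mul]
      rw [← Finsupp.sum_mul, mul_comm]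
      exact Nat.mul_le_mul_left _ h3)
  rwa [Fintype.card_fin] at h1

include H in
/-- the base family drops at most `n + 1` times -/
theorem base_count_le {e : ZZ n × ZZ n} (he : e ∈ E2) : c₀ ≤ n + 1 := by
  have h1 := H.finrank_K1_ge (H.sub' he)
  have h3 : H.K1 e ≤ Ksub (fun (i : Fin c₀) (j : Crd n) =>
      eval (meet e.1 e.2) (pderiv j (H.f i))) := by
    intro w hw i
    have h1 := hw (Fin.castAdd c₁ i)
    rw [← h1]
    refine Finset.sum_congr rfl fun j _ => ?_
    show eval (meet e.1 e.2) (pderiv j (H.f i)) * w j =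
      eval (xh e) (pderiv (Sum.inl j) (H.phi (Fin.castAdd c₁ i))) * w j
    rw [phi_left, pderiv_rename Sum.inl_injective, eval_rename]
    rfl
  have h4 := finrank_Ksub (fun (i : Fin c₀) (j : Crd n) =>
    eval (meet e.1 e.2) (pderiv j (H.f i)))
  have h2 : LinearIndependent ℝ (Matrix.of (fun (i : Fin c₀) (j : Crd n) =>
    eval (meet e.1 e.2) (pderiv j (H.f i)))).row := H.f_ind e he
  rw [h2.rank_matrix, Fintype.card_fin] at h4
  have h5 := Submodule.finrank_mono h3
  have h6 : Fintype.card (Crd n) = 2 * n + 1 := by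
    simp only [Fintype.card_sum, Fintype.card_fin, Fintype.card_unit]
    omega
  rw [h6] at h4
  omega

include H in
theorem vert_count_le {e : ZZ n × ZZ n} (he : e ∈ E2) : c₁ ≤ 2 * n + 2 := by
  have h1 := (H.h_ind e he).fintype_card_le_finrank
  rw [Fintype.card_fin, Module.finrank_fintype_fun_eq_card] at h1
  have h2 : Fintype.card (Pt n) = 2 * n + 2 := by
    simp only [Fintype.card_sum, Fintype.card_fin]
    omega
  omega

/-- **growth of the prime of `s`** -/
theorem growth {e : ZZ n × ZZ n} (he : e ∈ E2) (hwt : ∀ x, wt x ≠ 0)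
    (hu : ∀ i, wt (Sum.inl (Sum.inl i)) = 1) {W : ℕ} (hW : 1 ≤ W)
    (hs : ∀ y, wt (Sum.inr y) = W) :
    ∃ C : ℕ, ∀ m, hF (H.Ps e) m ≤ C * (m + 1) ^ ((n + 1 - c₀) + (2 * n + 2 - c₁)) := by
  classical
  have hc0 := H.base_count_le he
  have hc1 := H.vert_count_le he
  have hWN : W ≤ N := by
    have := H.wt_le (Sum.inr (Sum.inl 0))
    rwa [hs] at this
  have hcard : Fintype.card (Crd n ⊕ Pt n) = 4 * n + 3 := by
    simp only [Fintype.card_sum, Fintype.card_fin, Fintype.card_unit]
    omega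
  set dim := 4 * n + 3 - (c₀ + c₁) with hdim
  set ex := (n + 1 - c₀) + (2 * n + 2 - c₁) with hex
  have hdn : dim = n + ex := by omega
  -- upper bound
  have hup : ∀ k, N ≤ k → hilbF (Vw ℝ wt) (H.P e) k ≤
      (c₀ + c₁ + 2) ^ (4 * n + 3) * (N ^ (c₀ + c₁) * k ^ dim) := by
    intro k hk
    have h1 := up_Vw (K := ℝ) wt hwt (fun _ : Unit => xh e) {()} H.phi (fun _ => N)
      (fun _ _ => by omega) (fun j => H.phi_mem j)
      (fun _ _ j => H.phi_zero (H.mem0 he) j) (fun _ _ => H.phi_ind he)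
      (by rw [hcard]; omega) k (fun i => (H.wt_le i).trans hk) (by omega)
    rw [hcard, Finset.prod_const, Finset.card_range] at h1
    have h2 : (⨅ e' ∈ ({()} : Finset Unit), germ (xh e) H.phi) = H.P e := by simp [HData.P]
    rw [h2] at h1
    refine le_trans ?_ h1
    have h3 : 0 < ∏ i, wt i := Finset.prod_pos fun i _ => Nat.pos_of_ne_zero (hwt i)
    exact Nat.le_mul_of_pos_left _ h3
  -- the constant
  refine ⟨n.factorial * ((c₀ + c₁ + 2) ^ (4 * n + 3) * (N ^ (c₀ + c₁) * (2 * N) ^ dim)), ?_⟩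
  intro m
  have h1 := H.choose_mul_hF_le he hwt hu hs (N * (m + 1)) (m + 1)
  have h2 := hup (N * (m + 1) + W * (m + 1)) (by
    have : N ≤ N * (m + 1) := Nat.le_mul_of_pos_right _ (by omega)
    omega)
  have h3 : hF (H.Ps e) m ≤ hF (H.Ps e) (m + 1) := by
    have := (isFilt_total (k := ℝ) (σ := Pt n)).hilbF_mono (H.Ps e) (Nat.le_succ m)
    exact this
  have h4 : (N * (m + 1)) ^ n ≤ n.factorial * (N * (m + 1) + n).choose n := by
    have h5 := Nat.ascFactorial_eq_factorial_mul_choose (N * (m + 1)) n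
    rw [← h5]
    exact (Nat.pow_le_pow_left (Nat.le_succ _) n).trans (Nat.pow_succ_le_ascFactorial _ n)
  have h5 : (m + 1) ^ n ≤ (N * (m + 1)) ^ n :=
    Nat.pow_le_pow_left (Nat.le_mul_of_pos_left _ (by omega)) n
  have h6 : N * (m + 1) + W * (m + 1) ≤ 2 * N * (m + 1) := by
    have : W * (m + 1) ≤ N * (m + 1) := Nat.mul_le_mul_right _ hWN
    calc N * (m + 1) + W * (m + 1) ≤ N * (m + 1) + N * (m + 1) := by omega
      _ = 2 * N * (m + 1) := by ring
  have h7 : (m + 1) ^ n * hF (H.Ps e) m ≤ (m + 1) ^ n *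
      (n.factorial * ((c₀ + c₁ + 2) ^ (4 * n + 3) * (N ^ (c₀ + c₁) * (2 * N) ^ dim)) *
        (m + 1) ^ ex) := by
    calc (m + 1) ^ n * hF (H.Ps e) m
        ≤ (n.factorial * (N * (m + 1) + n).choose n) * hF (H.Ps e) (m + 1) :=
          Nat.mul_le_mul (h5.trans h4) h3
      _ = n.factorial * ((N * (m + 1) + n).choose n * hF (H.Ps e) (m + 1)) := by ring
      _ ≤ n.factorial * ((c₀ + c₁ + 2) ^ (4 * n + 3) *
            (N ^ (c₀ + c₁) * (N * (m + 1) + W * (m + 1)) ^ dim)) :=
          Nat.mul_le_mul_left _ (h1.trans h2)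
      _ ≤ n.factorial * ((c₀ + c₁ + 2) ^ (4 * n + 3) *
            (N ^ (c₀ + c₁) * (2 * N * (m + 1)) ^ dim)) :=
          Nat.mul_le_mul_left _ (Nat.mul_le_mul_left _ (Nat.mul_le_mul_left _
            (Nat.pow_le_pow_left h6 _)))
      _ = _ := by rw [mul_pow (2 * N) (m + 1), hdn, pow_add (m + 1) n ex]; ring
  exact Nat.le_of_mul_le_mul_left h7 (by positivity)

end HData

end Vale.Agent.P054.T3.H955
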