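import Vale.Agent.P054.T3.H955.GenProj
import Vale.Agent.P054.T3.H955.FinGen
import Vale.Agent.P054.T3.H955.Low
import Vale.Agent.P054.T2.H431.CylInst
import Vale.Agent.P054.T2.H588.GenU

/-!
# P054 / T3, Lemma V: integrality over the projection at `u = 0`

`p` a stable ideal of `ℝ[ζ,θ]` with Hilbert function `O(T^n)`.  Modulo `p` every polynomial of degree
`≤ T` is a combination of monomials of degree `≤ T` whose degree in the block
`{ζ_0, θ_1, …, θ_n}` is bounded by a constant.
-/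

set_option autoImplicit false
set_option linter.unusedSectionVars false

open MvPolynomial Module

namespace Vale.Agent.P054.T3.H955

open Vale.Agent.P054.T2 Vale.Agent.P054.T2.H686 Vale.Agent.P054.T2.SecC
open Vale.Agent.P054.T2.H441 (cD cD_X cD_C coeff_cD hF yP chg chg_X mem_span_const_poly
  totalDegree_cD_le cD_rename)
open Vale.Agent.P054.T2.H431 (hF_add_finrank le_of_choose_le)
open Vale.Agent.P054.T2.H588 (hF_comap_le')

section rel

variable {k : Type*} [CommRing k] [Algebra k ℝ] {τ : Type*} [Fintype τ]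

/-- a relation with constant coefficients between `n + 1` coordinates -/
theorem exists_const_rel {n C : ℕ} (p : Ideal (MvPolynomial τ ℝ))
    (hD : ∀ D : Derivation k ℝ ℝ, ∀ h ∈ p, cD D h ∈ p)
    (hP : ∀ T, hF p T ≤ C * (T + 1) ^ n) (b : Fin (n + 1) → τ) :
    ∃ w : MvPolynomial (Fin (n + 1)) ℝ, w ≠ 0 ∧ (∀ D : Derivation k ℝ ℝ, cD D w = 0) ∧
      rename b w ∈ p := by
  classical
  set P' := p.comap (rename (R := ℝ) b) with hP'
  have hle : ∀ T, hF P' T ≤ C * (T + 1) ^ n := fun T =>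
    (hF_comap_le' (rename (R := ℝ) b) (fun i => by rw [rename_X, totalDegree_X]) p T).trans (hP T)
  obtain ⟨T, hT⟩ : ∃ T, C * (T + 1) ^ n < (T + (n + 1)).choose (n + 1) := by
    by_contra hcon
    push Not at hcon
    have := le_of_choose_le hcon
    omega
  set V := (restrictTotalDegree (Fin (n + 1)) ℝ T ⊓ P'.restrictScalars ℝ :
    Submodule ℝ (MvPolynomial (Fin (n + 1)) ℝ)) with hV
  have h1 : hF P' T + finrank ℝ V = (T + (n + 1)).choose (n + 1) := by
    rw [← Vale.Agent.P054.T2.H930.finrank_restrictTotalDegree ℝ (n + 1) T]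
    exact hF_add_finrank P' T
  have h2 := hle T
  have h3 : 0 < finrank ℝ V := by omega
  have hVne : V ≠ ⊥ := by
    intro h0
    rw [h0, finrank_bot] at h3
    exact lt_irrefl _ h3
  by_contra hcon
  push Not at hcon
  apply hVne
  rw [eq_bot_iff]
  intro h hh
  have h4 := mem_span_const_poly (fun D : Derivation k ℝ ℝ => D) V ?_ h hh
  · have h5 : {w | w ∈ V ∧ ∀ (a : Derivation k ℝ ℝ) m, a (coeff m w) = 0} ⊆ {0} := by
      rintro w ⟨hw1, hw2⟩
      by_contra hw0
      refine hcon w hw0 (fun D => ?_) hw1.2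
      ext m
      rw [coeff_cD, hw2 D m, coeff_zero]
    have h6 := Submodule.span_mono (R := ℝ) h5 h4
    rw [Submodule.span_zero_singleton] at h6
    exact h6
  · rintro D w ⟨hw1, hw2⟩
    refine ⟨(mem_restrictTotalDegree _ _ _).2 ?_, ?_⟩
    · exact (totalDegree_cD_le _ _).trans ((mem_restrictTotalDegree _ _ _).1 hw1)
    · show rename b (cD D w) ∈ p
      rw [← cD_rename]
      exact hD D _ hw2

/-- the admissible leading forms -/
theorem exists_adm {n C : ℕ} [DecidableEq τ] (p : Ideal (MvPolynomial τ ℝ))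
    (hD : ∀ D : Derivation k ℝ ℝ, ∀ h ∈ p, cD D h ∈ p)
    (hP : ∀ T, hF p T ≤ C * (T + 1) ^ n) (b : Fin (n + 1) → τ) (hb : Function.Injective b) :
    ∃ h g : MvPolynomial τ ℝ, ∃ d : ℕ, h ∈ p ∧ g.IsHomogeneous d ∧
      (g - h = 0 ∨ (g - h).totalDegree < d) ∧ Adm k (Finset.univ.image b) g := by
  classical
  obtain ⟨w, hw0, hwD, hwp⟩ := exists_const_rel p hD hP b
  set d := w.totalDegree with hd
  set g₀ := homogeneousComponent d w with hg₀
  have hg₀0 : g₀ ≠ 0 := by
    obtain ⟨m, hm, hmd⟩ : ∃ m ∈ w.support, m.degree = d := by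
      obtain ⟨m, hm, hmd⟩ := Finset.exists_max_image w.support (fun m => m.degree)
        (support_nonempty.2 hw0)
      refine ⟨m, hm, le_antisymm (le_totalDegree hm) ?_⟩
      rw [hd]
      refine Finset.sup_le fun m' hm' => ?_
      exact hmd m' hm'
    intro h0
    have h1 : coeff m g₀ = coeff m w := by
      rw [hg₀, coeff_homogeneousComponent, if_pos hmd]
    rw [h0, coeff_zero] at h1
    exact MvPolynomial.mem_support_iff.1 hm h1.symm
  have hlow : g₀ - w = 0 ∨ (g₀ - w).totalDegree < d := by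
    by_cases h0 : g₀ - w = 0
    · exact Or.inl h0
    right
    have h1 : ∀ m ∈ (g₀ - w).support, m.degree < d := by
      intro m hm
      rw [MvPolynomial.mem_support_iff, coeff_sub, hg₀, coeff_homogeneousComponent] at hm
      by_cases hmd : m.degree = d
      · rw [if_pos hmd, sub_self] at hm
        exact absurd rfl hm
      · rw [if_neg hmd, zero_sub, neg_ne_zero] at hm
        have h2 : m.degree ≤ d := le_totalDegree (MvPolynomial.mem_support_iff.2 hm)
        omega
    have hdpos : 0 < d := by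
      obtain ⟨m, hm⟩ := support_nonempty.2 h0
      have := h1 m hm
      omega
    rw [MvPolynomial.totalDegree, Finset.sup_lt_iff (by simpa using hdpos)]
    intro m hm
    exact h1 m hm
  refine ⟨rename b w, rename b g₀, d, hwp, ?_, ?_, ?_, ⟨d, ?_⟩, ?_, ?_⟩
  · exact (homogeneousComponent_isHomogeneous d w).rename_isHomogeneous
  · rw [← map_sub]
    rcases hlow with h | h
    · left; rw [h, map_zero]
    · right; exact (totalDegree_rename_le _ _).trans_lt h
  · intro h0
    exact hg₀0 (rename_injective b hb (by rw [h0, map_zero]))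
  · exact (homogeneousComponent_isHomogeneous d w).rename_isHomogeneous
  · intro D
    rw [cD_rename]
    have : cD D g₀ = 0 := by
      ext m
      rw [coeff_cD, hg₀, coeff_homogeneousComponent, coeff_zero]
      split_ifs
      · have h1 := congrArg (coeff m) (hwD D)
        rwa [coeff_cD, coeff_zero] at h1
      · exact map_zero D
    rw [this, map_zero]
  · intro i hi
    have := vars_rename b g₀ hi
    rw [Finset.mem_image] at this ⊢
    obtain ⟨j, _, hj⟩ := this
    exact ⟨j, Finset.mem_univ _, hj⟩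

end rel

section main

variable {n : ℕ} {k : Type*} [CommRing k] [Algebra k ℝ]

/-- the degree in the block `{ζ_0, θ_1, …, θ_n}` -/
def eDeg (s : ZI n →₀ ℕ) : ℕ := s (Sum.inl 0) + ∑ l : Fin n, s (Sum.inr l.succ)

/-- the block `{θ_0, ζ_1, …, ζ_n}` of the coordinates at `u = 0` -/
def cIdx : Fin (n + 1) → ZI n := Fin.cases (Sum.inr 0) (fun i => Sum.inl i.succ)

/-- polynomials of degree `≤ T` and of degree `≤ A` in the block `{ζ_0, θ_1, …, θ_n}` -/
noncomputable def MM (n A T : ℕ) : Submodule ℝ (MvPolynomial (ZI n) ℝ) :=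
  restrictSupport ℝ {s | s.degree ≤ T ∧ eDeg s ≤ A}

theorem mem_MM {A T : ℕ} {F : MvPolynomial (ZI n) ℝ} :
    F ∈ MM n A T ↔ ∀ s ∈ F.support, s.degree ≤ T ∧ eDeg s ≤ A := by
  unfold MM
  rw [mem_restrictSupport_iff]
  exact Iff.rfl

theorem eDeg_le (s : ZI n →₀ ℕ) : eDeg s ≤ s.degree := by
  rw [Finsupp.degree_eq_sum, Fintype.sum_sum_type, Fin.sum_univ_succ (fun i => s (Sum.inl i)),
    Fin.sum_univ_succ (fun i => s (Sum.inr i))]
  unfold eDeg
  omega

theorem eDeg_add (s t : ZI n →₀ ℕ) : eDeg (s + t) = eDeg s + eDeg t := by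
  unfold eDeg
  simp only [Finsupp.add_apply, Finset.sum_add_distrib]
  ring

theorem eDeg_cIdx (i : Fin (n + 1)) : eDeg (Finsupp.single (cIdx i) 1 : ZI n →₀ ℕ) = 0 := by
  classical
  unfold eDeg cIdx
  refine Fin.cases ?_ (fun j => ?_) i
  · simp [Fin.succ_ne_zero]
  · simp [Fin.succ_ne_zero]

theorem X_mul_mem_MM {A T : ℕ} (i : Fin (n + 1)) {F : MvPolynomial (ZI n) ℝ}
    (hF : F ∈ MM n A T) : X (cIdx i) * F ∈ MM n A (T + 1) := by
  classical
  rw [mem_MM] at hF ⊢
  intro s hs
  rw [mul_comm, support_mul_X, Finset.mem_map] at hs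
  obtain ⟨t, ht, rfl⟩ := hs
  obtain ⟨h1, h2⟩ := hF t ht
  simp only [addRightEmbedding_apply]
  refine ⟨?_, ?_⟩
  · rw [map_add, Finsupp.degree_single]
    omega
  · rw [eDeg_add, eDeg_cIdx]
    exact h2

theorem totalDegree_yP_le (B : Matrix (Fin (n + 1)) (Fin (n + 1)) ℝ) (b : ZI n) :
    (yP B b).totalDegree ≤ 1 := by
  have h0 : ∀ (x y : ZI n) (c : ℝ),
      ((X x + X y) * C c : MvPolynomial (ZI n) ℝ).totalDegree ≤ 1 := by
    intro x y c
    refine (totalDegree_mul _ _).trans ?_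
    rw [totalDegree_C, add_zero]
    refine (totalDegree_add _ _).trans ?_
    rw [totalDegree_X, totalDegree_X, max_self]
  have h0' : ∀ (x y : ZI n) (c : ℝ),
      ((X x - X y) * C c : MvPolynomial (ZI n) ℝ).totalDegree ≤ 1 := by
    intro x y c
    refine (totalDegree_mul _ _).trans ?_
    rw [totalDegree_C, add_zero]
    refine (totalDegree_sub _ _).trans ?_
    rw [totalDegree_X, totalDegree_X, max_self]
  rcases b with i | j
  · exact h0 _ _ _
  · show (∑ i, C (B i j) * ((X (Sum.inr i) - X (Sum.inl i)) * C (1 / 2)) :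
      MvPolynomial (ZI n) ℝ).totalDegree ≤ 1
    refine totalDegree_finsetSum_le fun i _ => ?_
    refine (totalDegree_mul _ _).trans ?_
    rw [totalDegree_C, zero_add]
    exact h0' _ _ _

/-- the forms `ζ = y - B y'`, `θ = y + B y'` -/
noncomputable def zP (B : Matrix (Fin (n + 1)) (Fin (n + 1)) ℝ) : ZI n → MvPolynomial (ZI n) ℝ
  | Sum.inl i => X (Sum.inl i) - ∑ l, C (B i l) * X (Sum.inr l)
  | Sum.inr i => X (Sum.inl i) + ∑ l, C (B i l) * X (Sum.inr l)

theorem chg_sum {B : Matrix (Fin (n + 1)) (Fin (n + 1)) ℝ} (hB : B * B.transpose = 1)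
    (i : Fin (n + 1)) : chg B (∑ l, C (B i l) * X (Sum.inr l)) =
      (X (Sum.inr i) - X (Sum.inl i)) * C (1 / 2) := by
  rw [map_sum]
  have h1 : ∀ l, chg B (C (B i l) * X (Sum.inr l)) =
      ∑ m, C (B i l * B m l) * ((X (Sum.inr m) - X (Sum.inl m)) * C (1 / 2)) := by
    intro l
    have hC : chg B (C (B i l)) = C (B i l) := by
      unfold chg
      exact (aeval (yP B)).commutes _
    rw [map_mul, hC, chg_X]
    show C (B i l) * ∑ m, C (B m l) * ((X (Sum.inr m) - X (Sum.inl m)) * C (1 / 2)) = _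
    rw [Finset.mul_sum]
    refine Finset.sum_congr rfl fun m _ => ?_
    rw [C_mul]
    ring
  simp only [h1]
  rw [Finset.sum_comm]
  have h2 : ∀ m, ∑ l, C (B i l * B m l) * ((X (Sum.inr m) - X (Sum.inl m)) * C (1 / 2)) =
      C ((1 : Matrix (Fin (n + 1)) (Fin (n + 1)) ℝ) i m) *
        ((X (Sum.inr m) - X (Sum.inl m)) * C (1 / 2) : MvPolynomial (ZI n) ℝ) := by
    intro m
    rw [← Finset.sum_mul, ← map_sum, ← hB, Matrix.mul_apply]
    rfl
  simp only [h2]
  rw [Finset.sum_eq_single i]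
  · rw [Matrix.one_apply_eq, C_1, one_mul]
  · intro m _ hm
    rw [Matrix.one_apply_ne (Ne.symm hm), C_0, zero_mul]
  · intro h; exact absurd (Finset.mem_univ _) h

theorem chg_zP {B : Matrix (Fin (n + 1)) (Fin (n + 1)) ℝ} (hB : B * B.transpose = 1) (b : ZI n) :
    chg B (zP B b) = X b := by
  have hhalf : (C (1 / 2 : ℝ) : MvPolynomial (ZI n) ℝ) * 2 = 1 := by
    have h5 : (2 : MvPolynomial (ZI n) ℝ) = C 2 := (map_ofNat C 2).symm
    rw [h5, ← C_mul, one_div_mul_cancel two_ne_zero, C_1]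
  have hy : ∀ i, chg B (X (Sum.inl i)) = (X (Sum.inl i) + X (Sum.inr i)) * C (1 / 2) := by
    intro i
    rw [chg_X]
    rfl
  rcases b with i | i
  · show chg B (X (Sum.inl i) - ∑ l, C (B i l) * X (Sum.inr l)) = _
    rw [map_sub, chg_sum hB, hy]
    linear_combination (X (Sum.inl i)) * hhalf
  · show chg B (X (Sum.inl i) + ∑ l, C (B i l) * X (Sum.inr l)) = _
    rw [map_add, chg_sum hB, hy]
    linear_combination (X (Sum.inr i)) * hhalf

theorem totalDegree_zP_le (B : Matrix (Fin (n + 1)) (Fin (n + 1)) ℝ) (b : ZI n) :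
    (zP B b).totalDegree ≤ 1 := by
  have h1 : ∀ i, (∑ l, C (B i l) * X (Sum.inr l) : MvPolynomial (ZI n) ℝ).totalDegree ≤ 1 := by
    intro i
    refine totalDegree_finsetSum_le fun l _ => ?_
    refine (totalDegree_mul _ _).trans ?_
    rw [totalDegree_C, zero_add, totalDegree_X]
  rcases b with i | i
  · refine (totalDegree_sub _ _).trans ?_
    rw [totalDegree_X]
    exact max_le le_rfl (h1 i)
  · refine (totalDegree_add _ _).trans ?_
    rw [totalDegree_X]
    exact max_le le_rfl (h1 i)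

/-- the reflected matrix -/
def Uref (B : Matrix (Fin (n + 1)) (Fin (n + 1)) ℝ) : Matrix (Fin (n + 1)) (Fin (n + 1)) ℝ :=
  Matrix.of fun i l => (if i = 0 then -1 else 1) * B i l

theorem Uref_orth {B : Matrix (Fin (n + 1)) (Fin (n + 1)) ℝ} (hB : B * B.transpose = 1) :
    Uref B * (Uref B).transpose = 1 := by
  ext i j
  rw [Matrix.mul_apply]
  have h1 : ∀ l, Uref B i l * (Uref B).transpose l j =
      ((if i = 0 then -1 else 1) * (if j = 0 then -1 else 1)) * (B i l * B.transpose l j) := by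
    intro l
    simp only [Uref, Matrix.of_apply, Matrix.transpose_apply]
    ring
  simp only [h1]
  rw [← Finset.mul_sum, ← Matrix.mul_apply, hB]
  by_cases hij : i = j
  · subst hij
    rw [Matrix.one_apply_eq]
    split_ifs <;> norm_num
  · rw [Matrix.one_apply_ne hij, mul_zero]

theorem Uref_gen {B : Matrix (Fin (n + 1)) (Fin (n + 1)) ℝ}
    (hgen : ∀ O : Matrix (Fin (n + 1)) (Fin (n + 1)) ℝ, O.transpose = -O →
      ∃ D : Derivation k ℝ ℝ, ∀ i j, D (B i j) = (B * O) i j)
    (O : Matrix (Fin (n + 1)) (Fin (n + 1)) ℝ) (hO : O.transpose = -O) :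
    ∃ D : Derivation k ℝ ℝ, ∀ i j, D (Uref B i j) = (Uref B * O) i j := by
  obtain ⟨D, hD⟩ := hgen O hO
  refine ⟨D, fun i j => ?_⟩
  have h1 : Uref B i j = (if i = 0 then -1 else 1) * B i j := rfl
  have h2 : (Uref B * O) i j = (if i = 0 then -1 else 1) * (B * O) i j := by
    rw [Matrix.mul_apply, Matrix.mul_apply, Finset.mul_sum]
    refine Finset.sum_congr rfl fun l _ => ?_
    simp only [Uref, Matrix.of_apply]
    ring
  rw [h1, h2, ← hD]
  split_ifs
  · rw [neg_one_mul, neg_one_mul, map_neg]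
  · rw [one_mul, one_mul]

theorem chg_form {B : Matrix (Fin (n + 1)) (Fin (n + 1)) ℝ} (hB : B * B.transpose = 1)
    (i : Fin (n + 1)) :
    chg B (X (Sum.inl i) - ∑ l, C (Uref B i l) * X (Sum.inr l)) = X (cIdx i) := by
  refine Fin.cases ?_ (fun j => ?_) i
  · have h1 : (X (Sum.inl 0) - ∑ l, C (Uref B 0 l) * X (Sum.inr l) : MvPolynomial (ZI n) ℝ) =
        zP B (Sum.inr 0) := by
      show _ = X (Sum.inl 0) + ∑ l, C (B 0 l) * X (Sum.inr l)
      rw [sub_eq_add_neg, ← Finset.sum_neg_distrib]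
      congr 1
      refine Finset.sum_congr rfl fun l _ => ?_
      simp [Uref]
    rw [h1, chg_zP hB]
    rfl
  · have h1 : (X (Sum.inl j.succ) - ∑ l, C (Uref B j.succ l) * X (Sum.inr l) :
        MvPolynomial (ZI n) ℝ) = zP B (Sum.inl j.succ) := by
      show _ = X (Sum.inl j.succ) - ∑ l, C (B j.succ l) * X (Sum.inr l)
      congr 1
      refine Finset.sum_congr rfl fun l _ => ?_
      simp [Uref, Fin.succ_ne_zero]
    rw [h1, chg_zP hB]
    rfl

/-- **integrality over the projection at `u = 0`** -/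
theorem integ {B : Matrix (Fin (n + 1)) (Fin (n + 1)) ℝ} (hB : B * B.transpose = 1)
    (hgen : ∀ O : Matrix (Fin (n + 1)) (Fin (n + 1)) ℝ, O.transpose = -O →
      ∃ D : Derivation k ℝ ℝ, ∀ i j, D (B i j) = (B * O) i j)
    (p : Ideal (MvPolynomial (ZI n) ℝ))
    (hstab : ∀ (D : Derivation k ℝ ℝ) (h : MvPolynomial (ZI n) ℝ), chg B h ∈ p →
      chg B (cD D h) ∈ p)
    {C₀ : ℕ} (hP : ∀ T, hF p T ≤ C₀ * (T + 1) ^ n) :
    ∃ A, ∀ T, restrictTotalDegree (ZI n) ℝ T ≤ p.restrictScalars ℝ ⊔ MM n A T := by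
  classical
  set p' := p.comap (chg B) with hp'
  have hP' : ∀ T, hF p' T ≤ C₀ * (T + 1) ^ n := fun T =>
    (hF_comap_le' (chg B) (fun i => by rw [chg_X]; exact totalDegree_yP_le B i) p T).trans (hP T)
  have hD' : ∀ D : Derivation k ℝ ℝ, ∀ h ∈ p', cD D h ∈ p' := fun D h hh => hstab D h hh
  let κ := {b : Fin (n + 1) → Fin (n + 1) ⊕ Fin (n + 1) // Function.Injective b}
  have hex : ∀ b : κ, ∃ h g : MvPolynomial (ZI n) ℝ, ∃ d : ℕ, h ∈ p' ∧ g.IsHomogeneous d ∧
      (g - h = 0 ∨ (g - h).totalDegree < d) ∧ Adm k (Finset.univ.image b.1) g :=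
    fun b => exists_adm p' hD' hP' b.1 b.2
  choose h g d hh hg hlow hadm using hex
  let l : Fin (n + 1) → MvPolynomial (ZI n) ℝ :=
    fun i => X (Sum.inl i) - ∑ l, C (Uref B i l) * X (Sum.inr l)
  have hl : ∀ i, (l i).IsHomogeneous 1 := by
    intro i
    refine (isHomogeneous_X _ _).sub ?_
    refine IsHomogeneous.sum _ _ _ fun m _ => ?_
    have := (isHomogeneous_C (ZI n) (Uref B i m)).mul (isHomogeneous_X ℝ (Sum.inr m : ZI n))
    rwa [zero_add] at this
  have hpow : ∀ j, ∃ m : ℕ, (X j : MvPolynomial (ZI n) ℝ) ^ m ∈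
      Ideal.span (Set.range (Sum.elim g l)) := by
    intro j
    refine pow_mem_of_generic (k := k) (Uref B) (Uref_orth hB) (Uref_gen hgen)
      (fun b => if hb : Function.Injective b then g ⟨b, hb⟩ else 0) (fun b hb => ?_)
      (Ideal.span (Set.range (Sum.elim g l))) (fun b hb => ?_) (fun i => ?_) j
    · simp only [dif_pos hb]
      exact hadm ⟨b, hb⟩
    · simp only [dif_pos hb]
      exact Ideal.subset_span ⟨Sum.inl ⟨b, hb⟩, rfl⟩
    · exact Ideal.subset_span ⟨Sum.inr i, rfl⟩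
  obtain ⟨A, hA⟩ := finite_gen p' h g d hg hh hlow l hl hpow
  refine ⟨A, fun T F hF => ?_⟩
  have hM := hA (fun T => (MM n A T).comap (chg B).toLinearMap) ?_ ?_ ?_ T
  · have h1 : aeval (zP B) F ∈ restrictTotalDegree (ZI n) ℝ T := by
      rw [mem_restrictTotalDegree] at hF ⊢
      exact (H588.totalDegree_aeval_le _ (totalDegree_zP_le B) F).trans hF
    obtain ⟨x, hx, y, hy, hxy⟩ := Submodule.mem_sup.1 (hM h1)
    have h2 : chg B (aeval (zP B) F) = F := by
      have h3 : (chg B).comp (aeval (zP B)) = AlgHom.id ℝ (MvPolynomial (ZI n) ℝ) := by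
        apply MvPolynomial.algHom_ext
        intro b
        rw [AlgHom.comp_apply, aeval_X, chg_zP hB]
        rfl
      exact DFunLike.congr_fun h3 F
    rw [← h2, ← hxy, map_add]
    exact Submodule.add_mem _ (Submodule.mem_sup_left hx) (Submodule.mem_sup_right hy)
  · intro a b hab F hF
    rw [Submodule.mem_comap, mem_MM] at hF ⊢
    intro s hs
    exact ⟨(hF s hs).1.trans hab, (hF s hs).2⟩
  · intro T hT F hF
    rw [Submodule.mem_comap, mem_MM]
    intro s hs
    rw [mem_restrictTotalDegree] at hF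
    have h1 : (chg B F).totalDegree ≤ T :=
      (H588.totalDegree_aeval_le _ (totalDegree_yP_le B) F).trans hF
    have h2 : s.degree ≤ T := (le_totalDegree hs).trans h1
    exact ⟨h2, (eDeg_le s).trans (h2.trans hT)⟩
  · intro i T f hf
    rw [Submodule.mem_comap] at hf ⊢
    show chg B (l i * f) ∈ _
    rw [map_mul, chg_form hB]
    exact X_mul_mem_MM i hf

end main

end Vale.Agent.P054.T3.H955
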