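import Vale.Agent.P054.T3.H955.HData

/-!
# P054 / T3, Lemma V: the germ prime is the kernel of the leaf parametrisation

`psi` substitutes the leaf parametrisation `b_i = ζ_{i+1} - ζ_0 u_i`, `z = -θ_0 - ∑ θ_{l+1} u_l`.
`mem_P_iff`: `F ∈ P_e` iff all coefficients (in `u`) of `psi F` lie in the prime of `s`.
-/

set_option autoImplicit false
set_option linter.unusedSectionVars false

open MvPolynomial Module

namespace Vale.Agent.P054.T3.H955

open Vale.Agent.P054.T2 Vale.Agent.P054.T2.H686 Vale.Agent.P054.T2.H580 Vale.Agent.P054.T2.SecC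
open Vale.Agent.P054.T2.H930
open Vale.Agent.P054.T2.H455 (xh der_mem_germ)

variable {n : ℕ}

/-- the ring `(ℝ[s])[u]` -/
abbrev US (n : ℕ) := MvPolynomial (Fin n) (MvPolynomial (Pt n) ℝ)

/-- the substitution of the leaf parametrisation, on the variables -/
noncomputable def psiX (n : ℕ) : Crd n ⊕ Pt n → US n
  | Sum.inl (Sum.inl i) => X i
  | Sum.inl (Sum.inr (Sum.inl i)) => C (X (Sum.inl i.succ)) - C (X (Sum.inl 0)) * X i
  | Sum.inl (Sum.inr (Sum.inr _)) =>
      - C (X (Sum.inr 0)) - ∑ l : Fin n, C (X (Sum.inr l.succ)) * X l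
  | Sum.inr y => C (X y)

/-- the substitution of the leaf parametrisation -/
noncomputable def psi (n : ℕ) : MvPolynomial (Crd n ⊕ Pt n) ℝ →ₐ[ℝ] US n :=
  aeval (psiX n)

/-- `(ℝ[s])[u] → ℝ[g,s]` -/
noncomputable def iot (n : ℕ) : US n →+* MvPolynomial (Crd n ⊕ Pt n) ℝ :=
  eval₂Hom (rename (R := ℝ) (Sum.inr : Pt n → Crd n ⊕ Pt n)).toRingHom
    (fun i => X (Sum.inl (Sum.inl i)))

theorem iot_C (c : MvPolynomial (Pt n) ℝ) :
    iot n (C c) = rename (Sum.inr : Pt n → Crd n ⊕ Pt n) c := by
  unfold iot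
  rw [eval₂Hom_C]
  rfl

theorem iot_X (i : Fin n) : iot n (X i) = X (Sum.inl (Sum.inl i)) := by
  unfold iot
  rw [eval₂Hom_X']

/-- the velocities of the leaf derivation `E_i = ∂_{u_i} - ζ_0 ∂_{b_i} - θ_{i+1} ∂_z` -/
noncomputable def Evel (i : Fin n) : Crd n → MvPolynomial (Crd n ⊕ Pt n) ℝ
  | Sum.inl j => if j = i then 1 else 0
  | Sum.inr (Sum.inl j) => if j = i then - X (Sum.inr (Sum.inl 0)) else 0
  | Sum.inr (Sum.inr _) => - X (Sum.inr (Sum.inr i.succ))

/-- the leaf derivation -/
noncomputable def Eder (i : Fin n) :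
    Derivation ℝ (MvPolynomial (Crd n ⊕ Pt n) ℝ) (MvPolynomial (Crd n ⊕ Pt n) ℝ) :=
  mkDerivation ℝ (Sum.elim (Evel i) (fun _ => 0))

theorem der_sum_apply {ι : Type*} (s : Finset ι)
    (D : ι → Derivation ℝ (MvPolynomial (Crd n ⊕ Pt n) ℝ) (MvPolynomial (Crd n ⊕ Pt n) ℝ))
    (F : MvPolynomial (Crd n ⊕ Pt n) ℝ) : (∑ x ∈ s, D x) F = ∑ x ∈ s, D x F := by
  classical
  induction s using Finset.induction_on with
  | empty => simp
  | insert a s ha ih => rw [Finset.sum_insert ha, Finset.sum_insert ha, Derivation.add_apply, ih]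

theorem Eder_apply (i : Fin n) (F : MvPolynomial (Crd n ⊕ Pt n) ℝ) :
    Eder i F = ∑ x : Crd n, Evel i x * pderiv (Sum.inl x) F := by
  classical
  have h : Eder i = ∑ x : Crd n, Evel i x • pderiv (Sum.inl x) := by
    refine MvPolynomial.derivation_ext fun y => ?_
    unfold Eder
    rw [mkDerivation_X, der_sum_apply]
    rcases y with y | y
    · rw [Finset.sum_eq_single y]
      · rw [Derivation.smul_apply, pderiv_X_self, smul_eq_mul, mul_one]
        rfl
      · intro x _ hx
        rw [Derivation.smul_apply, pderiv_X_of_ne (by simpa using fun h => hx h.symm), smul_zero]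
      · simp
    · symm
      refine Finset.sum_eq_zero fun x _ => ?_
      rw [Derivation.smul_apply, pderiv_X_of_ne (by simp), smul_zero]
  rw [h, der_sum_apply]
  refine Finset.sum_congr rfl fun x _ => ?_
  rw [Derivation.smul_apply, smul_eq_mul]

theorem Eder_iot (i : Fin n) (G : US n) : Eder i (iot n G) = iot n (pderiv i G) := by
  induction G using MvPolynomial.induction_on with
  | C c =>
    rw [iot_C, pderiv_C, map_zero, Eder_apply]
    refine Finset.sum_eq_zero fun x _ => ?_
    rw [pderiv_rename_notMem Sum.inr _ _ (by rintro ⟨a, ha⟩; cases ha), mul_zero]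
  | add p q hp hq => rw [map_add, map_add, hp, hq, map_add, map_add]
  | mul_X p j hp =>
    rw [map_mul, iot_X, Derivation.leibniz, hp, Derivation.leibniz, map_add, smul_eq_mul,
      smul_eq_mul, smul_eq_mul, smul_eq_mul, map_mul, map_mul, iot_X]
    congr 2
    unfold Eder
    rw [mkDerivation_X]
    show Evel i (Sum.inl j) = _
    by_cases h : j = i
    · subst h
      rw [pderiv_X_self, map_one]
      simp [Evel]
    · rw [pderiv_X_of_ne h, map_zero]
      simp [Evel, h]

theorem eval_Evel (i : Fin n) (e : ZZ n × ZZ n) (x : Crd n) :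
    eval (xh e) (Evel i x) = leafDir e.1 (Pi.single i 1) x := by
  rcases x with x | x | x
  · show eval _ (if x = i then (1 : MvPolynomial (Crd n ⊕ Pt n) ℝ) else 0) = (Pi.single i (1:ℝ) : Fin n → ℝ) x
    rw [Pi.single_apply]
    split_ifs <;> simp
  · show eval _ (if x = i then - X (Sum.inr (Sum.inl 0)) else 0) =
      - (e.1.1 0 * (Pi.single i (1:ℝ) : Fin n → ℝ) x)
    rw [Pi.single_apply]
    split_ifs
    · rw [map_neg, eval_X, mul_one]; rfl
    · simp
  · show eval _ (- X (Sum.inr (Sum.inr i.succ))) =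
      - ∑ l : Fin n, e.1.2 l.succ * (Pi.single i (1:ℝ) : Fin n → ℝ) l
    rw [map_neg, eval_X]
    congr 1
    rw [Finset.sum_eq_single i]
    · rw [Pi.single_eq_same, mul_one]; rfl
    · intro l _ hl
      rw [Pi.single_eq_of_ne hl, mul_zero]
    · simp

namespace HData

variable {E0 E1 E2 : Finset (ZZ n × ZZ n)} {wt : Crd n ⊕ Pt n → ℕ} {N c₀ c₁ : ℕ}
  (H : HData n E0 E1 E2 wt N c₀ c₁)

/-- modulo the germ prime, every polynomial equals its substitution -/
theorem sub_iot_psi_mem {e : ZZ n × ZZ n} (he : e ∈ E2) (F : MvPolynomial (Crd n ⊕ Pt n) ℝ) :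
    F - iot n (psi n F) ∈ H.P e := by
  have hCalg : ∀ r : ℝ, iot n (algebraMap ℝ (US n) r) = algebraMap ℝ _ r := by
    intro r
    have h1 : algebraMap ℝ (US n) r = C (C r) := rfl
    rw [h1, iot_C, rename_C]
    rfl
  let f1 : MvPolynomial (Crd n ⊕ Pt n) ℝ →ₐ[ℝ] MvPolynomial (Crd n ⊕ Pt n) ℝ ⧸ H.P e :=
    Ideal.Quotient.mkₐ ℝ (H.P e)
  let iotA : US n →ₐ[ℝ] MvPolynomial (Crd n ⊕ Pt n) ℝ := ⟨iot n, hCalg⟩
  have key : f1 = (f1.comp iotA).comp (psi n) := by
    apply MvPolynomial.algHom_ext
    intro x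
    have h0 : ∀ a b : MvPolynomial (Crd n ⊕ Pt n) ℝ, a - b ∈ H.P e → f1 a = f1 b := by
      intro a b hab
      exact Ideal.Quotient.eq.2 hab
    show f1 (X x) = f1 (iot n (psi n (X x)))
    apply h0
    unfold psi
    rw [aeval_X]
    rcases x with (x | x | x) | x
    · show X _ - iot n (X x) ∈ _
      rw [iot_X, sub_self]
      exact Ideal.zero_mem _
    · show X _ - iot n (C (X (Sum.inl x.succ)) - C (X (Sum.inl 0)) * X x) ∈ _
      rw [map_sub, map_mul, iot_C, iot_C, iot_X, rename_X, rename_X]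
      have h1 := H.inc_mem he (Sum.inl x)
      have h2 : (X (Sum.inl (Sum.inr (Sum.inl x))) - (X (Sum.inr (Sum.inl x.succ)) -
        X (Sum.inr (Sum.inl 0)) * X (Sum.inl (Sum.inl x))) : MvPolynomial (Crd n ⊕ Pt n) ℝ) =
        incP ℝ n (Sum.inl x) := by
        unfold incP
        ring
      rw [h2]
      exact h1
    · show X _ - iot n (- C (X (Sum.inr 0)) - ∑ l : Fin n, C (X (Sum.inr l.succ)) * X l) ∈ _
      rw [map_sub, map_neg, map_sum, iot_C, rename_X]
      have h1 := H.inc_mem he (Sum.inr ())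
      have h2 : (X (Sum.inl (Sum.inr (Sum.inr x))) - (- X (Sum.inr (Sum.inr 0)) -
        ∑ l : Fin n, iot n (C (X (Sum.inr l.succ)) * X l)) : MvPolynomial (Crd n ⊕ Pt n) ℝ) =
        incP ℝ n (Sum.inr ()) := by
        have h3 : ∀ l : Fin n, iot n (C (X (Sum.inr l.succ)) * X l) =
            X (Sum.inr (Sum.inr l.succ)) * X (Sum.inl (Sum.inl l)) := by
          intro l
          rw [map_mul, iot_C, iot_X, rename_X]
        simp only [h3]
        unfold incP
        rcases x with ⟨⟩
        ring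
      rw [h2]
      exact h1
    · show X _ - iot n (C (X x)) ∈ _
      rw [iot_C, rename_X, sub_self]
      exact Ideal.zero_mem _
  have h1 := DFunLike.congr_fun key F
  exact Ideal.Quotient.eq.1 h1

/-- the leaf derivations preserve the germ prime -/
theorem Eder_mem {e : ZZ n × ZZ n} (he : e ∈ E2) (i : Fin n)
    {F : MvPolynomial (Crd n ⊕ Pt n) ℝ} (hF : F ∈ H.P e) : Eder i F ∈ H.P e := by
  refine der_mem_germ (Eder i) (fun j => ?_) hF
  have hlev : Eder i (H.phi j) ∈ Vw ℝ wt ((2 * n + 2) * N + 2 * N) := by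
    rw [Eder_apply]
    refine Submodule.sum_mem _ fun x _ => ?_
    have hv : Evel i x ∈ Vw ℝ wt N := by
      have hX : ∀ y, (X y : MvPolynomial (Crd n ⊕ Pt n) ℝ) ∈ Vw ℝ wt N :=
        fun y => Vw_mono wt (H.wt_le y) (X_mem_Vw wt y)
      rcases x with x | x | x
      · show (if x = i then (1 : MvPolynomial (Crd n ⊕ Pt n) ℝ) else 0) ∈ _
        split_ifs
        · exact C_mem_Vw wt 1 N
        · exact Submodule.zero_mem _
      · show (if x = i then - X (Sum.inr (Sum.inl 0)) else 0) ∈ _
        split_ifs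
        · exact Submodule.neg_mem _ (hX _)
        · exact Submodule.zero_mem _
      · exact Submodule.neg_mem _ (hX _)
    have hd : pderiv (Sum.inl x) (H.phi j) ∈ Vw ℝ wt N :=
      Vw_mono wt (Nat.sub_le _ _) (pderiv_mem_Vw wt (H.phi_mem j) (Sum.inl x))
    exact Vw_mono wt (by omega) (mul_mem_Vw wt hv hd)
  refine H.good e he _ hlev fun e' he' => ?_
  have h1 := H.leaf_le_K1 he' ⟨Pi.single i 1, rfl⟩ j
  show eval (xh e') (Eder i (H.phi j)) = 0
  rw [Eder_apply, map_sum, ← h1]
  refine Finset.sum_congr rfl fun x _ => ?_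
  rw [map_mul, eval_Evel, mul_comm]

theorem iot_monomial_mem {e : ZZ n × ZZ n} (β : Fin n →₀ ℕ) {c : MvPolynomial (Pt n) ℝ}
    (hc : c ∈ H.Ps e) : iot n (monomial β c) ∈ H.P e := by
  have h1 : (monomial β c : US n) = C c * monomial β 1 := by
    rw [C_mul_monomial, mul_one]
  rw [h1, map_mul, iot_C]
  exact Ideal.mul_mem_right _ _ hc

/-- coefficients of the members of the germ prime -/
theorem coeff_mem_of_iot_mem {e : ZZ n × ZZ n} (he : e ∈ E2) (m : ℕ) (G : US n)
    (hm : ∀ β : Fin n →₀ ℕ, m < β.degree → coeff β G = 0) (hG : iot n G ∈ H.P e)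
    (α : Fin n →₀ ℕ) : coeff α G ∈ H.Ps e := by
  classical
  induction m generalizing G α with
  | zero =>
    have h1 : G = C (coeff 0 G) := by
      ext1 β
      rw [coeff_C]
      split_ifs with h
      · rw [h]
      · refine hm β ?_
        rw [pos_iff_ne_zero, Ne, Finsupp.degree_eq_zero_iff]
        exact fun h' => h h'.symm
    have h2 : coeff 0 G ∈ H.Ps e := by
      rw [h1, iot_C] at hG
      exact hG
    rw [h1, coeff_C]
    split_ifs
    · exact h2
    · exact Ideal.zero_mem _
  | succ m ih =>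
    -- nonconstant coefficients
    have hpos : ∀ β : Fin n →₀ ℕ, β ≠ 0 → coeff β G ∈ H.Ps e := by
      intro β hβ
      obtain ⟨i, hi⟩ : ∃ i, β i ≠ 0 := by
        by_contra hcon
        push Not at hcon
        exact hβ (Finsupp.ext hcon)
      have hd : iot n (pderiv i G) ∈ H.P e := by
        rw [← Eder_iot]
        exact H.Eder_mem he i hG
      have htd : ∀ γ : Fin n →₀ ℕ, m < γ.degree → coeff γ (pderiv i G) = 0 := by
        intro γ hγ
        rw [coeff_pderiv, hm (γ + Finsupp.single i 1), zero_mul]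
        rw [map_add, Finsupp.degree_single]
        omega
      have h2 := ih (pderiv i G) htd hd (β - Finsupp.single i 1)
      have h6 : β - Finsupp.single i 1 + Finsupp.single i 1 = β := by
        refine tsub_add_cancel_of_le ?_
        rw [Finsupp.single_le_iff]
        omega
      rw [coeff_pderiv, h6] at h2
      have h7 : (β - Finsupp.single i 1 : Fin n →₀ ℕ) i + 1 = β i := by
        rw [Finsupp.tsub_apply, Finsupp.single_eq_same]
        omega
      have h8 : (((β - Finsupp.single i 1 : Fin n →₀ ℕ) i : ℕ) : MvPolynomial (Pt n) ℝ) + 1 =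
          C (β i : ℝ) := by
        rw [← h7]
        push_cast
        rw [map_add, map_one, map_natCast]
      rw [h8] at h2
      have h4 : coeff β G * C (β i : ℝ) * C ((β i : ℝ)⁻¹) = coeff β G := by
        rw [mul_assoc, ← C_mul, mul_inv_cancel₀ (by exact_mod_cast hi), C_1, mul_one]
      rw [← h4]
      exact Ideal.mul_mem_right _ _ h2
    by_cases hα : α = 0
    · subst hα
      have h1 : G - C (coeff 0 G) = ∑ β ∈ G.support.erase 0, monomial β (coeff β G) := by
        conv_lhs => rw [G.as_sum]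
        by_cases h0 : (0 : Fin n →₀ ℕ) ∈ G.support
        · rw [← Finset.add_sum_erase _ _ h0]
          simp only [coeff_add, coeff_monomial, coeff_sum]
          have h9 : (∑ x ∈ G.support.erase 0, if x = 0 then coeff x G else 0) = 0 := by
            refine Finset.sum_eq_zero fun x hx => ?_
            rw [if_neg (Finset.mem_erase.1 hx).1]
          rw [h9, if_true, add_zero]
          rw [show (monomial (0 : Fin n →₀ ℕ) (coeff 0 G) : US n) = C (coeff 0 G) from rfl]
          ring
        · rw [Finset.erase_eq_of_notMem h0]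
          have h9 : coeff 0 (∑ v ∈ G.support, monomial v (coeff v G)) = 0 := by
            rw [← G.as_sum]
            exact notMem_support_iff.1 h0
          rw [h9, C_0, sub_zero]
      have h2 : iot n (G - C (coeff 0 G)) ∈ H.P e := by
        rw [h1, map_sum]
        exact Ideal.sum_mem _ fun β hβ => H.iot_monomial_mem β (hpos β (Finset.mem_erase.1 hβ).1)
      have h3 : iot n (C (coeff 0 G)) ∈ H.P e := by
        have := Ideal.sub_mem _ hG h2
        rwa [← map_sub, sub_sub_cancel] at this
      rw [iot_C] at h3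
      exact h3
    · exact hpos α hα

/-- **the germ prime is the kernel of the leaf parametrisation** -/
theorem mem_P_iff {e : ZZ n × ZZ n} (he : e ∈ E2) (F : MvPolynomial (Crd n ⊕ Pt n) ℝ) :
    F ∈ H.P e ↔ ∀ α, coeff α (psi n F) ∈ H.Ps e := by
  classical
  have h0 := H.sub_iot_psi_mem he F
  constructor
  · intro hF α
    have h1 : iot n (psi n F) ∈ H.P e := by
      have := Ideal.sub_mem _ hF h0
      rwa [sub_sub_cancel] at this
    refine H.coeff_mem_of_iot_mem he (psi n F).totalDegree (psi n F) (fun β hβ => ?_) h1 α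
    by_contra hne
    have := le_totalDegree (mem_support_iff.2 hne)
    have h2 : β.degree = β.sum fun _ x => x := rfl
    omega
  · intro h
    have h1 : iot n (psi n F) ∈ H.P e := by
      rw [(psi n F).as_sum, map_sum]
      exact Ideal.sum_mem _ fun β _ => H.iot_monomial_mem β (h β)
    have := Ideal.add_mem _ h0 h1
    rwa [sub_add_cancel] at this

end HData

end Vale.Agent.P054.T3.H955
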