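import Vale.Agent.P054.T3.H955.Vert5

/-!
# P054 / T3, Lemma V, vertical case (6): the theorem
-/

set_option autoImplicit false
set_option linter.unusedSectionVars false

open MvPolynomial Module

namespace Vale.Agent.P054.T3.H955

open Vale.Agent.P054.T2 Vale.Agent.P054.T2.H686 Vale.Agent.P054.T2.H580 Vale.Agent.P054.T2.SecC
open Vale.Agent.P054.T2.H930
open Vale.Agent.P054.T2.H455 (xh der_mem_germ)
open Vale.Agent.P054.T2.H441 (cD cD_C cD_X chg)
open Vale.Agent.P054.T2.H588 (mat mat_orth KK pv)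
open Vale.Agent.P054.T2.H431 (constF)

variable {n : ℕ}

/-- `Bf` vanishes on the span -/
theorem Bf_span {L K : Type*} [Field L] [Field K] (f : L →+* K) (T : Submodule L (ZI n → L))
    (hT : ∀ t ∈ T, ∀ t' ∈ T, Bf t t' = 0) {x y : ZI n → K}
    (hx : x ∈ Submodule.span K ((fun v : ZI n → L => fun z => f (v z)) '' (T : Set (ZI n → L))))
    (hy : y ∈ Submodule.span K ((fun v : ZI n → L => fun z => f (v z)) '' (T : Set (ZI n → L)))) :
    Bf x y = 0 := by
  have hadd : ∀ a b c : ZI n → K, Bf (a + b) c = Bf a c + Bf b c := fun a b c => Bf_add_left a b c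
  have hsm : ∀ (s : K) (a c : ZI n → K), Bf (s • a) c = s * Bf a c := fun s a c =>
    Bf_smul_left s a (s • a) c fun z => rfl
  have h0 : ∀ c : ZI n → K, Bf (0 : ZI n → K) c = 0 := fun c => by simp [Bf]
  refine Submodule.span_induction (p := fun x _ => Bf x y = 0) ?_ (h0 y) ?_ ?_ hx
  · rintro _ ⟨v, hv, rfl⟩
    refine Submodule.span_induction (p := fun y _ => Bf (fun z => f (v z)) y = 0) ?_ ?_ ?_ ?_ hy
    · rintro _ ⟨v', hv', rfl⟩
      have h1 := congrArg f (hT v hv v' hv')
      rw [map_zero] at h1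
      rw [← h1]
      unfold Bf
      rw [map_sum]
      exact Finset.sum_congr rfl fun i _ => by rw [map_add, map_mul, map_mul]
    · rw [Bf_comm, h0]
    · intro a b _ _ ha hb
      rw [Bf_comm] at ha hb ⊢
      rw [hadd, ha, hb, add_zero]
    · intro s a _ ha
      rw [Bf_comm] at ha ⊢
      rw [hsm, ha, mul_zero]
  · intro a b _ _ ha hb
    rw [hadd, ha, hb, add_zero]
  · intro s a _ ha
    rw [hsm, ha, mul_zero]

namespace HData

variable {E0 E1 E2 : Finset (ZZ n × ZZ n)} {wt : Crd n ⊕ Pt n → ℕ} {N c₀ c₁ : ℕ}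
  (H : HData n E0 E1 E2 wt N c₀ c₁)

section germ

variable {D : ℕ} (φ : MvPolynomial (Crd n ⊕ Pt n) ℝ →ₐ[ℝ] MvPowerSeries (Fin D) ℝ)
  {K : Type*} [Field K] (ι : MvPowerSeries (Fin D) ℝ →+* K)

/-- velocity vectors of the germ -/
noncomputable def dv (l : Fin D) (x : Crd n ⊕ Pt n) : K :=
  ι (MvPowerSeries.pderiv ℝ l (φ (X x)))

theorem dv_kill {F : MvPolynomial (Crd n ⊕ Pt n) ℝ} (hF : φ F = 0) (l : Fin D) :
    ∑ x, dv φ ι l x * ι (φ (pderiv x F)) = 0 := by
  have h1 := chain_rule (MvPowerSeries.pderiv ℝ l) φ F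
  rw [hF, map_zero] at h1
  have h2 := congrArg ι h1
  rw [map_zero, map_sum] at h2
  rw [h2]
  refine Finset.sum_congr rfl fun x _ => ?_
  rw [map_mul, mul_comm]
  rfl

/-- the `s`-parts of the velocity vectors -/
noncomputable def sv (l : Fin D) (y : Pt n) : K := ι (MvPowerSeries.pderiv ℝ l (φ (X (Sum.inr y))))

theorem sv_kill {F : MvPolynomial (Pt n) ℝ}
    (hF : φ (rename (Sum.inr : Pt n → Crd n ⊕ Pt n) F) = 0) (l : Fin D) :
    ∑ y, sv φ ι l y * ι (φ (rename (Sum.inr : Pt n → Crd n ⊕ Pt n) (pderiv y F))) = 0 := by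
  have h1 := dv_kill φ ι hF l
  rw [Fintype.sum_sum_type] at h1
  have h2 : ∑ x : Crd n, dv φ ι l (Sum.inl x) *
      ι (φ (pderiv (Sum.inl x) (rename (Sum.inr : Pt n → Crd n ⊕ Pt n) F))) = 0 := by
    refine Finset.sum_eq_zero fun x _ => ?_
    rw [pderiv_rename_notMem Sum.inr _ _ (by rintro ⟨a, ha⟩; cases ha), map_zero, map_zero,
      mul_zero]
  rw [h2, zero_add] at h1
  rw [← h1]
  refine Finset.sum_congr rfl fun y _ => ?_
  rw [pderiv_rename Sum.inr_injective]
  rfl

include H in
/-- the `s`-parts of the velocity vectors span a space of dimension at least `D - n` -/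
theorem le_finrank_sv {e : ZZ n × ZZ n} (he : e ∈ E2) (hker : ∀ F, φ F = 0 ↔ F ∈ H.P e)
    (a : Fin D → Crd n ⊕ Pt n → ℝ)
    (ha : ∀ l, φ (∑ j, C (a l j) * (MvPolynomial.X j - C (xh e j))) = MvPowerSeries.X l) :
    D ≤ finrank K (Submodule.span K (Set.range fun l => sv φ ι l)) + n := by
  classical
  have hli : LinearIndependent K (fun l => dv φ ι l) := dvec_li (xh e) φ a ha ι
  set V := Submodule.span K (Set.range fun l => dv φ ι l) with hV
  have hVfin : finrank K V = D := by
    rw [hV, finrank_span_eq_card hli, Fintype.card_fin]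
  set S := Submodule.span K (Set.range fun l => sv φ ι l) with hS
  have hVS : ∀ v ∈ V, (fun y => v (Sum.inr y)) ∈ S := by
    intro v hv
    refine Submodule.span_induction (p := fun v _ => (fun y => v (Sum.inr y)) ∈ S) ?_ ?_ ?_ ?_ hv
    · rintro _ ⟨l, rfl⟩
      exact Submodule.subset_span ⟨l, rfl⟩
    · exact Submodule.zero_mem _
    · intro x y _ _ hx hy
      exact Submodule.add_mem _ hx hy
    · intro c x _ hx
      exact Submodule.smul_mem _ c hx
  have hVk : ∀ v ∈ V, ∀ F, φ F = 0 → ∑ x, v x * ι (φ (pderiv x F)) = 0 := by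
    intro v hv F hF
    refine Submodule.span_induction (p := fun v _ => ∑ x, v x * ι (φ (pderiv x F)) = 0)
      ?_ ?_ ?_ ?_ hv
    · rintro _ ⟨l, rfl⟩
      exact dv_kill φ ι hF l
    · simp
    · intro x y _ _ hx hy
      simp only [Pi.add_apply, add_mul, Finset.sum_add_distrib, hx, hy, add_zero]
    · intro c x _ hx
      simp only [Pi.smul_apply, smul_eq_mul, mul_assoc, ← Finset.mul_sum, hx, mul_zero]
  let θ : V →ₗ[K] (S × (Fin n → K)) :=
    { toFun := fun v => (⟨_, hVS v.1 v.2⟩, fun i => v.1 (Sum.inl (Sum.inl i)))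
      map_add' := by intro x y; rfl
      map_smul' := by intro c x; rfl }
  have hθ : Function.Injective θ := by
    rw [injective_iff_map_eq_zero]
    rintro ⟨v, hv⟩ h0
    have h1 : ∀ y, v (Sum.inr y) = 0 := by
      intro y
      have h2 := congrArg Prod.fst h0
      exact congrFun (congrArg Subtype.val h2) y
    have h2 : ∀ i, v (Sum.inl (Sum.inl i)) = 0 := by
      intro i
      exact congrFun (congrArg Prod.snd h0) i
    apply Subtype.ext
    funext x
    show v x = 0
    rcases x with (x | x | x) | x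
    · exact h2 x
    · have h3 := hVk v hv _ ((hker _).2 (H.inc_mem he (Sum.inl x)))
      rw [Fintype.sum_sum_type, Fintype.sum_sum_type, Fintype.sum_sum_type] at h3
      simp only [h1, h2, zero_mul, Finset.sum_const_zero, zero_add, add_zero] at h3
      have h4 : ∀ j : Fin n, pderiv (Sum.inl (Sum.inr (Sum.inl j))) (incP ℝ n (Sum.inl x)) =
          if j = x then 1 else 0 := by
        intro j
        unfold incP
        simp only [map_add, map_sub, Derivation.leibniz, smul_eq_mul, pderiv_X,
          Pi.single_apply, Sum.inl.injEq, Sum.inr.injEq, reduceCtorEq, if_false, mul_zero,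
          add_zero, sub_zero]
        by_cases h : j = x
        · simp [h]
        · simp [h, Ne.symm h]
      have h5 : pderiv (Sum.inl (Sum.inr (Sum.inr ()))) (incP ℝ n (Sum.inl x)) = 0 := by
        unfold incP
        simp only [map_add, map_sub, Derivation.leibniz, smul_eq_mul, pderiv_X,
          Pi.single_apply, Sum.inl.injEq, Sum.inr.injEq, reduceCtorEq, if_false, mul_zero,
          add_zero, sub_zero]
      simp only [h4, Finset.univ_unique, Finset.sum_singleton] at h3
      have h6 : v (Sum.inl (Sum.inr (Sum.inr default))) *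
          ι (φ (pderiv (Sum.inl (Sum.inr (Sum.inr default))) (incP ℝ n (Sum.inl x)))) = 0 := by
        have : (default : Unit) = () := rfl
        rw [this, h5, map_zero, map_zero, mul_zero]
      rw [h6, add_zero, Finset.sum_eq_single x] at h3
      · rw [if_pos rfl, map_one, map_one, mul_one] at h3
        exact h3
      · intro j _ hj
        rw [if_neg hj, map_zero, map_zero, mul_zero]
      · intro h; exact absurd (Finset.mem_univ _) h
    · have h3 := hVk v hv _ ((hker _).2 (H.inc_mem he (Sum.inr ())))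
      rw [Fintype.sum_sum_type, Fintype.sum_sum_type, Fintype.sum_sum_type] at h3
      simp only [h1, h2, zero_mul, Finset.sum_const_zero, zero_add, add_zero] at h3
      have h4 : ∀ j : Fin n, pderiv (Sum.inl (Sum.inr (Sum.inl j))) (incP ℝ n (Sum.inr ())) =
          0 := by
        intro j
        unfold incP
        simp only [map_add, map_sum, Derivation.leibniz, smul_eq_mul, pderiv_X,
          Pi.single_apply, Sum.inl.injEq, Sum.inr.injEq, reduceCtorEq, if_false, mul_zero,
          add_zero, Finset.sum_const_zero]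
      have h5 : pderiv (Sum.inl (Sum.inr (Sum.inr ()))) (incP ℝ n (Sum.inr ())) = 1 := by
        unfold incP
        simp only [map_add, map_sum, Derivation.leibniz, smul_eq_mul, pderiv_X,
          Pi.single_apply, Sum.inl.injEq, Sum.inr.injEq, reduceCtorEq, if_false, mul_zero,
          add_zero, Finset.sum_const_zero, if_true]
      simp only [h4, map_zero, mul_zero, Finset.sum_const_zero, zero_add, Finset.univ_unique,
        Finset.sum_singleton] at h3
      have hx : x = () := rfl
      have hd : (default : Unit) = () := rfl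
      rw [hd, h5, map_one, map_one, mul_one] at h3
      rw [hx]
      exact h3
    · exact h1 x
  have h1 := LinearMap.finrank_le_finrank_of_injective hθ
  rw [Module.finrank_prod, Module.finrank_fin_fun, hVfin] at h1
  exact h1

end germ

variable {k : Type*} [CommRing k] [Algebra k ℝ]

include H in
/-- **the vertical case** (V3) -/
theorem vert {W : ℕ} (hs : ∀ y, wt (Sum.inr y) = W) (hc₀ : 1 ≤ c₀) (hc₁ : c₁ < 2 * n + 2)
    (B : E n ≃ₗᵢ[ℝ] E n)
    (hgen : ∀ O : Matrix (Fin (n + 1)) (Fin (n + 1)) ℝ, O.transpose = -O →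
      ∃ D : Derivation k ℝ ℝ, ∀ i j, D (mat B i j) = (mat B * O) i j)
    (hpt : ∀ e' ∈ E1, ∃ s : E n × E n, e'.1 = zt B s ∧ KK (constF k ℝ) s)
    {e : ZZ n × ZZ n} (he : e ∈ E2) :
    c₀ = 1 ∧ ∀ e' ∈ E2, H.P e' = H.P e → Qf (e'.1 - e.1) = 0 := by
  classical
  have hp := H.Ps_prime he
  obtain ⟨D, hD, φ, a, ha, hker, hcc⟩ := H.exists_rho he
  let K := FractionRing (MvPowerSeries (Fin D) ℝ)
  let ι : MvPowerSeries (Fin D) ℝ →+* K := algebraMap _ K
  have hι : Function.Injective ι := IsFractionRing.injective (MvPowerSeries (Fin D) ℝ) K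
  let ρ : MvPolynomial (Crd n ⊕ Pt n) ℝ →+* K := ι.comp φ.toRingHom
  have hρ : ∀ F, ρ F = 0 ↔ F ∈ H.P e := by
    intro F
    rw [← hker]
    show ι (φ F) = 0 ↔ _
    exact ⟨fun h => hι (by rw [h, map_zero]), fun h => by rw [h, map_zero]⟩
  let κ : RZ n →+* K := ρ.comp (rename (R := ℝ) (Sum.inr : Pt n → Crd n ⊕ Pt n)).toRingHom
  have hκ : ∀ F, κ F = 0 ↔ F ∈ H.Ps e := fun F => hρ _
  set p := H.Ps e with hpdef
  set L := LF p with hL
  set S := Submodule.span K (Set.range fun l => sv φ ι l) with hS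
  have hSk : ∀ w ∈ S, ∀ F ∈ p, ∑ y, w y * κ (pderiv y F) = 0 := by
    intro w hw F hF
    refine Submodule.span_induction (p := fun w _ => ∑ y, w y * κ (pderiv y F) = 0)
      ?_ ?_ ?_ ?_ hw
    · rintro _ ⟨l, rfl⟩
      exact sv_kill φ ι ((hker _).2 hF) l
    · simp
    · intro x y _ _ hx hy
      simp only [Pi.add_apply, add_mul, Finset.sum_add_distrib, hx, hy, add_zero]
    · intro c x _ hx
      simp only [Pi.smul_apply, smul_eq_mul, mul_assoc, ← Finset.mul_sum, hx, mul_zero]
  have h1 : D ≤ finrank K S + n := H.le_finrank_sv φ ι he hker a ha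
  have h2 : finrank K S ≤ finrank L (TL p) := le_finrank_TL p κ hκ S hSk
  have h3 : finrank L ((TL p).map (cmap n L)) + c₀ ≤ n + 1 := H.finrank_map_add ρ he hρ
  -- a vector of the flat at `u = 0`
  obtain ⟨w, hw, hw0, hwc⟩ : ∃ w ∈ TL p, w ≠ 0 ∧ cmap n L w = 0 := by
    by_contra hcon
    push Not at hcon
    have hinj : Function.Injective ((cmap n L).domRestrict (TL p)) := by
      rw [injective_iff_map_eq_zero]
      rintro ⟨w, hw⟩ h0
      apply Subtype.ext
      by_contra hne
      exact hcon w hw hne h0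
    have h4 : finrank L (LinearMap.range ((cmap n L).domRestrict (TL p))) =
        finrank L (TL p) := LinearMap.finrank_range_of_inj hinj
    have h5 : LinearMap.range ((cmap n L).domRestrict (TL p)) = (TL p).map (cmap n L) :=
      LinearMap.range_domRestrict _ _
    rw [h5] at h4
    omega
  have hΔ := exists_Delta (k := k) (mat_orth B) hgen (p := p)
    (fun D G hG => H.stab hs he B hpt D G hG)
  have h4 : n ≤ finrank L ((TL p).map (cmap n L)) := le_finrank_map p hΔ hw hw0 hwc
  have hc1 : c₀ = 1 := by omega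
  refine ⟨hc1, ?_⟩
  have h7 : finrank L ((TL p).map (cmap n L)) ≤ n := by omega
  have hiso := isotropic p hΔ hw hw0 hwc h7
  -- isotropy over the power series
  have hBsv : ∀ l m, Bf (sv φ ι l) (sv φ ι m) = 0 := by
    intro l m
    refine Bf_span (lam p κ hκ) (TL p) hiso (mem_span_TL p κ hκ ?_) (mem_span_TL p κ hκ ?_)
    · exact fun F hF => hSk _ (Submodule.subset_span ⟨l, rfl⟩) F hF
    · exact fun F hF => hSk _ (Submodule.subset_span ⟨m, rfl⟩) F hF
  have hbraid := H794.braid (n := n) (K := K) (fun y => φ (X (Sum.inr y)))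
    (fun m l => by
      apply hι
      rw [map_zero, ← hBsv m l, map_sum]
      unfold Bf sv
      refine Finset.sum_congr rfl fun i _ => ?_
      rw [map_add, map_mul, map_mul]
      ring)
    (by
      have h5 : n + 1 ≤ finrank K S := by omega
      exact h5)
  -- the quadric lies in the prime of `s`
  let q : MvPolynomial (Crd n ⊕ Pt n) ℝ := ∑ i, (X (Sum.inr (Sum.inl i)) - C (e.1.1 i)) *
    (X (Sum.inr (Sum.inr i)) - C (e.1.2 i))
  have hq : q ∈ H.P e := by
    rw [← hker]
    rw [← hbraid, map_sum]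
    refine Finset.sum_congr rfl fun i _ => ?_
    rw [map_mul, map_sub, map_sub, hcc, hcc, eval_X, eval_X]
    have h6 : ∀ c : ℝ, φ (C c) = MvPowerSeries.C c := fun c => φ.commutes c
    rw [h6, h6]
    rfl
  intro e' he' hP
  rw [← hP] at hq
  have h6 := eval_eq_zero_of_mem_germ (fun i => H.phi_zero (H.mem0 he') i) hq
  rw [map_sum] at h6
  rw [← h6]
  unfold Qf
  refine Finset.sum_congr rfl fun i _ => ?_
  rw [map_mul, map_sub, map_sub, eval_X, eval_X, eval_C, eval_C]
  rfl

end HData

end Vale.Agent.P054.T3.H955
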