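import Vale.Agent.P054.T3.H794.Glue
import Vale.Agent.P054.T3.H955.Vert6

/-!
# P054 / T3, block V: **Lemma V**

`HData.lemmaV` : the number of horizontal points carried by the germs of an `HData` package, in
terms of the number of distinct distances (and, when there is a single horizontal function, in
terms of the number of points).
-/

set_option autoImplicit false

namespace Vale.Agent.P054.T3.H955.HData

open MvPolynomial Finset Module
open Vale.Agent.P054I Vale.Agent.P054K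
open Vale.Agent.P054.T2 Vale.Agent.P054.T2.H686 Vale.Agent.P054.T2.SecC
open Vale.Agent.P054.T2.H580 (Vw hilbF rkF IsFilt wh)
open Vale.Agent.P054.T2.H930 (germ mx grad J Pt hatPt)
open Vale.Agent.P054.T2.H441 (hF rkY)
open Vale.Agent.P054.T2.H84 (Sg mem_Sg sep_Sg)
open Vale.Agent.P054.T2.H588 (mat mat_orth KK pv)
open Vale.Agent.P054.T2.H431 (constF mem_constF)
open Vale.Agent.P054.T3.H794

variable {n : ℕ} {E0 E1 E2 : Finset (ZZ n × ZZ n)} {W D N c₀ c₁ : ℕ}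
  (H : HData n E0 E1 E2 (wh (Crd n) (Pt n) W) N c₀ c₁)

variable {k : Type*} [CommRing k] [Algebra k ℝ]

include H in
/-- **Lemma V** -/
theorem lemmaV (hW : 1 ≤ W) (hD : 1 ≤ D) (hc₀ : 1 ≤ c₀)
    (hh : ∀ j, H.h j ∈ Vw ℝ (wh (Crd n) (Pt n) W) (D * W))
    (T : Fin c₀ → ℕ) (hT1 : ∀ j, 1 ≤ T j) (hT : ∀ j, (H.f j).totalDegree ≤ T j)
    (P : Finset (E n)) (B : E n ≃ₗᵢ[ℝ] E n) {t : ℕ} (ht : (dists P).card ≤ t)
    (hSg : E2.image Prod.fst ⊆ Sg P B)
    (hgen : ∀ O : Matrix (Fin (n + 1)) (Fin (n + 1)) ℝ, O.transpose = -O →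
      ∃ D : Derivation k ℝ ℝ, ∀ i j, D (mat B i j) = (mat B * O) i j)
    (hpt : ∀ e' ∈ E1, ∃ s : E n × E n, e'.1 = zt B s ∧ KK (constF k ℝ) s) :
    (E2.image Prod.fst).card ≤
      CV n * D ^ (2 * n + 2) * (∏ j, T j) * (4 * t + 1) ^ (n + 1 - c₀) ∨
    (c₀ = 1 ∧ (E2.image Prod.fst).card ≤ CV n * D ^ (2 * n + 2) * (∏ j, T j) * P.card) := by
  classical
  rcases E2.eq_empty_or_nonempty with h0 | hne
  · subst h0
    left
    simp
  · refine H.lemmaV_of_vert hW hD hc₀ hh T hT1 hT P B ht hSg hgen hpt fun hlt => ?_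
    obtain ⟨e₀, he₀⟩ := hne
    exact ⟨(H.vert (W := W) (fun _ => rfl) hc₀ hlt B hgen hpt he₀).1, fun e he =>
      (H.vert (W := W) (fun _ => rfl) hc₀ hlt B hgen hpt he).2⟩

include H in
/-- **Lemma V**, with the separation of the end points as a hypothesis -/
theorem lemmaV_sep (hW : 1 ≤ W) (hD : 1 ≤ D) (hc₀ : 1 ≤ c₀)
    (hh : ∀ j, H.h j ∈ Vw ℝ (wh (Crd n) (Pt n) W) (D * W))
    (T : Fin c₀ → ℕ) (hT1 : ∀ j, 1 ≤ T j) (hT : ∀ j, (H.f j).totalDegree ≤ T j)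
    (P : Finset (E n)) (B : E n ≃ₗᵢ[ℝ] E n) {Ns : ℕ}
    (hsep : H455.Sep (fun s : ZZ n => pt s) Ns (E2.image Prod.fst))
    (hSg : E2.image Prod.fst ⊆ Sg P B)
    (hgen : ∀ O : Matrix (Fin (n + 1)) (Fin (n + 1)) ℝ, O.transpose = -O →
      ∃ D : Derivation k ℝ ℝ, ∀ i j, D (mat B i j) = (mat B * O) i j)
    (hpt : ∀ e' ∈ E1, ∃ s : E n × E n, e'.1 = zt B s ∧ KK (constF k ℝ) s) :
    (E2.image Prod.fst).card ≤
      CV n * D ^ (2 * n + 2) * (∏ j, T j) * (Ns + 1) ^ (n + 1 - c₀) ∨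
    (c₀ = 1 ∧ (E2.image Prod.fst).card ≤ CV n * D ^ (2 * n + 2) * (∏ j, T j) * P.card) := by
  classical
  rcases E2.eq_empty_or_nonempty with h0 | hne
  · subst h0
    left
    simp
  have hc₁ := H.c₁_le_ind hne
  rcases Nat.lt_or_ge c₁ (2 * n + 2) with hlt | hge
  · right
    obtain ⟨e₀, he₀⟩ := hne
    have hv := fun e he => H.vert (W := W) (fun _ => rfl) hc₀ hlt B hgen hpt (e := e) he
    refine ⟨(hv e₀ he₀).1, ?_⟩
    refine (H.card_fst_le_small hW hD hc₁ hh T hT1 hT (g := P.card) ?_).trans ?_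
    · intro e he S hS hSP
      refine card_null_le P B (S.image Prod.fst) ?_ ?_
      · exact (Finset.image_subset_image hS).trans hSg
      · intro z hz z' hz'
        obtain ⟨a, ha, rfl⟩ := Finset.mem_image.1 hz
        obtain ⟨a', ha', rfl⟩ := Finset.mem_image.1 hz'
        exact (hv a' (hS ha')).2 a (hS ha) (by rw [hSP a ha, hSP a' ha'])
    · have h1 : D ^ c₁ ≤ D ^ (2 * n + 2) := Nat.pow_le_pow_right hD hc₁
      have h2 : Cq (2 * n + 1) (2 * n + 2) ≤ CV n := le_max_right _ _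
      gcongr
  · left
    have hc : c₁ = 2 * n + 2 := le_antisymm hc₁ hge
    refine (H.card_fst_le hW hD hc hh T hT1 hT hsep (fun e he => ?_)).trans ?_
    · obtain ⟨A, hA⟩ := H.low (k := k) he hW (fun _ => rfl) (fun _ => rfl) hc₀ hc B hgen hpt
      exact ⟨W * A, fun m M => (hA M m).trans (le_of_eq (by rw [add_assoc]))⟩
    have h2 : Cv (2 * n + 1) (2 * n + 2) ≤ CV n := le_max_left _ _
    gcongr

end Vale.Agent.P054.T3.H955.HData

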