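import Mathlib

/-!
# P054 / T3: sampling the second vertex class of a bipartite edge set
-/

set_option autoImplicit false

namespace Vale.Agent.P054.T3.H955

open Finset

/-- the `m` elements with the largest values of `f` carry at least the proportion `m / |S|` -/
theorem exists_top {α : Type*} [DecidableEq α] (f : α → ℕ) :
    ∀ (m : ℕ) (S : Finset α), m ≤ S.card →
      ∃ R ⊆ S, R.card = m ∧ m * ∑ x ∈ S, f x ≤ S.card * ∑ x ∈ R, f x := by
  suffices h : ∀ (j : ℕ) (S : Finset α) (m : ℕ), S.card = m + j →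
      ∃ R ⊆ S, R.card = m ∧ m * ∑ x ∈ S, f x ≤ S.card * ∑ x ∈ R, f x by
    intro m S hm
    exact h (S.card - m) S m (by omega)
  intro j
  induction j with
  | zero =>
    intro S m hS
    exact ⟨S, Finset.Subset.refl _, by omega, by rw [hS]; simp⟩
  | succ j ih =>
    intro S m hS
    have hne : S.Nonempty := Finset.card_pos.1 (by omega)
    -- remove an element with the smallest value
    obtain ⟨x, hx, hmin⟩ := S.exists_min_image f hne
    have hcard : (S.erase x).card = m + j := by
      rw [Finset.card_erase_of_mem hx]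
      omega
    obtain ⟨R, hR, hRc, hRs⟩ := ih (S.erase x) m hcard
    refine ⟨R, hR.trans (Finset.erase_subset _ _), hRc, ?_⟩
    have h1 : f x + ∑ y ∈ S.erase x, f y = ∑ y ∈ S, f y := Finset.add_sum_erase _ _ hx
    have h2 : (S.erase x).card * f x ≤ ∑ y ∈ S.erase x, f y := by
      rw [← smul_eq_mul]
      exact Finset.card_nsmul_le_sum _ _ _ fun y hy => hmin y (Finset.mem_of_mem_erase hy)
    have h3 : m * f x ≤ ∑ y ∈ R, f y := by
      rw [← hRc, ← smul_eq_mul]
      exact Finset.card_nsmul_le_sum _ _ _ fun y hy =>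
        hmin y (Finset.mem_of_mem_erase (hR hy))
    rw [hcard] at hRs
    rw [← h1, hS]
    calc m * (f x + ∑ y ∈ S.erase x, f y) = m * f x + m * ∑ y ∈ S.erase x, f y := by ring
      _ ≤ ∑ y ∈ R, f y + (m + j) * ∑ y ∈ R, f y := Nat.add_le_add h3 hRs
      _ = (m + (j + 1)) * ∑ x ∈ R, f x := by ring

/-- **sampling**: a bipartite edge set restricted to `m` of its second end points -/
theorem exists_sample {α : Type*} [DecidableEq α] (E : Finset (α × α)) (S : Finset α)
    (hE : ∀ e ∈ E, e.2 ∈ S) {m : ℕ} (hm : m ≤ S.card) :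
    ∃ R ⊆ S, R.card = m ∧ m * E.card ≤ S.card * (E.filter fun e : α × α => e.2 ∈ R).card := by
  obtain ⟨R, hR, hRc, h⟩ := exists_top (fun x : α => (E.filter fun e : α × α => e.2 = x).card) m S hm
  refine ⟨R, hR, hRc, ?_⟩
  have h1 : E.card = ∑ x ∈ S, (E.filter fun e : α × α => e.2 = x).card :=
    Finset.card_eq_sum_card_fiberwise fun e he => hE e he
  have h2 : (E.filter fun e : α × α => e.2 ∈ R).card = ∑ x ∈ R, (E.filter fun e : α × α => e.2 = x).card := by
    rw [Finset.card_eq_sum_card_fiberwise (s := E.filter fun e : α × α => e.2 ∈ R)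
      (f := Prod.snd) (t := R) fun e he => by
        have := (Finset.mem_filter.1 (Finset.mem_coe.1 he)).2
        exact this]
    refine Finset.sum_congr rfl fun x hx => ?_
    congr 1
    ext e
    simp only [Finset.mem_filter]
    constructor
    · rintro ⟨⟨h1, -⟩, h2⟩; exact ⟨h1, h2⟩
    · rintro ⟨h1, h2⟩; exact ⟨⟨h1, by rw [h2]; exact hx⟩, h2⟩
  rw [h1, h2]
  exact h

/-- **symmetrisation by sampling**: from a bipartite edge set `E ⊆ T × S` with `|T| ≤ m` one gets
a vertex set `V = T ∪ R` of at most `2 m` elements and a subset of `E` with both end points in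
`V`, of the same density relative to `m` -/
theorem exists_symm {α : Type*} [DecidableEq α] (E : Finset (α × α)) (T S : Finset α)
    (hT : ∀ e ∈ E, e.1 ∈ T) (hE : ∀ e ∈ E, e.2 ∈ S) {m : ℕ} (hTm : T.card ≤ m)
    (hm : m ≤ S.card) :
    ∃ V ⊆ T ∪ S, V.card ≤ 2 * m ∧ ∃ E' ⊆ E, (∀ e ∈ E', e.1 ∈ V ∧ e.2 ∈ V) ∧
      m * E.card ≤ S.card * E'.card := by
  obtain ⟨R, hR, hRc, h⟩ := exists_sample E S hE hm
  refine ⟨T ∪ R, Finset.union_subset_union_right hR, ?_, E.filter fun e => e.2 ∈ R,
    Finset.filter_subset _ _, ?_, h⟩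
  · have := Finset.card_union_le T R
    omega
  · intro e he
    rw [Finset.mem_filter] at he
    exact ⟨Finset.mem_union_left _ (hT e he.1), Finset.mem_union_right _ he.2⟩

end Vale.Agent.P054.T3.H955
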