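import Vale.Agent.P054.T2.H686.EW2
import Vale.Agent.P054.T2.H930.Tan1

/-!
# P054 / T3, Lemma V, vertical case (1): the tangent space at the generic point

`p` a prime of `ℝ[X_τ]`, `LF p` the fraction field of the quotient, `TL p` the tangent space at the
generic point, `IsTan p a` : the derivation `∑ a_y ∂_y` preserves `p`.
-/

set_option autoImplicit false
set_option linter.unusedSectionVars false

open MvPolynomial Module

namespace Vale.Agent.P054.T3.H955

open Vale.Agent.P054.T2.H686 (perp mem_perp finrank_perp)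
open Vale.Agent.P054.T2.H930 (exists_sel)

section transfer

variable {L K : Type*} [Field L] [Field K] {τ : Type*} [Finite τ]

/-- linear independence is preserved by field extensions -/
theorem li_map (f : L →+* K) {ι : Type*} {v : ι → τ → L} (hv : LinearIndependent L v) :
    LinearIndependent K (fun i y => f (v i y)) := by
  let _ := f.toAlgebra
  exact linearIndependent_algebraMap_comp_iff.2 hv

theorem finrank_span_map_ge (f : L →+* K) (S : Set (τ → L)) :
    finrank L (Submodule.span L S) ≤
      finrank K (Submodule.span K ((fun v : τ → L => fun y => f (v y)) '' S)) := by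
  classical
  have h0 : Submodule.span L (Set.range (Subtype.val : S → τ → L)) = Submodule.span L S := by
    rw [Subtype.range_coe]
  let ρ := finrank L (Submodule.span L S)
  obtain ⟨g, hg⟩ : ∃ g : Fin ρ → S, LinearIndependent L (fun i => (g i : τ → L)) := by
    have hfin : Module.Finite L (Submodule.span L (Set.range (Subtype.val : S → τ → L))) :=
      inferInstance
    obtain ⟨κ, a, ha, hspan, hli⟩ := exists_linearIndependent' L (Subtype.val : S → τ → L)
    have hκ : Finite κ := hli.finite
    have hft := Fintype.ofFinite κ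
    have hcard : Fintype.card κ = ρ := by
      have h1 := finrank_span_eq_card hli
      rw [hspan, h0] at h1
      exact h1.symm
    let e : Fin ρ ≃ κ := (Fintype.equivFinOfCardEq hcard).symm
    exact ⟨fun i => a (e i), hli.comp e e.injective⟩
  have h1 := li_map f hg
  have h2 : ∀ i, (fun y => f ((g i : τ → L) y)) ∈
      Submodule.span K ((fun v : τ → L => fun y => f (v y)) '' S) :=
    fun i => Submodule.subset_span ⟨g i, (g i).2, rfl⟩
  have h3 : LinearIndependent K (fun i => (⟨_, h2 i⟩ :
      Submodule.span K ((fun v : τ → L => fun y => f (v y)) '' S))) := by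
    refine LinearIndependent.of_comp (Submodule.subtype _) ?_
    exact h1
  have h4 := h3.fintype_card_le_finrank
  rwa [Fintype.card_fin] at h4

end transfer

section tangent

variable {τ : Type*} [Fintype τ] (p : Ideal (MvPolynomial τ ℝ)) [hp : p.IsPrime]

/-- the function field -/
abbrev LF := FractionRing (MvPolynomial τ ℝ ⧸ p)

/-- the map to the function field -/
noncomputable def toL : MvPolynomial τ ℝ →+* LF p :=
  (algebraMap (MvPolynomial τ ℝ ⧸ p) (LF p)).comp (Ideal.Quotient.mk p)

theorem toL_eq_zero_iff {F : MvPolynomial τ ℝ} : toL p F = 0 ↔ F ∈ p := by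
  unfold toL
  rw [RingHom.comp_apply, IsFractionRing.to_map_eq_zero_iff, Ideal.Quotient.eq_zero_iff_mem]

/-- the derivation `∑ a_y ∂_y` preserves `p` -/
def IsTan (a : τ → MvPolynomial τ ℝ) : Prop := ∀ F ∈ p, ∑ y, a y * pderiv y F ∈ p

/-- the tangent space at the generic point -/
noncomputable def TL : Submodule (LF p) (τ → LF p) where
  carrier := {w | ∀ F ∈ p, ∑ y, w y * toL p (pderiv y F) = 0}
  add_mem' := by
    intro a b ha hb F hF
    simp only [Pi.add_apply, add_mul, Finset.sum_add_distrib, ha F hF, hb F hF, add_zero]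
  zero_mem' := by intro F _; simp
  smul_mem' := by
    intro c a ha F hF
    simp only [Pi.smul_apply, smul_eq_mul, mul_assoc, ← Finset.mul_sum, ha F hF, mul_zero]

theorem mem_TL {w : τ → LF p} : w ∈ TL p ↔ ∀ F ∈ p, ∑ y, w y * toL p (pderiv y F) = 0 := Iff.rfl

theorem toL_mem_TL {a : τ → MvPolynomial τ ℝ} : (fun y => toL p (a y)) ∈ TL p ↔ IsTan p a := by
  rw [mem_TL]
  refine forall₂_congr fun F _ => ?_
  rw [← toL_eq_zero_iff p, map_sum]
  simp only [map_mul]

/-- clearing denominators -/
theorem exists_clear (w : τ → LF p) : ∃ d : MvPolynomial τ ℝ, d ∉ p ∧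
    ∃ a : τ → MvPolynomial τ ℝ, (∀ y, toL p (a y) = toL p d * w y) ∧ ∀ y, w y = 0 → a y = 0 := by
  classical
  obtain ⟨b, hb⟩ := IsLocalization.exist_integer_multiples_of_finite
    (nonZeroDivisors (MvPolynomial τ ℝ ⧸ p)) w
  obtain ⟨d, hd⟩ := Ideal.Quotient.mk_surjective (I := p) (b : MvPolynomial τ ℝ ⧸ p)
  have hd0 : d ∉ p := by
    intro h
    have h1 : (b : MvPolynomial τ ℝ ⧸ p) = 0 := by
      rw [← hd]
      exact Ideal.Quotient.eq_zero_iff_mem.2 h
    exact nonZeroDivisors.ne_zero b.2 h1
  choose r hr using hb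
  have hlift : ∀ y, ∃ a : MvPolynomial τ ℝ, Ideal.Quotient.mk p a = r y := fun y =>
    Ideal.Quotient.mk_surjective (r y)
  choose a ha using hlift
  refine ⟨d, hd0, fun y => if w y = 0 then 0 else a y, ?_, ?_⟩
  · intro y
    by_cases h : w y = 0
    · simp [h]
    · simp only [if_neg h]
      show algebraMap _ (LF p) (Ideal.Quotient.mk p (a y)) =
        algebraMap _ (LF p) (Ideal.Quotient.mk p d) * w y
      rw [ha, hr, hd]
      exact Algebra.smul_def _ _
  · intro y hy
    simp only [if_pos hy]

/-- a tangent vector has a polynomial multiple -/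
theorem exists_clear_tan {w : τ → LF p} (hw : w ∈ TL p) : ∃ d : MvPolynomial τ ℝ, d ∉ p ∧
    ∃ a : τ → MvPolynomial τ ℝ, IsTan p a ∧ (∀ y, toL p (a y) = toL p d * w y) ∧
      ∀ y, w y = 0 → a y = 0 := by
  obtain ⟨d, hd, a, ha, ha0⟩ := exists_clear p w
  refine ⟨d, hd, a, ?_, ha, ha0⟩
  rw [← toL_mem_TL]
  have : (fun y => toL p (a y)) = toL p d • w := by
    funext y
    rw [ha, Pi.smul_apply, smul_eq_mul]
  rw [this]
  exact Submodule.smul_mem _ _ hw

/-- the span of the gradients at the generic point -/
noncomputable def GrL : Submodule (LF p) (τ → LF p) :=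
  Submodule.span (LF p) {v | ∃ F ∈ p, v = fun y => toL p (pderiv y F)}

theorem perp_GrL : perp (GrL p) = TL p := by
  ext w
  rw [mem_perp, mem_TL]
  constructor
  · intro h F hF
    exact h _ (Submodule.subset_span ⟨F, hF, rfl⟩)
  · intro h η hη
    refine Submodule.span_induction (p := fun η _ => ∑ i, w i * η i = 0) ?_ ?_ ?_ ?_ hη
    · rintro _ ⟨F, hF, rfl⟩
      exact h F hF
    · simp
    · intro x y _ _ hx hy
      simp only [Pi.add_apply, mul_add, Finset.sum_add_distrib, hx, hy, add_zero]
    · intro c x _ hx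
      simp only [Pi.smul_apply, smul_eq_mul, mul_left_comm _ c, ← Finset.mul_sum, hx, mul_zero]

theorem finrank_GrL_add : finrank (LF p) (GrL p) + finrank (LF p) (TL p) = Fintype.card τ := by
  rw [← perp_GrL]
  exact finrank_perp _

variable {K : Type*} [Field K] (κ : MvPolynomial τ ℝ →+* K) (hκ : ∀ F, κ F = 0 ↔ F ∈ p)

/-- the extension of `κ` to the function field -/
noncomputable def lam : LF p →+* K :=
  IsFractionRing.lift (A := MvPolynomial τ ℝ ⧸ p)
    (g := Ideal.Quotient.lift p κ (fun F hF => (hκ F).2 hF)) (by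
      rw [injective_iff_map_eq_zero]
      intro x hx
      obtain ⟨F, rfl⟩ := Ideal.Quotient.mk_surjective x
      rw [Ideal.Quotient.lift_mk] at hx
      exact Ideal.Quotient.eq_zero_iff_mem.2 ((hκ F).1 hx))

theorem lam_toL (F : MvPolynomial τ ℝ) : lam p κ hκ (toL p F) = κ F := by
  unfold lam toL
  rw [RingHom.comp_apply, IsFractionRing.lift_algebraMap, Ideal.Quotient.lift_mk]

/-- the span of the gradients over the larger field -/
noncomputable def GrK : Submodule K (τ → K) :=
  Submodule.span K {v | ∃ F ∈ p, v = fun y => κ (pderiv y F)}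

theorem mem_perp_GrK {w : τ → K} : w ∈ perp (GrK p κ) ↔ ∀ F ∈ p, ∑ y, w y * κ (pderiv y F) = 0 := by
  rw [mem_perp]
  constructor
  · intro h F hF
    exact h _ (Submodule.subset_span ⟨F, hF, rfl⟩)
  · intro h η hη
    refine Submodule.span_induction (p := fun η _ => ∑ i, w i * η i = 0) ?_ ?_ ?_ ?_ hη
    · rintro _ ⟨F, hF, rfl⟩
      exact h F hF
    · simp
    · intro x y _ _ hx hy
      simp only [Pi.add_apply, mul_add, Finset.sum_add_distrib, hx, hy, add_zero]
    · intro c x _ hx
      simp only [Pi.smul_apply, smul_eq_mul, mul_left_comm _ c, ← Finset.mul_sum, hx, mul_zero]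

include hκ in
theorem finrank_GrL_le : finrank (LF p) (GrL p) ≤ finrank K (GrK p κ) := by
  have h1 := finrank_span_map_ge (lam p κ hκ) {v | ∃ F ∈ p, v = fun y => toL p (pderiv y F)}
  have h2 : (fun v : τ → LF p => fun y => lam p κ hκ (v y)) ''
      {v | ∃ F ∈ p, v = fun y => toL p (pderiv y F)} =
      {v | ∃ F ∈ p, v = fun y => κ (pderiv y F)} := by
    ext v
    constructor
    · rintro ⟨_, ⟨F, hF, rfl⟩, rfl⟩
      exact ⟨F, hF, by funext y; exact lam_toL p κ hκ _⟩
    · rintro ⟨F, hF, rfl⟩
      exact ⟨_, ⟨F, hF, rfl⟩, by funext y; exact lam_toL p κ hκ _⟩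
  rw [h2] at h1
  exact h1

include hκ in
/-- **lower bound for the dimension of the tangent space** from vectors over a larger field -/
theorem le_finrank_TL (S : Submodule K (τ → K))
    (hS : ∀ w ∈ S, ∀ F ∈ p, ∑ y, w y * κ (pderiv y F) = 0) :
    finrank K S ≤ finrank (LF p) (TL p) := by
  have h1 : S ≤ perp (GrK p κ) := fun w hw => (mem_perp_GrK p κ).2 (hS w hw)
  have h2 := Submodule.finrank_mono h1
  have h3 := finrank_perp (GrK p κ)
  have h4 := finrank_GrL_add p
  have h5 := finrank_GrL_le p κ hκ
  omega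

/-- **descent**: the vectors over the larger field are spanned by tangent vectors -/
theorem mem_span_TL {w : τ → K} (hw : ∀ F ∈ p, ∑ y, w y * κ (pderiv y F) = 0) :
    w ∈ Submodule.span K ((fun v : τ → LF p => fun y => lam p κ hκ (v y)) ''
      (TL p : Set (τ → LF p))) := by
  set U := Submodule.span K ((fun v : τ → LF p => fun y => lam p κ hκ (v y)) ''
      (TL p : Set (τ → LF p))) with hU
  have h1 : U ≤ perp (GrK p κ) := by
    rw [hU, Submodule.span_le]
    rintro _ ⟨v, hv, rfl⟩
    rw [SetLike.mem_coe, mem_perp_GrK]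
    intro F hF
    have h2 := congrArg (lam p κ hκ) (hv F hF)
    rw [map_sum, map_zero] at h2
    rw [← h2]
    refine Finset.sum_congr rfl fun y _ => ?_
    rw [map_mul, lam_toL]
  have h2 : finrank (LF p) (TL p) ≤ finrank K U := by
    have h3 := finrank_span_map_ge (lam p κ hκ) (TL p : Set (τ → LF p))
    rwa [Submodule.span_eq] at h3
  have h3 : U = perp (GrK p κ) := by
    refine Submodule.eq_of_le_of_finrank_le h1 ?_
    have h4 := finrank_perp (GrK p κ)
    have h5 := finrank_GrL_add p
    have h6 := finrank_GrL_le p κ hκ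
    omega
  rw [h3, mem_perp_GrK]
  exact hw

end tangent

end Vale.Agent.P054.T3.H955
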