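import Vale.Agent.P054.T3.H955.Vert1
import Vale.Agent.P054.T3.H955.Integ
import Vale.Agent.P054.T2.H455.SAD2

/-!
# P054 / T3, Lemma V, vertical case (2): the isotropy of the tangent space

`p` a prime stable under the moving frame; if the tangent space at the generic point contains a
vector of the isotropic flat at `u = 0` and its projection has dimension at most `n`, then it is
totally isotropic.
-/

set_option autoImplicit false
set_option linter.unusedSectionVars false

open MvPolynomial Module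

namespace Vale.Agent.P054.T3.H955

open Vale.Agent.P054.T2 Vale.Agent.P054.T2.H686 Vale.Agent.P054.T2.SecC
open Vale.Agent.P054.T2.H441 (cD cD_X cD_C coeff_cD yP chg chg_X dM dM_C dM_X der_eq_mul)
open Vale.Agent.P054.T2.H455 (GZ rZ dM_chg)

variable {n : ℕ} {k : Type*} [CommRing k] [Algebra k ℝ]

/-- ring of polynomials in `(ζ,θ)` -/
abbrev RZ (n : ℕ) := MvPolynomial (ZI n) ℝ

/-- the derivation `∑ a_y ∂_y` -/
noncomputable def th (a : ZI n → RZ n) : Derivation ℝ (RZ n) (RZ n) := mkDerivation ℝ a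

theorem th_X (a : ZI n → RZ n) (y : ZI n) : th a (X y) = a y := by
  unfold th
  rw [mkDerivation_X]

theorem th_C (a : ZI n → RZ n) (c : ℝ) : th a (C c) = 0 := by
  unfold th
  rw [derivation_C]

theorem th_eq_sum (a : ZI n → RZ n) (F : RZ n) : th a F = ∑ y, a y * pderiv y F := by
  unfold th
  rw [H441.mkDerivation_eq_sum]
  exact Finset.sum_congr rfl fun y _ => mul_comm _ _

theorem isTan_iff {p : Ideal (RZ n)} {a : ZI n → RZ n} :
    IsTan p a ↔ ∀ F ∈ p, th a F ∈ p := by
  unfold IsTan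
  refine forall₂_congr fun F _ => ?_
  rw [th_eq_sum]

/-- commutator of a twisted derivation with `∑ a_y ∂_y` -/
theorem comm_apply (Δ : Derivation k (RZ n) (RZ n)) (hC : ∀ c : ℝ, ∃ c' : ℝ, Δ (C c) = C c')
    (a : ZI n → RZ n) (F : RZ n) :
    Δ (th a F) - th a (Δ F) = th (fun y => Δ (a y) - th a (Δ (X y))) F := by
  induction F using MvPolynomial.induction_on with
  | C c =>
    obtain ⟨c', hc'⟩ := hC c
    rw [th_C, th_C, hc', th_C, map_zero, sub_zero]
  | add F G hF hG =>
    rw [map_add (th a), map_add Δ, map_add Δ, map_add (th a), map_add (th _), ← hF, ← hG]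
    ring
  | mul_X F i hF =>
    have h1 : th a (F * X i) = F * a i + X i * th a F := by
      rw [Derivation.leibniz, th_X, smul_eq_mul, smul_eq_mul]
    have h2 : Δ (F * X i) = F * Δ (X i) + X i * Δ F := by
      rw [Derivation.leibniz, smul_eq_mul, smul_eq_mul]
    rw [h1, h2, map_add Δ, map_add (th a), Derivation.leibniz Δ, Derivation.leibniz Δ,
      Derivation.leibniz (th a), Derivation.leibniz (th a), th_X, Derivation.leibniz (th _),
      th_X, ← hF]
    simp only [smul_eq_mul]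
    ring

/-- the bilinear form of `Q` on polynomial vectors -/
noncomputable def Bf {R : Type*} [CommRing R] (a b : ZI n → R) : R :=
  ∑ i, (a (Sum.inl i) * b (Sum.inr i) + a (Sum.inr i) * b (Sum.inl i))

theorem Bf_comm {R : Type*} [CommRing R] (a b : ZI n → R) : Bf a b = Bf b a := by
  unfold Bf
  exact Finset.sum_congr rfl fun i _ => by ring

theorem Bf_add_left {R : Type*} [CommRing R] (a a' b : ZI n → R) :
    Bf (fun y => a y + a' y) b = Bf a b + Bf a' b := by
  unfold Bf
  rw [← Finset.sum_add_distrib]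
  exact Finset.sum_congr rfl fun i _ => by ring

/-- `½ O (θ - ζ)` of a vector -/
noncomputable def rA (O : Matrix (Fin (n + 1)) (Fin (n + 1)) ℝ) (a : ZI n → RZ n)
    (i : Fin (n + 1)) : RZ n :=
  ∑ l, C (O i l) * ((a (Sum.inr l) - a (Sum.inl l)) * C (1 / 2))

/-- minus the velocity matrix applied to a vector -/
noncomputable def vel (O : Matrix (Fin (n + 1)) (Fin (n + 1)) ℝ) (a : ZI n → RZ n) : ZI n → RZ n
  | Sum.inl i => rA O a i
  | Sum.inr i => - rA O a i

theorem th_rZ (O : Matrix (Fin (n + 1)) (Fin (n + 1)) ℝ) (a : ZI n → RZ n) (i : Fin (n + 1)) :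
    th a (rZ O i) = rA O a i := by
  unfold rZ rA
  rw [map_sum]
  refine Finset.sum_congr rfl fun l _ => ?_
  rw [Derivation.leibniz, Derivation.leibniz, th_C, th_C, map_sub, th_X, th_X]
  simp only [smul_eq_mul, mul_zero, add_zero, zero_add]
  ring

theorem th_GZ (O : Matrix (Fin (n + 1)) (Fin (n + 1)) ℝ) (a : ZI n → RZ n) (y : ZI n) :
    th a (GZ O y) = - vel O a y := by
  rcases y with i | i
  · show th a (- rZ O i) = _
    rw [map_neg, th_rZ]
    rfl
  · show th a (rZ O i) = _
    rw [th_rZ]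
    show _ = - - rA O a i
    rw [neg_neg]

theorem Bf_vel {O : Matrix (Fin (n + 1)) (Fin (n + 1)) ℝ} (hO : O.transpose = -O)
    (a b : ZI n → RZ n) : Bf (vel O a) b + Bf a (vel O b) = 0 := by
  have h1 : ∀ i l, O i l = - O l i := by
    intro i l
    have := congrFun (congrFun hO l) i
    simpa [Matrix.transpose_apply] using this
  have h2 : Bf (vel O a) b + Bf a (vel O b) =
      ∑ i, ∑ l, ((C (O i l) * ((a (Sum.inr l) - a (Sum.inl l)) * C (1 / 2))) *
        (b (Sum.inr i) - b (Sum.inl i)) +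
        (C (O l i) * ((b (Sum.inr i) - b (Sum.inl i)) * C (1 / 2))) *
        (a (Sum.inr l) - a (Sum.inl l))) := by
    have h3 : ∑ i, ∑ l, ((C (O l i) * ((b (Sum.inr i) - b (Sum.inl i)) * C (1 / 2))) *
        (a (Sum.inr l) - a (Sum.inl l))) = ∑ i, ∑ l, ((C (O i l) *
          ((b (Sum.inr l) - b (Sum.inl l)) * C (1 / 2))) * (a (Sum.inr i) - a (Sum.inl i))) :=
      Finset.sum_comm
    simp only [Finset.sum_add_distrib]
    rw [h3]
    unfold Bf
    rw [← Finset.sum_add_distrib, ← Finset.sum_add_distrib]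
    refine Finset.sum_congr rfl fun i _ => ?_
    rw [← Finset.sum_mul, ← Finset.sum_mul]
    show (rA O a i * b (Sum.inr i) + - rA O a i * b (Sum.inl i)) +
      (a (Sum.inl i) * - rA O b i + a (Sum.inr i) * rA O b i) = _
    unfold rA
    ring
  rw [h2]
  refine Finset.sum_eq_zero fun i _ => Finset.sum_eq_zero fun l _ => ?_
  rw [h1 i l, C_neg]
  ring

section ideal

variable (p : Ideal (RZ n))

/-- vectors of the radical -/
def IsRad (a : ZI n → RZ n) : Prop := IsTan p a ∧ ∀ b, IsTan p b → Bf a b ∈ p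

variable {p} {O : Matrix (Fin (n + 1)) (Fin (n + 1)) ℝ} (Δ : Derivation k (RZ n) (RZ n))
  (hC : ∀ c : ℝ, ∃ c' : ℝ, Δ (C c) = C c') (hX : ∀ y, Δ (X y) = GZ O y) (hp : ∀ F ∈ p, Δ F ∈ p)

include hC hX hp in
/-- the adjoint action preserves the tangent vectors -/
theorem ad_tan {a : ZI n → RZ n} (ha : IsTan p a) :
    IsTan p (fun y => Δ (a y) + vel O a y) := by
  rw [isTan_iff] at ha ⊢
  intro F hF
  have h1 := comm_apply Δ hC a F
  have h2 : (fun y => Δ (a y) - th a (Δ (X y))) = fun y => Δ (a y) + vel O a y := by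
    funext y
    rw [hX, th_GZ, sub_neg_eq_add]
  rw [h2] at h1
  rw [← h1]
  exact Ideal.sub_mem _ (hp _ (ha F hF)) (ha _ (hp F hF))

theorem Bf_der (a b : ZI n → RZ n) :
    Δ (Bf a b) = Bf (fun y => Δ (a y)) b + Bf a (fun y => Δ (b y)) := by
  unfold Bf
  rw [map_sum, ← Finset.sum_add_distrib]
  refine Finset.sum_congr rfl fun i _ => ?_
  rw [map_add, Derivation.leibniz, Derivation.leibniz]
  simp only [smul_eq_mul]
  ring

include hC hX hp in
/-- the adjoint action preserves the radical -/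
theorem ad_rad (hO : O.transpose = -O) {a : ZI n → RZ n} (ha : IsRad p a) :
    IsRad p (fun y => Δ (a y) + vel O a y) := by
  refine ⟨ad_tan Δ hC hX hp ha.1, fun b hb => ?_⟩
  have h1 := hp _ (ha.2 b hb)
  have h2 := ha.2 _ (ad_tan Δ hC hX hp hb)
  have h3 : Bf (fun y => Δ (a y) + vel O a y) b =
      Δ (Bf a b) - Bf a (fun y => Δ (b y) + vel O b y) := by
    have h4 : Bf a (fun y => Δ (b y) + vel O b y) =
        Bf a (fun y => Δ (b y)) + Bf a (vel O b) := by
      rw [Bf_comm, Bf_add_left, Bf_comm _ a, Bf_comm _ a]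
    rw [Bf_add_left, Bf_der, h4]
    have h5 := Bf_vel hO a b
    linear_combination h5
  rw [h3]
  exact Ideal.sub_mem _ h1 h2

end ideal

/-- the twisted derivation of a skew matrix -/
theorem exists_Delta {B : Matrix (Fin (n + 1)) (Fin (n + 1)) ℝ} (hB : B * B.transpose = 1)
    (hgen : ∀ O : Matrix (Fin (n + 1)) (Fin (n + 1)) ℝ, O.transpose = -O →
      ∃ D : Derivation k ℝ ℝ, ∀ i j, D (B i j) = (B * O) i j)
    {p : Ideal (RZ n)}
    (hstab : ∀ (D : Derivation k ℝ ℝ) (h : RZ n), chg B h ∈ p → chg B (cD D h) ∈ p)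
    (O : Matrix (Fin (n + 1)) (Fin (n + 1)) ℝ) (hO : O.transpose = -O) :
    ∃ Δ : Derivation k (RZ n) (RZ n), (∀ c : ℝ, ∃ c' : ℝ, Δ (C c) = C c') ∧
      (∀ y, Δ (X y) = GZ O y) ∧ ∀ F ∈ p, Δ F ∈ p := by
  have hBT : B.transpose * B = 1 := mul_eq_one_comm.1 hB
  obtain ⟨D, hD⟩ := hgen (B.transpose * O * B) (by
    rw [Matrix.transpose_mul, Matrix.transpose_mul, Matrix.transpose_transpose, hO]
    simp only [Matrix.neg_mul, Matrix.mul_neg, Matrix.mul_assoc])
  have hDB : B.map D = O * B := by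
    ext i j
    rw [Matrix.map_apply, hD, ← Matrix.mul_assoc, ← Matrix.mul_assoc, hB, Matrix.one_mul]
  refine ⟨dM D 1 (GZ O), fun c => ⟨D c, by rw [dM_C, one_mul]⟩, fun y => dM_X _ _ _ _,
    fun F hF => ?_⟩
  have h1 : chg B (aeval (zP B) F) = F := by
    have h3 : (chg B).comp (aeval (zP B)) = AlgHom.id ℝ (RZ n) := by
      apply MvPolynomial.algHom_ext
      intro b
      rw [AlgHom.comp_apply, aeval_X, chg_zP hB]
      rfl
    exact DFunLike.congr_fun h3 F
  rw [← h1] at hF ⊢
  rw [dM_chg D B O hDB hO]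
  exact hstab D _ hF

end Vale.Agent.P054.T3.H955
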