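import Vale.Agent.P054.T3.H955.Vert2

/-!
# P054 / T3, Lemma V, vertical case (3): the isotropy theorem
-/

set_option autoImplicit false
set_option linter.unusedSectionVars false

open MvPolynomial Module

namespace Vale.Agent.P054.T3.H955

open Vale.Agent.P054.T2 Vale.Agent.P054.T2.H686 Vale.Agent.P054.T2.SecC
open Vale.Agent.P054.T2.H441 (cD cD_X cD_C coeff_cD yP chg chg_X dM dM_C dM_X der_eq_mul)
open Vale.Agent.P054.T2.H455 (GZ rZ dM_chg)

variable {n : ℕ} {k : Type*} [CommRing k] [Algebra k ℝ]

/-- the projection at `u = 0` -/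
def cmap (n : ℕ) (L : Type*) [Field L] : (ZI n → L) →ₗ[L] (Fin (n + 1) → L) :=
  LinearMap.funLeft L L cIdx

theorem cmap_apply {L : Type*} [Field L] (w : ZI n → L) (i : Fin (n + 1)) :
    cmap n L w i = w (cIdx i) := rfl

/-- the sign `-1` at `0`, `1` elsewhere -/
def sg (L : Type*) [Field L] (i : Fin (n + 1)) : L := if i = 0 then -1 else 1

theorem sg_mul_sg (L : Type*) [Field L] (i : Fin (n + 1)) : sg L i * sg L i = 1 := by
  unfold sg
  split_ifs <;> ring

/-- `Bf` is the scalar product with the exchanged vector -/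
theorem Bf_eq_sum_swap {R : Type*} [CommRing R] (a b : ZI n → R) :
    Bf a b = ∑ y, a y * b y.swap := by
  unfold Bf
  rw [Fintype.sum_sum_type, Finset.sum_add_distrib]
  rfl

section main

variable (p : Ideal (RZ n)) [hp : p.IsPrime]

/-- a vector in the flat at `u = 0`, the elementary rotations of it and their independence -/
theorem key (hΔ : ∀ O : Matrix (Fin (n + 1)) (Fin (n + 1)) ℝ, O.transpose = -O →
      ∃ Δ : Derivation k (RZ n) (RZ n), (∀ c : ℝ, ∃ c' : ℝ, Δ (C c) = C c') ∧
        (∀ y, Δ (X y) = GZ O y) ∧ ∀ F ∈ p, Δ F ∈ p)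
    {w : ZI n → LF p} (hw : w ∈ TL p) (hw0 : w ≠ 0) (hwc : cmap n (LF p) w = 0) :
    ∃ (a : ZI n → RZ n) (q : Fin (n + 1) → RZ n) (c : Fin (n + 1))
      (b : {i : Fin (n + 1) // i ≠ c} → ZI n → RZ n),
      IsTan p a ∧ (∀ i, a (cIdx i) = 0) ∧ (∀ i, q i = a (Sum.inr i) - a (Sum.inl i)) ∧ q c ∉ p ∧
      (∀ i, IsTan p (b i)) ∧ (IsRad p a → ∀ i, IsRad p (b i)) ∧
      (∀ i m, toL p (b i (cIdx m)) = sg (LF p) m * (toL p (C (1 / 2)) *
        ((if m = i.1 then toL p (q c) else 0) - (if m = c then toL p (q i.1) else 0)))) := by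
  classical
  obtain ⟨d, hd, a, ha, haw, ha0⟩ := exists_clear_tan p hw
  have hac : ∀ i, a (cIdx i) = 0 := fun i => ha0 _ (congrFun hwc i)
  let q : Fin (n + 1) → RZ n := fun i => a (Sum.inr i) - a (Sum.inl i)
  have hdL : toL p d ≠ 0 := fun h => hd ((toL_eq_zero_iff p).1 h)
  obtain ⟨c, hc⟩ : ∃ c, q c ∉ p := by
    by_contra hcon
    push Not at hcon
    apply hw0
    funext y
    have hay : a y ∈ p := by
      rcases y with i | i
      · refine Fin.cases ?_ (fun j => ?_) i
        · have h1 := hcon 0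
          have h2 : a (Sum.inr 0) = 0 := hac 0
          have h3 : q 0 = - a (Sum.inl 0) := by
            show a (Sum.inr 0) - a (Sum.inl 0) = _
            rw [h2, zero_sub]
          rw [h3] at h1
          exact (Ideal.neg_mem_iff p).1 h1
        · have h2 : a (Sum.inl j.succ) = 0 := hac j.succ
          rw [h2]
          exact Ideal.zero_mem _
      · refine Fin.cases ?_ (fun j => ?_) i
        · have h2 : a (Sum.inr 0) = 0 := hac 0
          rw [h2]
          exact Ideal.zero_mem _
        · have h1 := hcon j.succ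
          have h2 : a (Sum.inl j.succ) = 0 := hac j.succ
          have h3 : q j.succ = a (Sum.inr j.succ) := by
            show a (Sum.inr j.succ) - a (Sum.inl j.succ) = _
            rw [h2, sub_zero]
          rwa [h3] at h1
    have h1 := haw y
    rw [(toL_eq_zero_iff p).2 hay] at h1
    exact (mul_eq_zero.1 h1.symm).resolve_left hdL
  let O : {i : Fin (n + 1) // i ≠ c} → Matrix (Fin (n + 1)) (Fin (n + 1)) ℝ :=
    fun i => Matrix.single i.1 c 1 - Matrix.single c i.1 1
  have hO : ∀ i, (O i).transpose = - O i := by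
    intro i
    show (Matrix.single i.1 c (1 : ℝ) - Matrix.single c i.1 1).transpose = _
    rw [Matrix.transpose_sub, Matrix.transpose_single, Matrix.transpose_single]
    simp only [O, neg_sub]
  choose Δ hC hX hpΔ using fun i => hΔ (O i) (hO i)
  refine ⟨a, q, c, fun i y => Δ i (a y) + vel (O i) a y, ha, hac, fun _ => rfl, hc,
    fun i => ad_tan (Δ i) (hC i) (hX i) (hpΔ i) ha,
    fun hr i => ad_rad (Δ i) (hC i) (hX i) (hpΔ i) (hO i) hr, ?_⟩
  intro i m
  have hrA : ∀ m, toL p (rA (O i) a m) = toL p (C (1 / 2)) *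
      ((if m = i.1 then toL p (q c) else 0) - (if m = c then toL p (q i.1) else 0)) := by
    intro m
    have h1 : rA (O i) a m = (∑ l, C (O i m l) * q l) * C (1 / 2) := by
      unfold rA
      rw [Finset.sum_mul]
      exact Finset.sum_congr rfl fun l _ => by ring
    have h2 : (∑ l, C (O i m l) * q l) = (if m = i.1 then q c else 0) -
        (if m = c then q i.1 else 0) := by
      have h3 : ∀ l, C (O i m l) * q l = (if m = i.1 ∧ l = c then q l else 0) -
          (if m = c ∧ l = i.1 then q l else 0) := by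
        intro l
        simp only [O, Matrix.sub_apply, Matrix.single_apply, map_sub, sub_mul]
        congr 1
        · by_cases h : m = i.1 ∧ l = c
          · rw [if_pos h, if_pos ⟨h.1.symm, h.2.symm⟩, C_1, one_mul]
          · rw [if_neg h, if_neg (fun h' => h ⟨h'.1.symm, h'.2.symm⟩), C_0, zero_mul]
        · by_cases h : m = c ∧ l = i.1
          · rw [if_pos h, if_pos ⟨h.1.symm, h.2.symm⟩, C_1, one_mul]
          · rw [if_neg h, if_neg (fun h' => h ⟨h'.1.symm, h'.2.symm⟩), C_0, zero_mul]
      simp only [h3]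
      rw [Finset.sum_sub_distrib]
      congr 1
      · by_cases h : m = i.1
        · simp [h]
        · simp [h]
      · by_cases h : m = c
        · simp [h]
        · simp [h]
    rw [h1, map_mul, h2, map_sub, mul_comm]
    congr 2
    · split_ifs
      · rfl
      · exact map_zero _
    · split_ifs
      · rfl
      · exact map_zero _
  show toL p (Δ i (a (cIdx m)) + vel (O i) a (cIdx m)) = _
  rw [hac m, map_zero, zero_add]
  refine Fin.cases ?_ (fun j => ?_) m
  · have h1 : vel (O i) a (cIdx 0) = - rA (O i) a 0 := rfl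
    rw [h1, map_neg, hrA]
    simp [sg]
  · have h1 : vel (O i) a (cIdx j.succ) = rA (O i) a j.succ := rfl
    rw [h1, hrA]
    simp [sg, Fin.succ_ne_zero]

theorem toL_half_ne : toL p (C (1 / 2 : ℝ)) ≠ 0 := by
  intro h
  have h1 : toL p (C (1 / 2 : ℝ) * C 2) = 0 := by rw [map_mul, h, zero_mul]
  rw [← C_mul] at h1
  norm_num at h1

/-- independence of the projections of the elementary rotations -/
theorem key_li {q : Fin (n + 1) → RZ n} {c : Fin (n + 1)} (hc : q c ∉ p)
    {b : {i : Fin (n + 1) // i ≠ c} → ZI n → RZ n}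
    (hb : ∀ i m, toL p (b i (cIdx m)) = sg (LF p) m * (toL p (C (1 / 2)) *
        ((if m = i.1 then toL p (q c) else 0) - (if m = c then toL p (q i.1) else 0)))) :
    LinearIndependent (LF p) (fun i => cmap n (LF p) (fun y => toL p (b i y))) := by
  classical
  rw [Fintype.linearIndependent_iff]
  intro g hg m
  have h1 := congrFun hg m.1
  rw [Finset.sum_apply, Pi.zero_apply, Finset.sum_eq_single m] at h1
  · rw [Pi.smul_apply, cmap_apply, hb, if_pos rfl, if_neg m.2, sub_zero, smul_eq_mul] at h1
    have h2 : sg (LF p) m.1 ≠ 0 := by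
      unfold sg
      split_ifs
      · exact neg_ne_zero.2 one_ne_zero
      · exact one_ne_zero
    have h3 : toL p (q c) ≠ 0 := fun h => hc ((toL_eq_zero_iff p).1 h)
    exact (mul_eq_zero.1 h1).resolve_right
      (mul_ne_zero h2 (mul_ne_zero (toL_half_ne p) h3))
  · intro i _ him
    rw [Pi.smul_apply, cmap_apply, hb, if_neg (fun h => him (Subtype.ext h.symm)), if_neg m.2,
      sub_zero, mul_zero, mul_zero, smul_zero]
  · intro h; exact absurd (Finset.mem_univ _) h

/-- **the projection has dimension at least `n`** -/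
theorem le_finrank_map (hΔ : ∀ O : Matrix (Fin (n + 1)) (Fin (n + 1)) ℝ, O.transpose = -O →
      ∃ Δ : Derivation k (RZ n) (RZ n), (∀ c : ℝ, ∃ c' : ℝ, Δ (C c) = C c') ∧
        (∀ y, Δ (X y) = GZ O y) ∧ ∀ F ∈ p, Δ F ∈ p)
    {w : ZI n → LF p} (hw : w ∈ TL p) (hw0 : w ≠ 0) (hwc : cmap n (LF p) w = 0) :
    n ≤ finrank (LF p) ((TL p).map (cmap n (LF p))) := by
  classical
  obtain ⟨a, q, c, b, -, -, -, hc, hb, -, hbc⟩ := key p hΔ hw hw0 hwc
  have h1 := key_li p hc hbc
  have h2 : ∀ i, cmap n (LF p) (fun y => toL p (b i y)) ∈ (TL p).map (cmap n (LF p)) :=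
    fun i => ⟨_, (toL_mem_TL p).2 (hb i), rfl⟩
  have h3 : LinearIndependent (LF p) (fun i => (⟨_, h2 i⟩ : (TL p).map (cmap n (LF p)))) :=
    LinearIndependent.of_comp (Submodule.subtype _) h1
  have h4 := h3.fintype_card_le_finrank
  rw [Fintype.card_subtype_compl, Fintype.card_fin, Fintype.card_subtype_eq] at h4
  exact h4

/-- exchange of the two blocks -/
def swapL (n : ℕ) (L : Type*) [Field L] : (ZI n → L) →ₗ[L] (ZI n → L) :=
  LinearMap.funLeft L L Sum.swap

theorem swapL_injective (L : Type*) [Field L] : Function.Injective (swapL n L) :=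
  LinearMap.funLeft_injective_of_surjective L L _ (Equiv.sumComm _ _).surjective

/-- linear algebra: `n + 1` independent vectors of the radical -/
theorem iso_lin {L : Type*} [Field L] (T : Submodule L (ZI n → L)) {ι : Type*} [Fintype ι]
    (hι : Fintype.card ι = n + 1) (v : ι → ZI n → L) (hv : LinearIndependent L v)
    (hvT : ∀ i, v i ∈ T) (hB : ∀ i, ∀ t ∈ T, Bf t (v i) = 0) :
    ∀ t ∈ T, ∀ t' ∈ T, Bf t t' = 0 := by
  classical
  set N := Submodule.span L (Set.range v) with hN
  have hNle : N ≤ T := by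
    rw [hN, Submodule.span_le]
    rintro _ ⟨o, rfl⟩
    exact hvT o
  have hNfin : finrank L N = n + 1 := by
    rw [hN, finrank_span_eq_card hv, hι]
  have hNperp : ∀ x ∈ N, ∀ t ∈ T, Bf t x = 0 := by
    intro x hx t ht
    refine Submodule.span_induction (p := fun x _ => Bf t x = 0) ?_ ?_ ?_ ?_ hx
    · rintro _ ⟨o, rfl⟩
      exact hB o t ht
    · simp [Bf]
    · intro x y _ _ hx hy
      rw [Bf_comm] at hx hy ⊢
      have := Bf_add_left x y t
      rw [hx, hy, add_zero] at this
      exact this
    · intro s x _ hx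
      rw [Bf_eq_sum_swap] at hx ⊢
      simp only [Pi.smul_apply, smul_eq_mul, mul_left_comm _ s, ← Finset.mul_sum, hx, mul_zero]
  have hTle : T ≤ perp (N.map (swapL n L)) := by
    intro t ht
    rw [mem_perp]
    rintro _ ⟨x, hx, rfl⟩
    have h1 := hNperp x hx t ht
    rw [Bf_eq_sum_swap] at h1
    exact h1
  have hTfin : finrank L T ≤ n + 1 := by
    have h1 := Submodule.finrank_mono hTle
    have h2 := finrank_perp (N.map (swapL n L))
    have h3 : finrank L (N.map (swapL n L)) = finrank L N :=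
      (LinearEquiv.finrank_eq
        (Submodule.equivMapOfInjective _ (swapL_injective L) N)).symm
    have h4 : Fintype.card (ZI n) = 2 * (n + 1) := by
      simp only [Fintype.card_sum, Fintype.card_fin]
      omega
    omega
  have hNT : N = T := Submodule.eq_of_le_of_finrank_le hNle (by omega)
  intro t ht t' ht'
  rw [← hNT] at ht'
  exact hNperp t' ht' t ht

/-- linear algebra: the equation of the projection -/
theorem form_lin {L : Type*} [Field L] {q : Fin (n + 1) → L} {c : Fin (n + 1)} (h : L)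
    (b : {i : Fin (n + 1) // i ≠ c} → Fin (n + 1) → L)
    (hb : ∀ i m, b i m = sg L m * (h * ((if m = i.1 then q c else 0) -
      (if m = c then q i.1 else 0)))) (hli : LinearIndependent L b)
    (M : Submodule L (Fin (n + 1) → L)) (hbM : ∀ i, b i ∈ M) (hM : finrank L M ≤ n) :
    ∀ x ∈ M, ∑ m, x m * (sg L m * q m) = 0 := by
  classical
  have hspan : Submodule.span L (Set.range b) = M := by
    refine Submodule.eq_of_le_of_finrank_le ?_ ?_
    · rw [Submodule.span_le]
      rintro _ ⟨i, rfl⟩
      exact hbM i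
    · rw [finrank_span_eq_card hli, Fintype.card_subtype_compl, Fintype.card_fin,
        Fintype.card_subtype_eq]
      exact hM
  intro x hx
  rw [← hspan] at hx
  refine Submodule.span_induction (p := fun x _ => ∑ m, x m * (sg L m * q m) = 0)
    ?_ ?_ ?_ ?_ hx
  · rintro _ ⟨i, rfl⟩
    have h1 : ∀ m, b i m * (sg L m * q m) =
        h * ((if m = i.1 then q c * q m else 0) - (if m = c then q i.1 * q m else 0)) := by
      intro m
      rw [hb]
      have h2 := sg_mul_sg L m
      have h3 : (if m = i.1 then q c * q m else 0) = (if m = i.1 then q c else 0) * q m := by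
        split_ifs <;> ring
      have h4 : (if m = c then q i.1 * q m else 0) = (if m = c then q i.1 else 0) * q m := by
        split_ifs <;> ring
      rw [h3, h4]
      linear_combination (h * ((if m = i.1 then q c else 0) - (if m = c then q i.1 else 0)) *
          q m) * h2
    simp only [h1]
    rw [← Finset.mul_sum, Finset.sum_sub_distrib, Finset.sum_ite_eq', Finset.sum_ite_eq',
      if_pos (Finset.mem_univ _), if_pos (Finset.mem_univ _)]
    ring
  · simp
  · intro x y _ _ hx hy
    simp only [Pi.add_apply, add_mul, Finset.sum_add_distrib, hx, hy, add_zero]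
  · intro s x _ hx
    simp only [Pi.smul_apply, smul_eq_mul, mul_assoc, ← Finset.mul_sum, hx, mul_zero]

/-- linear algebra: `Bf` with a vector of the flat at `u = 0` -/
theorem Bf_flat {L : Type*} [Field L] (t a : ZI n → L) (hac : ∀ i, a (cIdx i) = 0)
    (q : Fin (n + 1) → L) (hq : ∀ i, q i = a (Sum.inr i) - a (Sum.inl i)) :
    Bf t a = ∑ m, cmap n L t m * (sg L m * q m) := by
  unfold Bf
  rw [Fin.sum_univ_succ, Fin.sum_univ_succ]
  have h2 : a (Sum.inr 0) = 0 := hac 0
  have h3 : ∀ j : Fin n, a (Sum.inl j.succ) = 0 := fun j => hac j.succ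
  congr 1
  · rw [hq, h2, mul_zero, zero_add, zero_sub]
    show _ = t (Sum.inr 0) * _
    unfold sg
    rw [if_pos rfl]
    ring
  · refine Finset.sum_congr rfl fun j _ => ?_
    rw [hq, h3, mul_zero, add_zero, sub_zero]
    show _ = t (Sum.inl j.succ) * _
    unfold sg
    rw [if_neg (Fin.succ_ne_zero j), one_mul]

/-- linear algebra: independence -/
theorem option_li {L : Type*} [Field L] {c : Fin (n + 1)} (a : ZI n → L)
    (b : {i : Fin (n + 1) // i ≠ c} → ZI n → L) (ha0 : a ≠ 0) (hac : cmap n L a = 0)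
    (hli : LinearIndependent L (fun i => cmap n L (b i))) :
    LinearIndependent L (fun o : Option {i : Fin (n + 1) // i ≠ c} => o.elim a b) := by
  classical
  rw [Fintype.linearIndependent_iff]
  intro g hg
  rw [Fintype.sum_option] at hg
  have h1 := congrArg (cmap n L) hg
  rw [map_add, map_sum, map_smul, map_zero] at h1
  have h2 : cmap n L ((none : Option {i : Fin (n + 1) // i ≠ c}).elim a b) = 0 := hac
  rw [h2, smul_zero, zero_add] at h1
  have h3 : ∀ i, g (some i) = 0 := by
    rw [Fintype.linearIndependent_iff] at hli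
    refine hli (fun i => g (some i)) ?_
    rw [← h1]
    refine Finset.sum_congr rfl fun i _ => ?_
    rw [map_smul]
    rfl
  have h4 : g none = 0 := by
    have h5 : g none • a = 0 := by
      rw [← hg]
      simp only [h3, zero_smul, Finset.sum_const_zero, add_zero]
      rfl
    exact (smul_eq_zero.1 h5).resolve_right ha0
  intro o
  rcases o with _ | i
  · exact h4
  · exact h3 i

theorem Bf_toL (x y : ZI n → RZ n) : Bf (fun z => toL p (x z)) (fun z => toL p (y z)) =
    toL p (Bf x y) := by
  unfold Bf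
  rw [map_sum]
  exact Finset.sum_congr rfl fun i _ => by rw [map_add, map_mul, map_mul]

theorem Bf_smul_left {R : Type*} [CommRing R] (d : R) (t t' x : ZI n → R)
    (h : ∀ y, t' y = d * t y) : Bf t' x = d * Bf t x := by
  unfold Bf
  rw [Finset.mul_sum]
  refine Finset.sum_congr rfl fun i _ => ?_
  rw [h, h]
  ring

/-- members of the radical kill all tangent vectors -/
theorem rad_kill {x : ZI n → RZ n} (hx : IsRad p x) {t : ZI n → LF p} (ht : t ∈ TL p) :
    Bf t (fun y => toL p (x y)) = 0 := by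
  obtain ⟨d, hd, a', ha', haw', -⟩ := exists_clear_tan p ht
  have hdL : toL p d ≠ 0 := fun h => hd ((toL_eq_zero_iff p).1 h)
  have h1 : toL p d * Bf t (fun y => toL p (x y)) = 0 := by
    rw [← Bf_smul_left (toL p d) t (fun y => toL p (a' y)) _ haw', Bf_toL, Bf_comm]
    exact (toL_eq_zero_iff p).2 (hx.2 a' ha')
  exact (mul_eq_zero.1 h1).resolve_left hdL

/-- **isotropy** -/
theorem isotropic (hΔ : ∀ O : Matrix (Fin (n + 1)) (Fin (n + 1)) ℝ, O.transpose = -O →
      ∃ Δ : Derivation k (RZ n) (RZ n), (∀ c : ℝ, ∃ c' : ℝ, Δ (C c) = C c') ∧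
        (∀ y, Δ (X y) = GZ O y) ∧ ∀ F ∈ p, Δ F ∈ p)
    {w : ZI n → LF p} (hw : w ∈ TL p) (hw0 : w ≠ 0) (hwc : cmap n (LF p) w = 0)
    (hle : finrank (LF p) ((TL p).map (cmap n (LF p))) ≤ n) :
    ∀ t ∈ TL p, ∀ t' ∈ TL p, Bf t t' = 0 := by
  classical
  obtain ⟨a, q, c, b, ha, hac, hq, hc, hb, hbr, hbc⟩ := key p hΔ hw hw0 hwc
  have hli := key_li p hc hbc
  have hacL : ∀ i, toL p (a (cIdx i)) = 0 := fun i => by rw [hac, map_zero]
  -- the equation of the projection
  have hform := form_lin (q := fun m => toL p (q m)) (toL p (C (1 / 2)))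
    (fun i => cmap n (LF p) (fun y => toL p (b i y))) hbc hli ((TL p).map (cmap n (LF p)))
    (fun i => ⟨_, (toL_mem_TL p).2 (hb i), rfl⟩) hle
  have hra : IsRad p a := by
    refine ⟨ha, fun b' hb' => ?_⟩
    rw [← toL_eq_zero_iff p, ← Bf_toL, Bf_comm, Bf_flat _ (fun z => toL p (a z)) hacL
      (fun m => toL p (q m)) (fun i => by rw [hq, map_sub])]
    exact hform _ ⟨_, (toL_mem_TL p).2 hb', rfl⟩
  have ha0 : (fun y => toL p (a y)) ≠ 0 := by
    intro h0
    have h7 : toL p (q c) = 0 := by
      rw [hq, map_sub]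
      have h8 : toL p (a (Sum.inr c)) = 0 := congrFun h0 (Sum.inr c)
      have h9 : toL p (a (Sum.inl c)) = 0 := congrFun h0 (Sum.inl c)
      rw [h8, h9, sub_zero]
    exact hc ((toL_eq_zero_iff p).1 h7)
  refine iso_lin (TL p) (ι := Option {i : Fin (n + 1) // i ≠ c}) ?_
    (fun o => o.elim (fun y => toL p (a y)) (fun i y => toL p (b i y)))
    (option_li (fun y => toL p (a y)) (fun i y => toL p (b i y)) ha0 (funext hacL) hli) ?_ ?_
  · rw [Fintype.card_option, Fintype.card_subtype_compl, Fintype.card_fin,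
      Fintype.card_subtype_eq]
    rfl
  · rintro (_ | i)
    · exact (toL_mem_TL p).2 ha
    · exact (toL_mem_TL p).2 (hb i)
  · rintro (_ | i) t ht
    · exact rad_kill p hra ht
    · exact rad_kill p (hbr hra i) ht

end main

end Vale.Agent.P054.T3.H955
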