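import Vale.Agent.P054.T3.H955.Vert3
import Vale.Agent.P054.T2.H930.Tan2
import Vale.Agent.P054.T3.H794.Braid

/-!
# P054 / T3, Lemma V, vertical case (4): the two dimension estimates for `HData`
-/

set_option autoImplicit false
set_option linter.unusedSectionVars false

open MvPolynomial Module

namespace Vale.Agent.P054.T3.H955

open Vale.Agent.P054.T2 Vale.Agent.P054.T2.H686 Vale.Agent.P054.T2.H580 Vale.Agent.P054.T2.SecC
open Vale.Agent.P054.T2.H930
open Vale.Agent.P054.T2.H455 (xh der_mem_germ)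
open Vale.Agent.P054.T2.H441 (cD cD_C cD_X chg)

section general

/-- independence at a point implies independence at the generic point -/
theorem li_of_ev {R k K : Type*} [CommRing R] [Field k] [Field K] (ev : R →+* k) (ρ : R →+* K)
    (h : ∀ F, ρ F = 0 → ev F = 0) {m γ : Type*} [Fintype m] [Fintype γ] (M : Matrix m γ R)
    (hM : LinearIndependent k (M.map ev).row) : LinearIndependent K (M.map ρ).row := by
  classical
  have hrank : (M.map ev).rank = Fintype.card m := hM.rank_matrix
  obtain ⟨f, g, hdet⟩ := exists_minor (M.map ev) (Fintype.card m) hrank.ge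
  have h1 : ((M.map ρ).submatrix f g).det ≠ 0 := by
    have h2 : ((M.map ρ).submatrix f g).det = ρ ((M.submatrix f g).det) := by
      rw [RingHom.map_det]
      rfl
    rw [h2]
    intro h0
    have h3 := h _ h0
    rw [RingHom.map_det] at h3
    exact hdet h3
  have h6 : ((M.map ρ).submatrix f g).rank = Fintype.card m := by
    rw [Matrix.rank_of_det_ne_zero h1, Fintype.card_fin]
  have h7 := Matrix.rank_submatrix_le (M.map ρ) f g
  have h8 : Fintype.card m ≤ finrank K (Submodule.span K (Set.range (M.map ρ).row)) := by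
    rw [← Matrix.rank_eq_finrank_span_row]
    omega
  rw [linearIndependent_iff_card_eq_finrank_span]
  exact le_antisymm h8 (finrank_range_le_card _)

/-- the velocity vectors of a germ are independent -/
theorem dvec_li {X : Type*} [Fintype X] [DecidableEq X] (p : X → ℝ) {D : ℕ}
    (φ : MvPolynomial X ℝ →ₐ[ℝ] MvPowerSeries (Fin D) ℝ) (a : Fin D → X → ℝ)
    (ha : ∀ l, φ (∑ j, C (a l j) * (MvPolynomial.X j - C (p j))) = MvPowerSeries.X l)
    {L : Type*} [Field L] (ι : MvPowerSeries (Fin D) ℝ →+* L) :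
    LinearIndependent L (fun (l : Fin D) (j : X) =>
      ι (MvPowerSeries.pderiv ℝ l (φ (MvPolynomial.X j)))) := by
  classical
  rw [Fintype.linearIndependent_iff]
  intro g hg m
  have h1 : ∀ l, ∑ j, ι (algebraMap ℝ _ (a m j)) *
      ι (MvPowerSeries.pderiv ℝ l (φ (MvPolynomial.X j))) = if m = l then 1 else 0 := by
    intro l
    have h2 : MvPowerSeries.pderiv ℝ l (φ (∑ j, C (a m j) * (MvPolynomial.X j - C (p j))))
        = ∑ j, algebraMap ℝ (MvPowerSeries (Fin D) ℝ) (a m j)
          * MvPowerSeries.pderiv ℝ l (φ (MvPolynomial.X j)) := by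
      rw [map_sum, map_sum]
      refine Finset.sum_congr rfl (fun j _ => ?_)
      have h3 : φ (C (a m j) * (MvPolynomial.X j - C (p j)))
          = algebraMap ℝ _ (a m j) * (φ (MvPolynomial.X j) - algebraMap ℝ _ (p j)) := by
        rw [map_mul, map_sub, MvPolynomial.algHom_C, MvPolynomial.algHom_C]
      rw [h3, Derivation.leibniz, Derivation.map_algebraMap, smul_zero, add_zero, map_sub,
        Derivation.map_algebraMap, sub_zero, smul_eq_mul]
    rw [ha, MvPowerSeries.pderiv_X] at h2
    have h4 := congrArg ι h2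
    rw [map_sum] at h4
    simp only [map_mul] at h4
    rw [← h4, Pi.single_apply]
    by_cases h : m = l
    · simp [h]
    · simp [h]
  have h2 : ∑ j, ι (algebraMap ℝ _ (a m j)) * (∑ l, g l • fun j : X =>
      ι (MvPowerSeries.pderiv ℝ l (φ (MvPolynomial.X j)))) j = g m := by
    have h3 : ∀ j, ι (algebraMap ℝ (MvPowerSeries (Fin D) ℝ) (a m j)) * (∑ l, g l • fun j : X =>
        ι (MvPowerSeries.pderiv ℝ l (φ (MvPolynomial.X j)))) j
        = ∑ l, g l * (ι (algebraMap ℝ _ (a m j)) *
          ι (MvPowerSeries.pderiv ℝ l (φ (MvPolynomial.X j)))) := by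
      intro j
      rw [Finset.sum_apply, Finset.mul_sum]
      refine Finset.sum_congr rfl (fun l _ => ?_)
      rw [Pi.smul_apply, smul_eq_mul]; ring
    rw [Finset.sum_congr rfl (fun j _ => h3 j), Finset.sum_comm]
    simp only [← Finset.mul_sum, h1]
    rw [Finset.sum_eq_single m]
    · rw [if_pos rfl, mul_one]
    · intro l _ hl
      rw [if_neg (Ne.symm hl), mul_zero]
    · intro h; exact absurd (Finset.mem_univ _) h
  rw [hg] at h2
  simpa using h2.symm

end general

variable {n : ℕ}

theorem psi_iot (G : US n) : psi n (iot n G) = G := by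
  induction G using MvPolynomial.induction_on with
  | C c => rw [iot_C, HData.psi_rename]
  | add p q hp hq => rw [map_add, map_add, hp, hq]
  | mul_X p i hp =>
    rw [map_mul, map_mul, hp, iot_X]
    congr 1
    unfold psi
    rw [aeval_X]
    rfl

theorem psi_X (x : Crd n ⊕ Pt n) : psi n (X x) = psiX n x := by
  unfold psi
  rw [aeval_X]

/-- the lift of a tangent field of `s` along the leaf parametrisation, with constant `u` -/
noncomputable def lft (a : ZI n → RZ n) : Crd n ⊕ Pt n → MvPolynomial (Crd n ⊕ Pt n) ℝ :=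
  fun x => iot n (cD (th a) (psiX n x))

theorem psi_lft (a : ZI n → RZ n) (F : MvPolynomial (Crd n ⊕ Pt n) ℝ) :
    psi n (mkDerivation ℝ (lft a) F) = cD (th a) (psi n F) := by
  induction F using MvPolynomial.induction_on with
  | C c =>
    rw [derivation_C, map_zero]
    have h1 : psi n (C c) = C (C c) := (psi n).commutes c
    rw [h1, cD_C, th_C, map_zero]
  | add p q hp hq => rw [map_add, map_add, map_add, map_add, hp, hq]
  | mul_X p i hp =>
    rw [Derivation.leibniz, mkDerivation_X, map_add, smul_eq_mul, smul_eq_mul, map_mul, map_mul,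
      hp, map_mul, Derivation.leibniz, smul_eq_mul, smul_eq_mul, psi_X]
    congr 2
    show psi n (iot n (cD (th a) (psiX n i))) = _
    rw [psi_iot]

theorem coeff_cD' (a : ZI n → RZ n) (G : US n) (α : Fin n →₀ ℕ) :
    coeff α (cD (th a) G) = th a (coeff α G) := H441.coeff_cD _ _ _

namespace HData

variable {E0 E1 E2 : Finset (ZZ n × ZZ n)} {wt : Crd n ⊕ Pt n → ℕ} {N c₀ c₁ : ℕ}
  (H : HData n E0 E1 E2 wt N c₀ c₁)

/-- the lift of a tangent field preserves the germ prime -/
theorem lft_mem {e : ZZ n × ZZ n} (he : e ∈ E2) {a : ZI n → RZ n} (ha : IsTan (H.Ps e) a)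
    {F : MvPolynomial (Crd n ⊕ Pt n) ℝ} (hF : F ∈ H.P e) :
    mkDerivation ℝ (lft a) F ∈ H.P e := by
  rw [H.mem_P_iff he] at hF ⊢
  intro α
  rw [psi_lft, coeff_cD']
  exact isTan_iff.1 ha _ (hF α)

/-- the germ map at an edge -/
theorem exists_rho {e : ZZ n × ZZ n} (he : e ∈ E2) :
    ∃ D : ℕ, D + (c₀ + c₁) = 4 * n + 3 ∧
      ∃ (φ : MvPolynomial (Crd n ⊕ Pt n) ℝ →ₐ[ℝ] MvPowerSeries (Fin D) ℝ)
        (a : Fin D → Crd n ⊕ Pt n → ℝ),
        (∀ l, φ (∑ j, C (a l j) * (MvPolynomial.X j - C (xh e j))) = MvPowerSeries.X l) ∧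
        (∀ F, φ F = 0 ↔ F ∈ H.P e) ∧
        (∀ F, MvPowerSeries.constantCoeff (φ F) = eval (xh e) F) := by
  obtain ⟨D, hD, φ, a, ζ, h1, h2, h3, h4, h5⟩ :=
    H930.exists_germ (xh e) H.phi (fun i => H.phi_zero (H.mem0 he) i) (H.phi_ind he)
  have hker := germ_eq_ker φ h4
  refine ⟨D, ?_, φ, a, ?_, ?_, constantCoeff_of_J (fun i => H.phi_zero (H.mem0 he) i) φ h4⟩
  · rw [hD]
    simp only [Fintype.card_sum, Fintype.card_fin, Fintype.card_unit]
    omega
  · intro l
    rw [← h1 l]
    have := h2 (MvPolynomial.X l)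
    rw [aeval_X, MvPolynomial.coe_X] at this
    exact this
  · intro F
    show _ ↔ F ∈ germ (xh e) H.phi
    rw [hker]; exact Iff.rfl

/-- index of the coordinates `z, b_1, …, b_n` -/
def gIdx (n : ℕ) : Fin (n + 1) → Crd n := Fin.cases (Sum.inr (Sum.inr ())) (fun l => Sum.inr (Sum.inl l))

theorem sum_Crd {R : Type*} [AddCommMonoid R] (g : Crd n → R) :
    ∑ x, g x = ∑ l : Fin n, g (Sum.inl l) + ∑ i, g (gIdx n i) := by
  rw [Fintype.sum_sum_type, Fintype.sum_sum_type, Fin.sum_univ_succ]
  congr 1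
  rw [add_comm]
  congr 1
  simp [gIdx]

/-- the matrix entries of the projection of a tangent field -/
theorem coeff_lift (a : ZI n → RZ n) (i : Fin (n + 1)) :
    coeff 0 (cD (th a) (psiX n (Sum.inl (gIdx n i)))) =
      (if i = 0 then -1 else 1) * a (cIdx i) := by
  rw [coeff_cD']
  refine Fin.cases ?_ (fun l => ?_) i
  · have h1 : coeff 0 (psiX n (Sum.inl (gIdx n 0))) = - X (Sum.inr 0) := by
      show coeff 0 (- C (X (Sum.inr 0)) - ∑ l : Fin n, C (X (Sum.inr l.succ)) * X l : US n) = _
      rw [coeff_sub, coeff_neg, coeff_zero_C, coeff_sum]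
      have h2 : ∑ l : Fin n, coeff 0 (C (X (Sum.inr l.succ)) * X l : US n) = 0 :=
        Finset.sum_eq_zero fun l _ => by rw [coeff_C_mul, coeff_zero_X, mul_zero]
      rw [h2, sub_zero]
    rw [h1, map_neg, th_X, if_pos rfl, neg_one_mul]
    rfl
  · have h1 : coeff 0 (psiX n (Sum.inl (gIdx n l.succ))) = X (Sum.inl l.succ) := by
      show coeff 0 (C (X (Sum.inl l.succ)) - C (X (Sum.inl 0)) * X l : US n) = _
      rw [coeff_sub, coeff_zero_C, coeff_C_mul, coeff_zero_X, mul_zero, sub_zero]
    rw [h1, th_X, if_neg (Fin.succ_ne_zero l), one_mul]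
    rfl

end HData

end Vale.Agent.P054.T3.H955
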