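import Vale.Agent.P054.T3.H955.Vert4

/-!
# P054 / T3, Lemma V, vertical case (5): conclusion
-/

set_option autoImplicit false
set_option linter.unusedSectionVars false

open MvPolynomial Module

namespace Vale.Agent.P054.T3.H955

open Vale.Agent.P054.T2 Vale.Agent.P054.T2.H686 Vale.Agent.P054.T2.H580 Vale.Agent.P054.T2.SecC
open Vale.Agent.P054.T2.H930
open Vale.Agent.P054.T2.H455 (xh der_mem_germ)
open Vale.Agent.P054.T2.H441 (cD cD_C cD_X chg)

variable {n : ℕ}

namespace HData

variable {E0 E1 E2 : Finset (ZZ n × ZZ n)} {wt : Crd n ⊕ Pt n → ℕ} {N c₀ c₁ : ℕ}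
  (H : HData n E0 E1 E2 wt N c₀ c₁)

section rho

variable {K : Type*} [Field K] (ρ : MvPolynomial (Crd n ⊕ Pt n) ℝ →+* K)

/-- the base equation, seen on the hat -/
noncomputable def Fb (j : Fin c₀) : MvPolynomial (Crd n ⊕ Pt n) ℝ := rename Sum.inl (H.f j)

theorem Fb_mem (e : ZZ n × ZZ n) (j : Fin c₀) : H.Fb j ∈ H.P e := by
  have h1 : H.Fb j = H.phi (Fin.castAdd c₁ j) := (H.phi_left j).symm
  rw [h1]
  exact f_mem_germ _ _ _

theorem pderiv_inr_Fb (y : Pt n) (j : Fin c₀) : pderiv (Sum.inr y) (H.Fb j) = 0 :=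
  pderiv_rename_notMem Sum.inl _ _ (by rintro ⟨a, ha⟩; cases ha)

/-- the covectors `(∂_z f, ∂_b f)` -/
noncomputable def Nv (j : Fin c₀) (i : Fin (n + 1)) : K := ρ (pderiv (Sum.inl (gIdx n i)) (H.Fb j))

include H in
/-- their independence -/
theorem Nv_li {e : ZZ n × ZZ n} (he : e ∈ E2) (hρ : ∀ F, ρ F = 0 ↔ F ∈ H.P e) :
    LinearIndependent K (fun j => H.Nv ρ j) := by
  classical
  have hev : ∀ F, ρ F = 0 → eval (xh e) F = 0 := fun F hF =>
    eval_eq_zero_of_mem_germ (fun i => H.phi_zero (H.mem0 he) i) ((hρ F).1 hF)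
  let M : Matrix (Fin c₀) (Crd n) (MvPolynomial (Crd n ⊕ Pt n) ℝ) :=
    Matrix.of fun j x => pderiv (Sum.inl x) (H.Fb j)
  have h1 : LinearIndependent ℝ (M.map (eval (xh e))).row := by
    have h2 : (M.map (eval (xh e))).row = fun i => grad (meet e.1 e.2) (H.f i) := by
      funext i x
      show eval (xh e) (pderiv (Sum.inl x) (rename Sum.inl (H.f i))) = _
      rw [pderiv_rename Sum.inl_injective, eval_rename]
      rfl
    rw [h2]
    exact H.f_ind e he
  have h2 := li_of_ev (eval (xh e)) ρ hev M h1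
  rw [Fintype.linearIndependent_iff] at h2 ⊢
  intro g hg
  apply h2 g
  have hgi : ∀ i, ∑ j, g j * ρ (pderiv (Sum.inl (gIdx n i)) (H.Fb j)) = 0 := by
    intro i
    have := congrFun hg i
    rw [Finset.sum_apply] at this
    exact this
  funext x
  rw [Finset.sum_apply, Pi.zero_apply]
  show ∑ j, g j * ρ (pderiv (Sum.inl x) (H.Fb j)) = 0
  rcases x with l | l | l
  · -- the leaf derivation
    have h3 : ∀ j, ρ (pderiv (Sum.inl (Sum.inl l)) (H.Fb j)) =
        ρ (X (Sum.inr (Sum.inl 0))) * ρ (pderiv (Sum.inl (gIdx n l.succ)) (H.Fb j)) +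
        ρ (X (Sum.inr (Sum.inr l.succ))) * ρ (pderiv (Sum.inl (gIdx n 0)) (H.Fb j)) := by
      intro j
      have h4 := (hρ _).2 (H.Eder_mem he l (H.Fb_mem e j))
      rw [Eder_apply, map_sum, Fintype.sum_sum_type, Fintype.sum_sum_type] at h4
      have h5 : ∑ m : Fin n, ρ (Evel l (Sum.inl m) * pderiv (Sum.inl (Sum.inl m)) (H.Fb j)) =
          ρ (pderiv (Sum.inl (Sum.inl l)) (H.Fb j)) := by
        rw [Finset.sum_eq_single l]
        · show ρ ((if l = l then (1 : MvPolynomial (Crd n ⊕ Pt n) ℝ) else 0) * _) = _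
          rw [if_pos rfl, one_mul]
        · intro m _ hm
          show ρ ((if m = l then (1 : MvPolynomial (Crd n ⊕ Pt n) ℝ) else 0) * _) = _
          rw [if_neg hm, zero_mul, map_zero]
        · intro h; exact absurd (Finset.mem_univ _) h
      have h6 : ∑ m : Fin n, ρ (Evel l (Sum.inr (Sum.inl m)) *
          pderiv (Sum.inl (Sum.inr (Sum.inl m))) (H.Fb j)) =
          - (ρ (X (Sum.inr (Sum.inl 0))) *
            ρ (pderiv (Sum.inl (gIdx n l.succ)) (H.Fb j))) := by
        rw [Finset.sum_eq_single l]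
        · show ρ ((if l = l then - X (Sum.inr (Sum.inl 0)) else 0) * _) = _
          rw [if_pos rfl, map_mul, map_neg, neg_mul]
          rfl
        · intro m _ hm
          show ρ ((if m = l then - X (Sum.inr (Sum.inl 0)) else 0) * _) = _
          rw [if_neg hm, zero_mul, map_zero]
        · intro h; exact absurd (Finset.mem_univ _) h
      have h7 : ∑ m : Unit, ρ (Evel l (Sum.inr (Sum.inr m)) *
          pderiv (Sum.inl (Sum.inr (Sum.inr m))) (H.Fb j)) =
          - (ρ (X (Sum.inr (Sum.inr l.succ))) *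
            ρ (pderiv (Sum.inl (gIdx n 0)) (H.Fb j))) := by
        rw [Finset.univ_unique, Finset.sum_singleton]
        show ρ (- X (Sum.inr (Sum.inr l.succ)) * _) = _
        rw [map_mul, map_neg, neg_mul]
        rfl
      rw [h5, h6, h7] at h4
      linear_combination h4
    have h8 : ∑ j, g j * ρ (pderiv (Sum.inl (Sum.inl l)) (H.Fb j)) =
        ρ (X (Sum.inr (Sum.inl 0))) *
          ∑ j, g j * ρ (pderiv (Sum.inl (gIdx n l.succ)) (H.Fb j)) +
        ρ (X (Sum.inr (Sum.inr l.succ))) *
          ∑ j, g j * ρ (pderiv (Sum.inl (gIdx n 0)) (H.Fb j)) := by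
      rw [Finset.mul_sum, Finset.mul_sum, ← Finset.sum_add_distrib]
      refine Finset.sum_congr rfl fun j _ => ?_
      rw [h3]
      ring
    rw [h8, hgi, hgi, mul_zero, mul_zero, add_zero]
  · exact hgi l.succ
  · exact hgi 0

include H in
/-- **the projection of the tangent space at `u = 0` has dimension at most `n + 1 - c₀`** -/
theorem finrank_map_add {e : ZZ n × ZZ n} (he : e ∈ E2) (hρ : ∀ F, ρ F = 0 ↔ F ∈ H.P e)
    [hp : (H.Ps e).IsPrime] :
    finrank (LF (H.Ps e)) ((TL (H.Ps e)).map (cmap n (LF (H.Ps e)))) + c₀ ≤ n + 1 := by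
  classical
  set L := LF (H.Ps e) with hL
  set p := H.Ps e with hpdef
  set m := finrank L ((TL p).map (cmap n L)) with hm
  -- lifts of a basis
  let bs := Module.finBasis L ((TL p).map (cmap n L))
  have hex : ∀ i : Fin m, ∃ a : ZI n → RZ n, IsTan p a ∧ ∃ d : L, d ≠ 0 ∧
      ∀ j, toL p (a (cIdx j)) = d * (bs i : Fin (n + 1) → L) j := by
    intro i
    obtain ⟨w, hw, hwb⟩ := (bs i).2
    obtain ⟨d, hd, a, ha, haw, -⟩ := exists_clear_tan p hw
    refine ⟨a, ha, toL p d, fun h => hd ((toL_eq_zero_iff p).1 h), fun j => ?_⟩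
    rw [haw, ← hwb]
    rfl
  choose a ha d hd had using hex
  -- the matrix over `ℝ[s][u]`
  let A : Matrix (Fin m) (Fin (n + 1)) (US n) :=
    Matrix.of fun i j => cD (th (a i)) (psiX n (Sum.inl (gIdx n j)))
  let ev0 : US n →+* L := (toL p).comp (constantCoeff : US n →+* MvPolynomial (Pt n) ℝ)
  have hli0 : LinearIndependent L (A.map ev0).row := by
    have h1 : LinearIndependent L (fun i => (bs i : Fin (n + 1) → L)) :=
      bs.linearIndependent.map' (Submodule.subtype _) (Submodule.ker_subtype _)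
    rw [Fintype.linearIndependent_iff] at h1 ⊢
    intro g hg i
    have h2 := h1 (fun i => g i * d i) (by
      funext j
      have h3 := congrFun hg j
      rw [Finset.sum_apply, Pi.zero_apply] at h3 ⊢
      have h4 : ∀ i, (g i • (A.map ev0).row i) j =
          (if j = 0 then -1 else 1) * ((g i * d i) • (bs i : Fin (n + 1) → L)) j := by
        intro i
        show g i * toL p (coeff 0 (cD (th (a i)) (psiX n (Sum.inl (gIdx n j))))) = _
        rw [coeff_lift, map_mul, had, Pi.smul_apply, smul_eq_mul]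
        split_ifs
        · rw [map_neg, map_one]; ring
        · rw [map_one]; ring
      simp only [h4] at h3
      rw [← Finset.mul_sum] at h3
      refine (mul_eq_zero.1 h3).resolve_left ?_
      split_ifs
      · exact neg_ne_zero.2 one_ne_zero
      · exact one_ne_zero) i
    exact (mul_eq_zero.1 h2).resolve_right (hd i)
  have hliK := li_of_ev ev0 (ρ.comp (iot n)) (fun F hF => by
    have h1 : iot n F ∈ H.P e := (hρ _).1 hF
    have h2 := (H.mem_P_iff he _).1 h1 0
    rw [psi_iot] at h2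
    exact (toL_eq_zero_iff p).2 h2) A hli0
  -- orthogonality
  set G := Submodule.span K (Set.range fun j => H.Nv ρ j) with hG
  have hGfin : finrank K G = c₀ := by
    rw [hG, finrank_span_eq_card (H.Nv_li ρ he hρ), Fintype.card_fin]
  have hrow : ∀ i, (A.map (ρ.comp (iot n))).row i ∈ perp G := by
    intro i
    rw [mem_perp]
    intro η hη
    refine Submodule.span_induction
      (p := fun η _ => ∑ x, (A.map (ρ.comp (iot n))).row i x * η x = 0) ?_ ?_ ?_ ?_ hη
    · rintro _ ⟨j, rfl⟩
      have h1 := (hρ _).2 (H.lft_mem he (ha i) (H.Fb_mem e j))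
      rw [H441.mkDerivation_eq_sum, map_sum, Fintype.sum_sum_type, sum_Crd] at h1
      have h2 : ∑ x : Pt n, ρ (pderiv (Sum.inr x) (H.Fb j) * lft (a i) (Sum.inr x)) = 0 :=
        Finset.sum_eq_zero fun x _ => by rw [pderiv_inr_Fb, zero_mul, map_zero]
      have h3 : ∑ l : Fin n, ρ (pderiv (Sum.inl (Sum.inl l)) (H.Fb j) *
          lft (a i) (Sum.inl (Sum.inl l))) = 0 := by
        refine Finset.sum_eq_zero fun l _ => ?_
        have h4 : lft (a i) (Sum.inl (Sum.inl l)) = 0 := by
          show iot n (cD (th (a i)) (X l)) = 0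
          rw [cD_X, map_zero]
        rw [h4, mul_zero, map_zero]
      rw [h2, h3, zero_add, add_zero] at h1
      rw [← h1]
      refine Finset.sum_congr rfl fun x _ => ?_
      rw [map_mul, mul_comm]
      rfl
    · simp
    · intro x y _ _ hx hy
      simp only [Pi.add_apply, mul_add, Finset.sum_add_distrib, hx, hy, add_zero]
    · intro c x _ hx
      simp only [Pi.smul_apply, smul_eq_mul, mul_left_comm _ c, ← Finset.mul_sum, hx, mul_zero]
  have h5 : LinearIndependent K (fun i => (⟨_, hrow i⟩ : perp G)) :=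
    LinearIndependent.of_comp (Submodule.subtype _) hliK
  have h6 := h5.fintype_card_le_finrank
  rw [Fintype.card_fin] at h6
  have h7 := finrank_perp G
  rw [Fintype.card_fin] at h7
  omega

end rho

end HData

end Vale.Agent.P054.T3.H955
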